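import Vale.Agent.Lib.P368y.Column3

/-!
Reflection blocks: one input qubit with two orthonormal states, other qubits in a product state.
-/

open scoped BigOperators Matrix Matrix.Norms.L2Operator

namespace Vale.Agent.Lib.P368y

open Vale.Agent.Lib.P368x

variable {N : ℕ} {ι : Type*} [DecidableEq ι]

/-- The matrix with columns `α false`, `α true`. -/
noncomputable def amat (α : Bool → Bool → ℂ) : M2 := Matrix.of fun c b => α b c

/-- An orthonormal basis of `ℂ²`. -/
def ON (α : Bool → Bool → ℂ) : Prop := Uni (amat α)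

namespace ON

variable {α : Bool → Bool → ℂ} (h : ON α)

include h

lemma rows (c c' : Bool) :
    α false c * star (α false c') + α true c * star (α true c') = if c = c' then 1 else 0 := by
  have := congrFun (congrFun h.2 c) c'
  simp only [Matrix.mul_apply, Fintype.sum_bool, amat, Matrix.conjTranspose_apply, Matrix.of_apply,
    Matrix.one_apply] at this
  rw [add_comm]
  exact this

lemma cols (b b' : Bool) : ip (α b) (α b') = if b = b' then 1 else 0 := by
  have := congrFun (congrFun h.1 b) b'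
  simp only [Matrix.mul_apply, Fintype.sum_bool, amat, Matrix.conjTranspose_apply, Matrix.of_apply,
    Matrix.one_apply] at this
  rw [ip, add_comm]
  exact this

lemma unit (b : Bool) : nsq (α b) = 1 := by
  have h1 := h.cols b b
  rw [ip_self] at h1
  simp only [if_true] at h1
  exact_mod_cast h1

lemma complete (u v : Bool → ℂ) :
    ip u (α false) * ip (α false) v + ip u (α true) * ip (α true) v = ip u v := by
  have h00 := h.rows false false
  have h01 := h.rows false true
  have h10 := h.rows true false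
  have h11 := h.rows true true
  simp only [if_true, reduceCtorEq, if_false] at h00 h01 h10 h11
  simp only [ip]
  linear_combination (star (u false) * v false) * h00 + (star (u false) * v true) * h01
    + (star (u true) * v false) * h10 + (star (u true) * v true) * h11

lemma trace (X : M2) :
    ip (α false) (X *ᵥ α false) + ip (α true) (X *ᵥ α true) = X false false + X true true := by
  have h00 := h.rows false false
  have h01 := h.rows false true
  have h10 := h.rows true false
  have h11 := h.rows true true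
  simp only [if_true, reduceCtorEq, if_false] at h00 h01 h10 h11
  simp only [ip, Matrix.mulVec, dotProduct, Fintype.sum_bool]
  linear_combination (X false false) * h00 + (X false true) * h10
    + (X true false) * h01 + (X true true) * h11

end ON

lemma ip_adj (u v : Bool → ℂ) (X : M2) : ip u (X *ᵥ v) = ip (Xᴴ *ᵥ u) v := by
  simp only [ip, Matrix.mulVec, dotProduct, Fintype.sum_bool, Matrix.conjTranspose_apply, star_add,
    star_mul']
  simp only [star_star]
  ring

lemma proj1_trace {X : M2} (h : Proj1 X) : X false false + X true true = 1 := by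
  obtain ⟨u, hu, rfl⟩ := h
  have h0 := ip_self_unit hu
  simp only [Matrix.vecMulVec_apply, Pi.star_apply]
  simp only [ip] at h0
  linear_combination h0

/-- The reflection applied to a product ket is a contraction. -/
lemma refl_norm (S : Finset (Fin N)) (u v : Fin N → Bool → ℂ) (hu : ∀ s ∈ S, nsq (u s) = 1)
    (hv : ∀ s ∈ S, nsq (v s) = 1) :
    ‖Kt S u - (2 * ∏ s ∈ S, ip (v s) (u s)) • Kt S v‖ ≤ 1 := by
  set c := ∏ s ∈ S, ip (v s) (u s) with hc
  have h := norm_comb_sq_le S u v hu hv 1 (-(2 * c))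
  have e1 : (1 : ℂ) • Kt S u + (-(2 * c)) • Kt S v = Kt S u - (2 * c) • Kt S v := by
    rw [one_smul, neg_smul, sub_eq_add_neg]
  rw [e1] at h
  have e2 : ∏ s ∈ S, ip (u s) (v s) = star c := (star_prod_ip _ _ _).symm
  rw [e2] at h
  have e3 : (star (1 : ℂ) * (-(2 * c)) * star c).re = - 2 * ‖c‖ ^ 2 := by
    have : c * star c = ((‖c‖ ^ 2 : ℝ) : ℂ) := by
      simp [Complex.mul_conj']
    have e4 : star (1 : ℂ) * (-(2 * c)) * star c = -2 * (c * star c) := by
      simp; ring
    have e6 : (-2 : ℂ) * ((‖c‖ ^ 2 : ℝ) : ℂ) = ((-2 * ‖c‖ ^ 2 : ℝ) : ℂ) := by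
      push_cast; ring
    rw [e4, this, e6, Complex.ofReal_re]
  rw [e3] at h
  have e5 : ‖-(2 * c)‖ ^ 2 = 4 * ‖c‖ ^ 2 := by
    rw [norm_neg, norm_mul]
    simp
    ring
  rw [e5] at h
  simp only [norm_one] at h
  have h1 : ‖Kt S u - (2 * c) • Kt S v‖ ^ 2 ≤ 1 := by nlinarith
  nlinarith [norm_nonneg (Kt S u - (2 * c) • Kt S v)]

/-- Data of a family of reflection blocks. -/
structure BData (ι : Type*) (N : ℕ) where
  W : ι → Finset (Fin N)
  i : ι → Fin N
  ψ : ι → Fin N → Bool → ℂ
  e : ι → Fin N → Bool → ℂ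
  α : ι → Bool → Bool → ℂ
  hi : ∀ k, i k ∈ W k
  disj : ∀ j k, j ≠ k → Disjoint (W j) (W k)
  hψ : ∀ k s, nsq (ψ k s) = 1
  he : ∀ k s, nsq (e k s) = 1
  hα : ∀ k, ON (α k)

namespace BData

variable (B : BData ι N)

/-- The product state on the block with input value `b`. -/
noncomputable def eb (k : ι) (b : Bool) : Fin N → Bool → ℂ := Function.update (B.e k) (B.i k) (B.α k b)

/-- Overlap at the input. -/
noncomputable def f (k : ι) (b : Bool) : ℂ := ip (B.ψ k (B.i k)) (B.α k b)

/-- Overlap on the rest of the block. -/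
noncomputable def c (k : ι) : ℂ := ∏ s ∈ (B.W k).erase (B.i k), ip (B.ψ k s) (B.e k s)

/-- The coefficient. -/
noncomputable def z (k : ι) (b : Bool) : ℂ := 2 * B.f k b * B.c k

/-- The reflected product state. -/
noncomputable def K (k : ι) (b : Bool) : Op N :=
  Kt (B.W k) (B.eb k b) - B.z k b • Kt (B.W k) (B.ψ k)

lemma eb_unit (k : ι) (b : Bool) (s : Fin N) : nsq (B.eb k b s) = 1 := by
  by_cases hs : s = B.i k
  · subst hs; simpa [eb] using (B.hα k).unit b
  · simpa [eb, Function.update_of_ne hs] using B.he k s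

lemma overlap (k : ι) (b : Bool) :
    ∏ s ∈ B.W k, ip (B.ψ k s) (B.eb k b s) = B.f k b * B.c k := by
  rw [← Finset.mul_prod_erase _ _ (B.hi k)]
  congr 1
  · simp [eb, f]
  · refine Finset.prod_congr rfl fun s hs => ?_
    rw [eb, Function.update_of_ne (Finset.ne_of_mem_erase hs)]

lemma K_mem (k : ι) (b : Bool) : B.K k b ∈ SA (B.W k) :=
  sub_mem (Kt_mem_SA _ _) (Subalgebra.smul_mem _ (Kt_mem_SA _ _) _)

lemma K_norm (k : ι) (b : Bool) : ‖B.K k b‖ ≤ 1 := by
  have h := refl_norm (B.W k) (B.eb k b) (B.ψ k) (fun s _ => B.eb_unit k b s) (fun s _ => B.hψ k s)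
  rw [overlap] at h
  have e : 2 * (B.f k b * B.c k) = B.z k b := by rw [z]; ring
  rwa [e] at h

/-- The family of pairs of the blocks. -/
noncomputable def fam : Fam ι N where
  W := B.W
  K := B.K
  disj := B.disj
  mem := B.K_mem

lemma fam_nrm : B.fam.Nrm := B.K_norm

/-- Sum of the two input probabilities. -/
lemma f_sum (k : ι) : ‖B.f k false‖ ^ 2 + ‖B.f k true‖ ^ 2 = 1 := by
  have h := (B.hα k).complete (B.ψ k (B.i k)) (B.ψ k (B.i k))
  rw [ip_self_unit (B.hψ k _)] at h
  have h0 : ip (B.α k false) (B.ψ k (B.i k)) = star (B.f k false) := (star_ip _ _).symm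
  have h1 : ip (B.α k true) (B.ψ k (B.i k)) = star (B.f k true) := (star_ip _ _).symm
  rw [h0, h1] at h
  have e0 : ip (B.ψ k (B.i k)) (B.α k false) * star (B.f k false) = ((‖B.f k false‖ ^ 2 : ℝ) : ℂ) := by
    show B.f k false * star (B.f k false) = _
    simp [Complex.mul_conj']
  have e1 : ip (B.ψ k (B.i k)) (B.α k true) * star (B.f k true) = ((‖B.f k true‖ ^ 2 : ℝ) : ℂ) := by
    show B.f k true * star (B.f k true) = _
    simp [Complex.mul_conj']
  rw [e0, e1] at h
  exact_mod_cast h

/-- Sandwich of a one-site operator. -/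
lemma sand_site (k : ι) (X : M2) (u v : Fin N → Bool → ℂ) :
    (Kt (B.W k) u)ᴴ * site (B.i k) X * Kt (B.W k) v
      = (ip (u (B.i k)) (X *ᵥ v (B.i k)) * ∏ s ∈ (B.W k).erase (B.i k), ip (u s) (v s)) • Pr (B.W k) := by
  have h := Kt_sandwich (B.W k) u v (Function.update (fun _ => 1) (B.i k) X)
  rw [site, h, ← Finset.mul_prod_erase _ _ (B.hi k)]
  congr 1
  · congr 1
    · simp
    · refine Finset.prod_congr rfl fun s hs => ?_
      simp [Function.update_of_ne (Finset.ne_of_mem_erase hs)]
  · rw [Pr]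
    congr 1
    funext s
    by_cases hs : s ∈ B.W k
    · simp [hs]
    · have : s ≠ B.i k := fun h' => hs (h' ▸ B.hi k)
      simp [hs, this]

/-- Sum over the two inputs of a one-site operator at the input. -/
lemma sum_site (k : ι) (X : M2) :
    (B.K k false)ᴴ * site (B.i k) X * B.K k false + (B.K k true)ᴴ * site (B.i k) X * B.K k true
      = (X false false + X true true) • Pr (B.W k) := by
  set i := B.i k with hi
  set p := B.ψ k i with hp
  set W' := (B.W k).erase i with hW'
  have m1 : ∀ b, ∏ s ∈ W', ip (B.eb k b s) (B.eb k b s) = 1 := fun b =>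
    Finset.prod_eq_one fun s _ => ip_self_unit (B.eb_unit k b s)
  have m2 : ∏ s ∈ W', ip (B.ψ k s) (B.ψ k s) = 1 :=
    Finset.prod_eq_one fun s _ => ip_self_unit (B.hψ k s)
  have m3 : ∀ b, ∏ s ∈ W', ip (B.ψ k s) (B.eb k b s) = B.c k := by
    intro b
    refine Finset.prod_congr rfl fun s hs => ?_
    rw [eb, Function.update_of_ne (Finset.ne_of_mem_erase hs)]
  have m4 : ∀ b, ∏ s ∈ W', ip (B.eb k b s) (B.ψ k s) = star (B.c k) := by
    intro b
    rw [c, star_prod]
    refine Finset.prod_congr rfl fun s hs => ?_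
    rw [eb, Function.update_of_ne (Finset.ne_of_mem_erase hs), star_ip]
  have hebi : ∀ b, B.eb k b i = B.α k b := by
    intro b
    simp [eb, hi]
  have one : ∀ b, (B.K k b)ᴴ * site i X * B.K k b
      = (ip (B.α k b) (X *ᵥ B.α k b) - B.z k b * (ip (B.α k b) (X *ᵥ p) * star (B.c k))
          - star (B.z k b) * (ip p (X *ᵥ B.α k b) * B.c k)
          + star (B.z k b) * B.z k b * ip p (X *ᵥ p)) • Pr (B.W k) := by
    intro b
    simp only [K, Matrix.conjTranspose_sub, Matrix.conjTranspose_smul, sub_mul, mul_sub,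
      smul_mul_assoc, mul_smul_comm]
    rw [sand_site, sand_site, sand_site, sand_site, ← hi, ← hp, ← hW', m1, m2, m3, m4, hebi]
    simp only [mul_one]
    module
  rw [one, one, ← add_smul]
  congr 1
  have hα := B.hα k
  have t1 := hα.trace X
  have t2 := hα.complete p (X *ᵥ p)
  have t3 := hα.complete (Xᴴ *ᵥ p) p
  have t4 := hα.complete p p
  rw [ip_self_unit (B.hψ k i)] at t4
  have hf : ∀ b, ip p (B.α k b) = B.f k b := fun b => rfl
  have hf' : ∀ b, ip (B.α k b) p = star (B.f k b) := fun b => (star_ip _ _).symm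
  have hadj : ∀ v, ip (Xᴴ *ᵥ p) v = ip p (X *ᵥ v) := fun v => (ip_adj _ _ _).symm
  simp only [hf, hf', hadj] at t2 t3 t4
  simp only [z, star_mul', star_ofNat]
  linear_combination t1 - 2 * (B.c k * star (B.c k)) * t2 - 2 * (B.c k * star (B.c k)) * t3
    + 4 * (B.c k * star (B.c k)) * (ip p (X *ᵥ p)) * t4

/-- The marginal estimate at the input of a block. -/
theorem Eb_marginal (k : ι) {X : M2} (hX : Proj1 X) {Y : Op N} (hY : Commute (site (B.i k) X) Y) :
    ‖Eb (B.K k) (site (B.i k) X * Y)‖ ≤ (1 / 2) * ‖Y‖ := by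
  set sX := site (B.i k) X with hsX
  have hsh : sXᴴ = sX := by rw [hsX, site_conjTranspose, hX.herm]
  have hs2 : sX * sX = sX := by rw [hsX, ← site_mul, hX.idem]
  have e : ∀ b, (B.K k b)ᴴ * (sX * Y) * B.K k b = (sX * B.K k b)ᴴ * Y * (sX * B.K k b) := by
    intro b
    rw [Matrix.conjTranspose_mul, hsh]
    calc (B.K k b)ᴴ * (sX * Y) * B.K k b = (B.K k b)ᴴ * ((sX * sX) * Y) * B.K k b := by rw [hs2]
      _ = (B.K k b)ᴴ * (sX * (sX * Y)) * B.K k b := by simp only [mul_assoc]
      _ = (B.K k b)ᴴ * (sX * (Y * sX)) * B.K k b := by rw [hY.eq]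
      _ = _ := by simp only [mul_assoc]
  have hk := kraus_same (Finset.univ : Finset Bool) (fun b => sX * B.K k b)
    (fun b => if b then -Y else Y) ‖Y‖ (norm_nonneg _) (by
      intro b _
      cases b <;> simp)
  simp only [Fintype.sum_bool, if_true, if_false, Bool.false_eq_true] at hk
  have hsum : (sX * B.K k true)ᴴ * (sX * B.K k true) + (sX * B.K k false)ᴴ * (sX * B.K k false)
      = (X false false + X true true) • Pr (B.W k) := by
    have e2 : ∀ b, (sX * B.K k b)ᴴ * (sX * B.K k b) = (B.K k b)ᴴ * sX * B.K k b := by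
      intro b
      rw [Matrix.conjTranspose_mul, hsh]
      calc (B.K k b)ᴴ * sX * (sX * B.K k b) = (B.K k b)ᴴ * (sX * sX) * B.K k b := by
            simp only [mul_assoc]
        _ = _ := by rw [hs2]
    rw [← sum_site, add_comm, e2, e2]
  rw [hsum, proj1_trace hX, one_smul] at hk
  rw [Eb_apply, e, e, norm_smul, norm_half]
  have h1 : (sX * B.K k false)ᴴ * Y * (sX * B.K k false) - (sX * B.K k true)ᴴ * Y * (sX * B.K k true)
      = (sX * B.K k true)ᴴ * (-Y) * (sX * B.K k true) + (sX * B.K k false)ᴴ * Y * (sX * B.K k false) := by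
    simp only [mul_neg, neg_mul]
    abel
  rw [h1]
  have h2 := norm_Pr_le (B.W k)
  have h3 := norm_nonneg Y
  nlinarith

end BData

end Vale.Agent.Lib.P368y
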