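import Vale.Agent.Lib.P368y.Units

/-!
Signed Kraus maps and their iterates over commuting families.
-/

open scoped BigOperators Matrix Matrix.Norms.L2Operator

namespace Vale.Agent.Lib.P368y

open Vale.Agent.Lib.P368x

variable {N : ℕ}

/-- The signed Kraus map of a pair of operators. -/
noncomputable def Eb (K : Bool → Op N) : Module.End ℂ (Op N) where
  toFun A := (1 / 2 : ℂ) • ((K false)ᴴ * A * K false - (K true)ᴴ * A * K true)
  map_add' A B := by
    simp only [mul_add, add_mul, smul_add, smul_sub]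
    abel
  map_smul' c A := by
    simp only [mul_smul_comm, smul_mul_assoc, RingHom.id_apply, ← smul_sub]
    rw [smul_comm]

lemma Eb_apply (K : Bool → Op N) (A : Op N) :
    Eb K A = (1 / 2 : ℂ) • ((K false)ᴴ * A * K false - (K true)ᴴ * A * K true) := rfl

lemma mul3_norm_le {U V : Op N} (A : Op N) (hU : ‖U‖ ≤ 1) (hV : ‖V‖ ≤ 1) : ‖U * A * V‖ ≤ ‖A‖ := by
  refine (mul_norm_aux' hV).trans (mul_norm_aux hU)

lemma norm_adj (A : Op N) : ‖Aᴴ‖ = ‖A‖ := by
  have := norm_star A
  rwa [Matrix.star_eq_conjTranspose] at this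

lemma norm_half : ‖(1 / 2 : ℂ)‖ = 1 / 2 := by norm_num

lemma norm_Eb_le (K : Bool → Op N) (h : ∀ b, ‖K b‖ ≤ 1) (A : Op N) : ‖Eb K A‖ ≤ ‖A‖ := by
  rw [Eb_apply, norm_smul, norm_half]
  have h1 : ‖(K false)ᴴ * A * K false‖ ≤ ‖A‖ := mul3_norm_le A (by rw [norm_adj]; exact h _) (h _)
  have h2 : ‖(K true)ᴴ * A * K true‖ ≤ ‖A‖ := mul3_norm_le A (by rw [norm_adj]; exact h _) (h _)
  have h3 := norm_sub_le ((K false)ᴴ * A * K false) ((K true)ᴴ * A * K true)
  linarith

/-- Difference of two signed Kraus maps. -/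
lemma norm_Eb_sub_le (K K' : Bool → Op N) (h : ∀ b, ‖K b‖ ≤ 1) (h' : ∀ b, ‖K' b‖ ≤ 1) (ε : ℝ)
    (hε : ∀ b, ‖K b - K' b‖ ≤ ε) (A : Op N) : ‖Eb K A - Eb K' A‖ ≤ 2 * ε * ‖A‖ := by
  have hA := norm_nonneg A
  have one : ∀ b, ‖(K b)ᴴ * A * K b - (K' b)ᴴ * A * K' b‖ ≤ 2 * ε * ‖A‖ := by
    intro b
    have e : (K b)ᴴ * A * K b - (K' b)ᴴ * A * K' b
        = (K b)ᴴ * A * (K b - K' b) + (K b - K' b)ᴴ * A * K' b := by
      simp only [Matrix.conjTranspose_sub, mul_sub, sub_mul]
      abel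
    rw [e]
    have t1 : ‖(K b)ᴴ * A * (K b - K' b)‖ ≤ ‖A‖ * ε := by
      calc _ ≤ ‖(K b)ᴴ * A‖ * ‖K b - K' b‖ := norm_mul_le _ _
        _ ≤ ‖A‖ * ε := by
          gcongr
          · exact mul_norm_aux (by rw [norm_adj]; exact h _)
          · exact hε b
    have t2 : ‖(K b - K' b)ᴴ * A * K' b‖ ≤ ε * ‖A‖ := by
      calc _ ≤ ‖(K b - K' b)ᴴ * A‖ := mul_norm_aux' (h' b)
        _ ≤ ‖(K b - K' b)ᴴ‖ * ‖A‖ := norm_mul_le _ _
        _ ≤ ε * ‖A‖ := by
          rw [norm_adj]
          gcongr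
          exact hε b
    have := norm_add_le ((K b)ᴴ * A * (K b - K' b)) ((K b - K' b)ᴴ * A * K' b)
    linarith
  have e : Eb K A - Eb K' A = (1 / 2 : ℂ) • (((K false)ᴴ * A * K false - (K' false)ᴴ * A * K' false)
      - ((K true)ᴴ * A * K true - (K' true)ᴴ * A * K' true)) := by
    rw [Eb_apply, Eb_apply, ← smul_sub]
    congr 1
    abel
  rw [e, norm_smul, norm_half]
  have := norm_sub_le ((K false)ᴴ * A * K false - (K' false)ᴴ * A * K' false)
    ((K true)ᴴ * A * K true - (K' true)ᴴ * A * K' true)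
  have h1 := one false
  have h2 := one true
  linarith

lemma conj_comm {U V : Op N} (A : Op N) (h1 : Commute Uᴴ Vᴴ) (h2 : Commute U V) :
    Uᴴ * (Vᴴ * A * V) * U = Vᴴ * (Uᴴ * A * U) * V := by
  calc Uᴴ * (Vᴴ * A * V) * U = (Uᴴ * Vᴴ) * A * (V * U) := by simp only [mul_assoc]
    _ = (Vᴴ * Uᴴ) * A * (U * V) := by rw [h1.eq, h2.symm.eq]
    _ = _ := by simp only [mul_assoc]

lemma Eb_comm_apply {K K' : Bool → Op N} (h : ∀ b c, Commute (K b) (K' c))
    (h' : ∀ b c, Commute (K b)ᴴ (K' c)ᴴ) (A : Op N) : Eb K (Eb K' A) = Eb K' (Eb K A) := by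
  simp only [Eb_apply, mul_sub, sub_mul, mul_smul_comm, smul_mul_assoc, smul_sub]
  rw [conj_comm A (h' false false) (h false false), conj_comm A (h' false true) (h false true),
    conj_comm A (h' true false) (h true false), conj_comm A (h' true true) (h true true)]
  module

lemma Eb_commute {S T : Finset (Fin N)} (hd : Disjoint S T) {K K' : Bool → Op N}
    (hK : ∀ b, K b ∈ SA S) (hK' : ∀ b, K' b ∈ SA T) : Commute (Eb K) (Eb K') := by
  apply LinearMap.ext
  intro A
  exact Eb_comm_apply (fun b c => SA_commute hd (hK b) (hK' c))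
    (fun b c => SA_commute hd (SA_adj (hK b)) (SA_adj (hK' c))) A

lemma Eb_mul_left {K : Bool → Op N} {B : Op N} (h : ∀ b, Commute B (K b)ᴴ) (A : Op N) :
    Eb K (B * A) = B * Eb K A := by
  simp only [Eb_apply, mul_smul_comm, mul_sub]
  congr 2
  · simp only [mul_assoc]; rw [← mul_assoc, ← (h false).eq, mul_assoc]
  · simp only [mul_assoc]; rw [← mul_assoc, ← (h true).eq, mul_assoc]

lemma Eb_mul_right {K : Bool → Op N} {B : Op N} (h : ∀ b, Commute B (K b)) (A : Op N) :
    Eb K (A * B) = Eb K A * B := by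
  simp only [Eb_apply, smul_mul_assoc, sub_mul]
  congr 2
  · simp only [mul_assoc]; rw [(h false).eq]
  · simp only [mul_assoc]; rw [(h true).eq]

lemma Eb_commute_op {K : Bool → Op N} {B A : Op N} (h : ∀ b, Commute B (K b))
    (h' : ∀ b, Commute B (K b)ᴴ) (hA : Commute B A) : Commute B (Eb K A) := by
  show B * Eb K A = Eb K A * B
  rw [← Eb_mul_left h', ← Eb_mul_right h, hA.eq]

/-- A family of pairs with pairwise disjoint supports. -/
structure Fam (ι : Type*) (N : ℕ) where
  W : ι → Finset (Fin N)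
  K : ι → Bool → Op N
  disj : ∀ j k, j ≠ k → Disjoint (W j) (W k)
  mem : ∀ k b, K k b ∈ SA (W k)

namespace Fam

variable {ι : Type*} [DecidableEq ι]

lemma pairwise (F : Fam ι N) (J : Finset ι) :
    (J : Set ι).Pairwise (Function.onFun Commute fun k => Eb (F.K k)) := by
  intro j _ k _ hjk
  exact Eb_commute (F.disj j k hjk) (F.mem j) (F.mem k)

/-- The iterate of the signed Kraus maps of a family over the index set `J`. -/
noncomputable def EJ (F : Fam ι N) (J : Finset ι) : Module.End ℂ (Op N) :=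
  J.noncommProd (fun k => Eb (F.K k)) (F.pairwise J)

variable (F G : Fam ι N)

@[simp] lemma EJ_empty : F.EJ ∅ = 1 := rfl

lemma EJ_insert {J : Finset ι} {k : ι} (hk : k ∉ J) : F.EJ (insert k J) = Eb (F.K k) * F.EJ J := by
  rw [EJ, Finset.noncommProd_insert_of_notMem _ _ _ _ hk]
  rfl

lemma EJ_insert' {J : Finset ι} {k : ι} (hk : k ∉ J) : F.EJ (insert k J) = F.EJ J * Eb (F.K k) := by
  rw [EJ, Finset.noncommProd_insert_of_notMem' _ _ _ _ hk]
  rfl

lemma EJ_insert_apply {J : Finset ι} {k : ι} (hk : k ∉ J) (A : Op N) :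
    F.EJ (insert k J) A = Eb (F.K k) (F.EJ J A) := by
  rw [EJ_insert F hk]; rfl

lemma EJ_insert_apply' {J : Finset ι} {k : ι} (hk : k ∉ J) (A : Op N) :
    F.EJ (insert k J) A = F.EJ J (Eb (F.K k) A) := by
  rw [EJ_insert' F hk]; rfl

lemma EJ_union {I J : Finset ι} (h : Disjoint I J) : F.EJ (I ∪ J) = F.EJ I * F.EJ J := by
  rw [EJ, Finset.noncommProd_union_of_disjoint h]
  rfl

/-- All operators of the family are contractions. -/
def Nrm : Prop := ∀ k b, ‖F.K k b‖ ≤ 1

variable {F} in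
lemma norm_EJ_le (hF : F.Nrm) (J : Finset ι) (A : Op N) : ‖F.EJ J A‖ ≤ ‖A‖ := by
  induction J using Finset.induction_on with
  | empty => simp
  | insert k J hk ih =>
    rw [EJ_insert_apply F hk]
    exact (norm_Eb_le _ (hF k) _).trans ih

variable {F} in
/-- The iterate over a larger set is no larger. -/
lemma norm_EJ_mono (hF : F.Nrm) {I J : Finset ι} (h : I ⊆ J) (A : Op N) :
    ‖F.EJ J A‖ ≤ ‖F.EJ I A‖ := by
  have e : J = (J \ I) ∪ I := (Finset.sdiff_union_of_subset h).symm
  rw [e, EJ_union F Finset.sdiff_disjoint]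
  exact norm_EJ_le hF _ _

/-- `B` is transparent for the family over `J`. -/
def Off (J : Finset ι) (B : Op N) : Prop := ∀ k ∈ J, ∀ b, Commute B (F.K k b) ∧ Commute B (F.K k b)ᴴ

lemma off_of_SA {J : Finset ι} {T : Finset (Fin N)} (h : ∀ k ∈ J, Disjoint T (F.W k)) {B : Op N}
    (hB : B ∈ SA T) : F.Off J B := fun k hk b =>
  ⟨SA_commute (h k hk) hB (F.mem k b), SA_commute (h k hk) hB (SA_adj (F.mem k b))⟩

lemma Off.mono {J I : Finset ι} {B : Op N} {F : Fam ι N} (h : F.Off J B) (hI : I ⊆ J) : F.Off I B :=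
  fun k hk b => h k (hI hk) b

lemma EJ_mul_left {J : Finset ι} {B : Op N} (h : F.Off J B) (A : Op N) :
    F.EJ J (B * A) = B * F.EJ J A := by
  induction J using Finset.induction_on with
  | empty => simp
  | insert k J hk ih =>
    rw [EJ_insert_apply F hk, EJ_insert_apply F hk,
      ih (h.mono (Finset.subset_insert _ _)),
      Eb_mul_left fun b => (h k (Finset.mem_insert_self _ _) b).2]

lemma EJ_mul_right {J : Finset ι} {B : Op N} (h : F.Off J B) (A : Op N) :
    F.EJ J (A * B) = F.EJ J A * B := by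
  induction J using Finset.induction_on with
  | empty => simp
  | insert k J hk ih =>
    rw [EJ_insert_apply F hk, EJ_insert_apply F hk,
      ih (h.mono (Finset.subset_insert _ _)),
      Eb_mul_right fun b => (h k (Finset.mem_insert_self _ _) b).1]

lemma EJ_commute_op {J : Finset ι} {B A : Op N} (h : F.Off J B) (hA : Commute B A) :
    Commute B (F.EJ J A) := by
  show B * F.EJ J A = F.EJ J A * B
  rw [← EJ_mul_left F h, ← EJ_mul_right F h, hA.eq]

/-- Cross commutation of one pair with an iterate of another family. -/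
lemma Eb_EJ_commute {K : Bool → Op N} {S : Finset (Fin N)} (hK : ∀ b, K b ∈ SA S) (J : Finset ι)
    (h : ∀ k ∈ J, Disjoint S (F.W k)) : Commute (Eb K) (F.EJ J) := by
  induction J using Finset.induction_on with
  | empty => simp
  | insert k J hk ih =>
    rw [EJ_insert F hk]
    refine Commute.mul_right ?_ (ih fun j hj => h j (Finset.mem_insert_of_mem hj))
    exact Eb_commute (h k (Finset.mem_insert_self _ _)) hK (F.mem k)

/-- Cross commutation of two iterates. -/
lemma EJ_EJ_commute (I J : Finset ι) (h : ∀ j ∈ I, ∀ k ∈ J, Disjoint (F.W j) (G.W k)) :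
    Commute (F.EJ I) (G.EJ J) := by
  induction I using Finset.induction_on with
  | empty => simp
  | insert j I hj ih =>
    rw [EJ_insert F hj]
    refine Commute.mul_left ?_ (ih fun i hi => h i (Finset.mem_insert_of_mem hi))
    exact G.Eb_EJ_commute (F.mem j) J (h j (Finset.mem_insert_self _ _))

lemma EJ_congr {J : Finset ι} (h : ∀ k ∈ J, F.K k = G.K k) : F.EJ J = G.EJ J := by
  induction J using Finset.induction_on with
  | empty => simp
  | insert k J hk ih =>
    rw [EJ_insert F hk, EJ_insert G hk, h k (Finset.mem_insert_self _ _),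
      ih fun j hj => h j (Finset.mem_insert_of_mem hj)]

end Fam

end Vale.Agent.Lib.P368y
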