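import Vale.Agent.Lib.P368y.Heavy

/-!
From the iterated slice to the block families: entries, the site family, conjugation of families.
-/

open scoped BigOperators Matrix Matrix.Norms.L2Operator

namespace Vale.Agent.Lib.P368y

open Vale.Agent.Lib.P368x

variable {N : ℕ} {ι : Type*} [DecidableEq ι]

/-- The family of the sites `i k` with the computational basis. -/
noncomputable def Nf (i : ι → Fin N) (hi : Function.Injective i) : Fam ι N where
  W := fun k => {i k}
  K := fun k b => site (i k) (ket (bv b))
  disj := fun j k hjk => Finset.disjoint_singleton.mpr fun e => hjk (hi e)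
  mem := fun k _ => site_mem_SA (Finset.mem_singleton_self _) _

lemma Nf_nrm (i : ι → Fin N) (hi : Function.Injective i) : (Nf i hi).Nrm :=
  fun _ b => (norm_site_le _ _).trans (norm_ket_le (bv_unit b))

lemma sand_entry (P Z : Op N) (v w : Str N) (h : ∀ a, P a v = if a = w then 1 else 0) :
    (Pᴴ * Z * P) v v = Z w w := by
  rw [Matrix.mul_apply]
  have h1 : ∀ c, (Pᴴ * Z) v c = star (P w v) * Z w c := by
    intro c
    rw [Matrix.mul_apply, Finset.sum_eq_single w]
    · simp [Matrix.conjTranspose_apply]
    · intro a _ ha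
      simp [Matrix.conjTranspose_apply, h a, ha]
    · simp
  simp only [h1]
  rw [Finset.sum_eq_single w]
  · simp [h w]
  · intro a _ ha
    simp [h a, ha]
  · simp

lemma N_apply (i : Fin N) (b : Bool) (a w : Str N) (hw : w i = false) :
    site i (ket (bv b)) a w = if a = Function.update w i b then 1 else 0 := by
  rw [site_apply, prod_one_erase]
  have h1 : ket (bv b) (a i) (w i) = if a i = b then 1 else 0 := by
    simp [ket, hw, bv]
  rw [h1]
  by_cases h2 : a = Function.update w i b
  · rw [if_pos h2]
    subst h2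
    have h3 : ∀ j, j ≠ i → Function.update w i b j = w j := fun j hj => Function.update_of_ne hj _ _
    rw [if_pos h3]
    simp
  · rw [if_neg h2]
    by_cases h3 : a i = b
    · have h5 : ¬ ∀ j, j ≠ i → a j = w j := by
        intro h4
        apply h2
        funext j
        by_cases hj : j = i
        · subst hj; simp [h3]
        · rw [Function.update_of_ne hj]; exact h4 j hj
      rw [if_neg h5, mul_zero]
    · simp [h3]

lemma E_entry (i : ι → Fin N) (hi : Function.Injective i) (J : Finset ι) (Y : Op N) :
    ∀ w : Str N, (∀ k ∈ J, w (i k) = false) →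
      E (J.image i) Y w w = (Nf i hi).EJ J Y w w := by
  classical
  induction J using Finset.induction_on with
  | empty => intro w _; simp
  | insert k J hk ih =>
    intro w hw
    have hik : i k ∉ J.image i := by
      intro h
      obtain ⟨j, hj, e⟩ := Finset.mem_image.mp h
      exact hk (hi e ▸ hj)
    have hwk : w (i k) = false := hw k (Finset.mem_insert_self _ _)
    have hw' : ∀ j ∈ J, w (i j) = false := fun j hj => hw j (Finset.mem_insert_of_mem hj)
    have hw1 : ∀ j ∈ J, Function.update w (i k) true (i j) = false := by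
      intro j hj
      have : i j ≠ i k := fun e => hk (hi e ▸ hj)
      rw [Function.update_of_ne this]
      exact hw' j hj
    rw [Finset.image_insert, E_insert hik, Fam.EJ_insert_apply _ hk]
    show sl (i k) (E (J.image i) Y) w w = _
    rw [sl_diag _ _ _ hwk, ih w hw', ih _ hw1, Eb_apply]
    simp only [Matrix.smul_apply, Matrix.sub_apply, smul_eq_mul]
    have e0 : Function.update w (i k) false = w := by
      funext j
      by_cases hj : j = i k
      · subst hj; simp [hwk]
      · simp [hj]
    have t0 := sand_entry (site (i k) (ket (bv false))) ((Nf i hi).EJ J Y) w w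
      (fun a => by rw [N_apply _ _ _ _ hwk, e0])
    have t1 := sand_entry (site (i k) (ket (bv true))) ((Nf i hi).EJ J Y) w
      (Function.update w (i k) true) (fun a => by rw [N_apply _ _ _ _ hwk])
    show _ = (1 / 2) * (((site (i k) (ket (bv false)))ᴴ * ((Nf i hi).EJ J Y) * site (i k) (ket (bv false))) w w -
      ((site (i k) (ket (bv true)))ᴴ * ((Nf i hi).EJ J Y) * site (i k) (ket (bv true))) w w)
    rw [t0, t1]

lemma card_SI (T : Finset (Fin N)) : (SI T).card = 2 ^ T.card := by
  have h := sum_SI_prod (R := ℕ) T (fun _ _ => 1)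
  simpa using h

lemma norm_sgn (w : Str N) : ‖sgn w‖ = 1 := by
  rw [sgn, norm_prod]
  refine Finset.prod_eq_one fun j _ => ?_
  cases w j <;> simp [sg]

/-- Reduction of the entry at zero to the entries of a smaller slice. -/
lemma entry_reduce (I I₂ : Finset (Fin N)) (h : I₂ ⊆ I) (A : Op N) (c : ℝ)
    (hc : ∀ w ∈ SI (I \ I₂), ‖E I₂ A w w‖ ≤ c) : ‖E I A (zeroStr N) (zeroStr N)‖ ≤ c := by
  have e : I = (I \ I₂) ∪ I₂ := (Finset.sdiff_union_of_subset h).symm
  have e2 : E I A = E (I \ I₂) (E I₂ A) := by
    conv_lhs => rw [e, E_union Finset.sdiff_disjoint]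
    rfl
  rw [e2, E_zero_entry, norm_mul]
  set T := I \ I₂ with hT
  have h1 : ‖∑ w ∈ SI T, sgn w * E I₂ A w w‖ ≤ (SI T).card * c := by
    refine (norm_sum_le _ _).trans ?_
    have : ∀ w ∈ SI T, ‖sgn w * E I₂ A w w‖ ≤ c := fun w hw => by
      rw [norm_mul, norm_sgn, one_mul]; exact hc w hw
    exact (Finset.sum_le_sum this).trans (by simp)
  rw [card_SI] at h1
  have h2 : ‖(1 / 2 ^ T.card : ℂ)‖ = 1 / 2 ^ T.card := by simp
  rw [h2]
  have h3 : (0 : ℝ) < 2 ^ T.card := by positivity
  push_cast at h1
  calc _ ≤ (1 / 2 ^ T.card : ℝ) * (2 ^ T.card * c) := by gcongr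
    _ = c := by field_simp

lemma et_apply_zero (S : Finset (Fin N)) (w : Str N) (hw : w ∈ SI S) (a : Str N) :
    et S w a (zeroStr N) = if a = w then 1 else 0 := by
  rw [et, Kt, tensor_apply]
  have hw' := mem_SI.mp hw
  have one : ∀ s, (if s ∈ S then ket (bv (w s)) else (1 : M2)) (a s) (zeroStr N s)
      = if a s = w s then 1 else 0 := by
    intro s
    by_cases hs : s ∈ S
    · simp [hs, ket, zeroStr, bv]
    · rw [hw' s hs]
      simp only [hs, if_false, zeroStr, Matrix.one_apply]
  simp only [one]
  by_cases h : a = w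
  · rw [if_pos h]
    subst h
    simp
  · rw [if_neg h]
    have : ∃ s, a s ≠ w s := by
      by_contra hc
      push Not at hc
      exact h (funext hc)
    obtain ⟨s, hs⟩ := this
    exact Finset.prod_eq_zero (Finset.mem_univ s) (if_neg hs)

/-- The entry at `w` as a sandwich of the entry at zero. -/
lemma entry_sandwich (S : Finset (Fin N)) (w : Str N) (hw : w ∈ SI S) (Z : Op N) :
    ((et S w)ᴴ * Z * et S w) (zeroStr N) (zeroStr N) = Z w w :=
  sand_entry _ _ _ _ (et_apply_zero S w hw)

/-! ### Products of commuting operators on disjoint blocks, conjugation of families -/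

namespace Fam

lemma cP_pw (G : Fam ι N) (C : ι → Op N) (hC : ∀ k, C k ∈ SA (G.W k)) (J : Finset ι) :
    (J : Set ι).Pairwise (Function.onFun Commute C) := by
  intro j _ k _ hjk
  exact SA_commute (G.disj j k hjk) (hC j) (hC k)

/-- The product of commuting block operators. -/
noncomputable def cP (G : Fam ι N) (C : ι → Op N) (hC : ∀ k, C k ∈ SA (G.W k)) (J : Finset ι) : Op N :=
  J.noncommProd C (cP_pw G C hC J)

variable (G : Fam ι N) (C : ι → Op N) (hC : ∀ k, C k ∈ SA (G.W k))

@[simp] lemma cP_empty : G.cP C hC ∅ = 1 := rfl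

lemma cP_insert' {J : Finset ι} {k : ι} (hk : k ∉ J) : G.cP C hC (insert k J) = G.cP C hC J * C k := by
  rw [cP, Finset.noncommProd_insert_of_notMem' _ _ _ _ hk]
  rfl

lemma cP_mem (J : Finset ι) : G.cP C hC J ∈ SA (J.biUnion G.W) := by
  induction J using Finset.induction_on with
  | empty => exact one_mem _
  | insert k J hk ih =>
    rw [cP_insert' G C hC hk]
    refine mul_mem (SA_mono ?_ ih) (SA_mono ?_ (hC k))
    · exact Finset.biUnion_subset_biUnion_of_subset_left _ (Finset.subset_insert _ _)
    · exact Finset.subset_biUnion_of_mem G.W (Finset.mem_insert_self _ _)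

/-- Conjugating a family by block operators. -/
lemma EJ_conj (F : Fam ι N) (h : ∀ k b, C k * F.K k b = G.K k b) (J : Finset ι) (Y : Op N) :
    F.EJ J ((G.cP C hC J)ᴴ * Y * G.cP C hC J) = G.EJ J Y := by
  induction J using Finset.induction_on generalizing Y with
  | empty => simp
  | insert k J hk ih =>
    set P := G.cP C hC J with hP
    have hPm : P ∈ SA (J.biUnion G.W) := cP_mem G C hC J
    have hd : Disjoint (J.biUnion G.W) (G.W k) := by
      rw [Finset.disjoint_biUnion_left]
      intro j hj
      exact G.disj j k fun e => hk (e ▸ hj)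
    have c1 : ∀ b, Commute P (G.K k b) := fun b => SA_commute hd hPm (G.mem k b)
    have c2 : ∀ b, Commute Pᴴ (G.K k b)ᴴ := fun b => SA_commute hd (SA_adj hPm) (SA_adj (G.mem k b))
    have e1 : Eb (F.K k) ((P * C k)ᴴ * Y * (P * C k)) = Pᴴ * Eb (G.K k) Y * P := by
      have : ∀ b, (F.K k b)ᴴ * ((P * C k)ᴴ * Y * (P * C k)) * F.K k b = (G.K k b)ᴴ * (Pᴴ * Y * P) * G.K k b := by
        intro b
        rw [← h k b, Matrix.conjTranspose_mul, Matrix.conjTranspose_mul]
        simp only [mul_assoc]
      rw [Eb_apply, this, this, ← Eb_apply, Eb_mul_right (fun b => c1 b), Eb_mul_left (fun b => c2 b)]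
    rw [cP_insert' G C hC hk, Fam.EJ_insert_apply' F hk, ← hP, e1, ih, Fam.EJ_insert_apply' G hk]

end Fam

end Vale.Agent.Lib.P368y
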