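import Vale.Agent.Lib.P368y.Bridge1

/-!
Splitting off the blocks from a layer of reflections; the block data of a selection of gates.
-/

open scoped BigOperators Matrix Matrix.Norms.L2Operator

namespace Vale.Agent.Lib.P368y

open Vale.Agent.Lib.P368x

variable {N : ℕ} {ι : Type*} [DecidableEq ι]

lemma RGate.commute_of_disj {g h : RGate N} (hd : Disjoint g.S h.S) : Commute g.op h.op := by
  refine (Commute.one_left _).sub_left (((Commute.one_right _).sub_right
    ((tensor_commute ?_).smul_right _)).smul_left _)
  intro s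
  by_cases hs : s ∈ g.S
  · right
    exact h.hO s (Finset.disjoint_left.mp hd hs)
  · left
    exact g.hO s hs

lemma RGate.op_mem (g : RGate N) : g.op ∈ SA g.S :=
  sub_mem (one_mem _) (Subalgebra.smul_mem _ (tensor_mem_SA g.hO) _)

lemma lop_append_extract (l₁ l₂ : List (RGate N)) (g : RGate N) (h : ∀ r ∈ l₁, Disjoint r.S g.S) :
    lop (l₁ ++ g :: l₂) = g.op * lop (l₁ ++ l₂) := by
  induction l₁ with
  | nil => simp
  | cons r l ih =>
    rw [List.cons_append, List.cons_append, lop_cons, lop_cons,
      ih fun x hx => h x (List.mem_cons_of_mem _ hx), ← mul_assoc, ← mul_assoc,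
      (RGate.commute_of_disj (h r (List.mem_cons_self ..))).eq]

/-- Extracting one gate from a layer. -/
lemma extract (gs : List (RGate N)) (hgs : gs.Pairwise fun g h => Disjoint g.S h.S) (g : RGate N)
    (hg : g ∈ gs) : ∃ rest : List (RGate N), (rest.Pairwise fun g h => Disjoint g.S h.S) ∧
      (∀ r ∈ rest, Disjoint r.S g.S) ∧ (∀ r ∈ gs, r ≠ g → r ∈ rest) ∧ (∀ r ∈ rest, r ∈ gs) ∧
      lop gs = g.op * lop rest := by
  obtain ⟨l₁, l₂, rfl⟩ := List.append_of_mem hg
  rw [List.pairwise_append, List.pairwise_cons] at hgs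
  obtain ⟨h1, ⟨h2, h3⟩, h4⟩ := hgs
  refine ⟨l₁ ++ l₂, ?_, ?_, ?_, ?_, lop_append_extract _ _ _ fun r hr => h4 r hr g (List.mem_cons_self ..)⟩
  · rw [List.pairwise_append]
    exact ⟨h1, h3, fun a ha b hb => h4 a ha b (List.mem_cons_of_mem _ hb)⟩
  · intro r hr
    rcases List.mem_append.mp hr with hr | hr
    · exact h4 r hr g (List.mem_cons_self ..)
    · exact (h2 r hr).symm
  · intro r hr hne
    rcases List.mem_append.mp hr with hr | hr
    · exact List.mem_append.mpr (Or.inl hr)
    · rcases List.mem_cons.mp hr with e | hr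
      · exact absurd e hne
      · exact List.mem_append.mpr (Or.inr hr)
  · intro r hr
    rcases List.mem_append.mp hr with hr | hr
    · exact List.mem_append.mpr (Or.inl hr)
    · exact List.mem_append.mpr (Or.inr (List.mem_cons_of_mem _ hr))

/-- Splitting off the block operators from the layer. -/
lemma split_blocks (G : Fam ι N) (g : ι → RGate N) (hW : ∀ k, G.W k = (g k).S)
    (gs : List (RGate N)) (hgs : gs.Pairwise fun g h => Disjoint g.S h.S)
    (hg : ∀ k, g k ∈ gs) (hne : ∀ j k, j ≠ k → g j ≠ g k) (τ : Fin N → M2)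
    (C : ι → Op N) (hC : ∀ k, C k ∈ SA (G.W k))
    (hCdef : ∀ k, C k = (g k).op * tensor fun s => if s ∈ (g k).S then τ s else 1) (J : Finset ι) :
    ∃ rest : List (RGate N), (rest.Pairwise fun g h => Disjoint g.S h.S) ∧
      (∀ r ∈ rest, ∀ j ∈ J, Disjoint r.S (g j).S) ∧ (∀ k, k ∉ J → g k ∈ rest) ∧
      lop gs * tensor τ = G.cP C hC J *
        (lop rest * tensor fun s => if s ∈ J.biUnion G.W then 1 else τ s) := by
  induction J using Finset.induction_on with
  | empty =>
    refine ⟨gs, hgs, by simp, fun k _ => hg k, ?_⟩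
    simp
  | insert k J hk ih =>
    obtain ⟨rest, h1, h2, h3, h4⟩ := ih
    obtain ⟨rest', r1, r2, r3, r5, r4⟩ := extract rest h1 (g k) (h3 k hk)
    refine ⟨rest', r1, ?_, ?_, ?_⟩
    · intro r hr j hj
      rcases Finset.mem_insert.mp hj with rfl | hj
      · exact r2 r hr
      · exact h2 r (r5 r hr) j hj
    · intro j hj
      have hjk : j ≠ k := fun e => hj (e ▸ Finset.mem_insert_self _ _)
      exact r3 _ (h3 j fun h => hj (Finset.mem_insert_of_mem h)) (hne j k hjk)
    · set Y : Fin N → M2 := fun s => if s ∈ (g k).S then τ s else 1 with hY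
      have hcY : Commute (lop rest') (tensor Y) := by
        apply lop_commute_tensor
        intro r hr s hs
        have : s ∉ (g k).S := Finset.disjoint_left.mp (r2 r hr) hs
        simp [hY, this]
      have hsplit : (tensor fun s => if s ∈ J.biUnion G.W then 1 else τ s)
          = tensor Y * tensor fun s => if s ∈ (insert k J).biUnion G.W then 1 else τ s := by
        rw [tensor_mul]
        congr 1
        funext s
        rw [Finset.biUnion_insert, hW k]
        by_cases hs : s ∈ (g k).S
        · have hs' : s ∉ J.biUnion G.W := by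
            intro h
            obtain ⟨j, hj, hsj⟩ := Finset.mem_biUnion.mp h
            have hjk : j ≠ k := fun e => hk (e ▸ hj)
            exact Finset.disjoint_left.mp (G.disj j k hjk) hsj (by rw [hW k]; exact hs)
          simp [hY, hs, hs']
        · simp [hY, hs]
      rw [h4, hsplit, r4, Fam.cP_insert' G C hC hk, hCdef k, ← hY]
      generalize (tensor fun s => if s ∈ (insert k J).biUnion G.W then 1 else τ s) = Z
      calc G.cP C hC J * ((g k).op * lop rest' * (tensor Y * Z))
          = G.cP C hC J * ((g k).op * (lop rest' * tensor Y) * Z) := by simp only [mul_assoc]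
        _ = G.cP C hC J * ((g k).op * (tensor Y * lop rest') * Z) := by rw [hcY.eq]
        _ = _ := by simp only [mul_assoc]

end Vale.Agent.Lib.P368y
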