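import Vale.Agent.Lib.P368y.Bridge2

/-!
The block data of a selection of gates and inputs, and the comparison of the slice with its iterate.
-/

open scoped BigOperators Matrix Matrix.Norms.L2Operator

namespace Vale.Agent.Lib.P368y

open Vale.Agent.Lib.P368x

variable {N : ℕ} {ι : Type*} [DecidableEq ι]

/-- The state of a gate at a site. -/
noncomputable def gv (g : RGate N) (s : Fin N) : Bool → ℂ :=
  if h : s ∈ g.S then Classical.choose (g.hS s h) else bv false

lemma gv_unit (g : RGate N) (s : Fin N) : nsq (gv g s) = 1 := by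
  rw [gv]
  split_ifs with h
  · exact (Classical.choose_spec (g.hS s h)).1
  · exact bv_unit false

lemma gv_spec (g : RGate N) (s : Fin N) (h : s ∈ g.S) :
    g.ρ s = Matrix.vecMulVec (gv g s) (star (gv g s)) := by
  rw [gv, dif_pos h]
  exact (Classical.choose_spec (g.hS s h)).2

lemma rho_ket (u v : Bool → ℂ) : Matrix.vecMulVec u (star u) * ket v = ip u v • ket u := by
  ext a b
  cases b <;> simp [ket, ip, Matrix.mul_apply, Fintype.sum_bool, Matrix.vecMulVec_apply] 
  ring

lemma rho_Kt (g : RGate N) (v : Fin N → Bool → ℂ) :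
    tensor g.ρ * Kt g.S v = (∏ s ∈ g.S, ip (gv g s) (v s)) • Kt g.S (gv g) := by
  rw [Kt, Kt, ← tensor_smul_on, tensor_mul]
  congr 1
  funext s
  by_cases hs : s ∈ g.S
  · simp only [hs, if_true]
    rw [gv_spec g s hs, rho_ket]
  · simp only [hs, if_false, mul_one]
    exact g.hO s hs

lemma mul_ket (A : M2) (v : Bool → ℂ) : A * ket v = ket (A *ᵥ v) := by
  ext a b
  cases b <;> simp [ket, Matrix.mul_apply, Fintype.sum_bool, Matrix.mulVec, dotProduct]

lemma nsq_mulVec {v : M2} (hv : Uni v) (u : Bool → ℂ) : nsq (v *ᵥ u) = nsq u := by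
  have : ((nsq (v *ᵥ u) : ℝ) : ℂ) = ((nsq u : ℝ) : ℂ) := by
    rw [nsq_eq, nsq_eq, Matrix.star_mulVec, ← Matrix.dotProduct_mulVec, Matrix.mulVec_mulVec, hv.1,
      Matrix.one_mulVec]
  exact Complex.ofReal_inj.mp this

lemma mulVec_bv (A : M2) (b c : Bool) : (A *ᵥ bv b) c = A c b := by
  cases b <;> simp [Matrix.mulVec, dotProduct, Fintype.sum_bool, bv]

lemma on_of_uni {v : M2} (hv : Uni v) : ON fun b => v *ᵥ bv b := by
  have : amat (fun b => v *ᵥ bv b) = v := by
    ext c b
    simp [amat, mulVec_bv]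
  rw [ON, this]
  exact hv

/-- The block data. -/
noncomputable def mkB (i : ι → Fin N) (g : ι → RGate N) (w : Fin N → M2) (w' : Str N)
    (hi : ∀ k, i k ∈ (g k).S) (hd : ∀ j k, j ≠ k → Disjoint (g j).S (g k).S)
    (hw : ∀ s, Uni (w s)) : BData ι N where
  W := fun k => (g k).S
  i := i
  ψ := fun k s => gv (g k) s
  e := fun _ s => w s *ᵥ bv (w' s)
  α := fun k b => w (i k) *ᵥ bv b
  hi := hi
  disj := hd
  hψ := fun k s => gv_unit _ _
  he := fun _ s => by rw [nsq_mulVec (hw s)]; exact bv_unit _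
  hα := fun k => on_of_uni (hw _)

section

variable (i : ι → Fin N) (g : ι → RGate N) (w : Fin N → M2) (w' : Str N)
    (hi : ∀ k, i k ∈ (g k).S) (hd : ∀ j k, j ≠ k → Disjoint (g j).S (g k).S)
    (hw : ∀ s, Uni (w s)) (I₂ : Finset (Fin N))

/-- The local operators on all the sites. -/
noncomputable def tauS (w : Fin N → M2) (w' : Str N) (I₂ : Finset (Fin N)) : Fin N → M2 :=
  fun s => if s ∈ I₂ then w s else ket (w s *ᵥ bv (w' s))

/-- The block operators. -/
noncomputable def blkC (g : ι → RGate N) (τ : Fin N → M2) (k : ι) : Op N :=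
  (g k).op * tensor fun s => if s ∈ (g k).S then τ s else 1

lemma blkC_K (hI : ∀ k, i k ∈ I₂) (hone : ∀ k, ∀ s ∈ (g k).S, s ∈ I₂ → s = i k) (k : ι) (b : Bool) :
    blkC g (tauS w w' I₂) k * site (i k) (ket (bv b)) = (mkB i g w w' hi hd hw).K k b := by
  set B := mkB i g w w' hi hd hw with hB
  have h1 : (tensor fun s => if s ∈ (g k).S then tauS w w' I₂ s else 1) * site (i k) (ket (bv b))
      = Kt (g k).S (B.eb k b) := by
    rw [site, tensor_mul, Kt]
    congr 1
    funext s
    by_cases hs : s ∈ (g k).S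
    · by_cases hsi : s = i k
      · subst hsi
        simp only [hs, if_true, tauS, hI k, Function.update_self, mul_ket]
        congr 1
        simp [hB, BData.eb, mkB]
      · have hsI : s ∉ I₂ := fun h => hsi (hone k s hs h)
        simp only [hs, if_true, tauS, hsI, if_false, Function.update_of_ne hsi, mul_one]
        congr 1
        simp [hB, BData.eb, mkB, Function.update_of_ne hsi]
    · have hsi : s ≠ i k := fun e => hs (e ▸ hi k)
      simp [hs, Function.update_of_ne hsi]
  rw [blkC, mul_assoc, h1, RGate.op, sub_mul, one_mul, smul_mul_assoc, rho_Kt]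
  have h2 : ∏ s ∈ (g k).S, ip (gv (g k) s) (B.eb k b s) = B.f k b * B.c k := B.overlap k b
  rw [h2, smul_smul]
  show _ = Kt (B.W k) (B.eb k b) - B.z k b • Kt (B.W k) (B.ψ k)
  have e3 : (2 : ℂ) * (B.f k b * B.c k) = B.z k b := by rw [BData.z]; ring
  rw [e3]
  rfl

end

lemma norm_lop_le (gs : List (RGate N)) : ‖lop gs‖ ≤ 1 := by
  have h : ‖(lop gs)ᴴ * lop gs‖ = ‖lop gs‖ * ‖lop gs‖ := Matrix.l2_opNorm_conjTranspose_mul_self _
  rw [lop_unitary, norm_one] at h
  nlinarith [norm_nonneg (lop gs)]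

lemma norm_uni_le {v : M2} (hv : Uni v) : ‖v‖ ≤ 1 := by
  have h : ‖vᴴ * v‖ = ‖v‖ * ‖v‖ := Matrix.l2_opNorm_conjTranspose_mul_self _
  rw [hv.1, norm_one] at h
  nlinarith [norm_nonneg v]

lemma commute_adj {A B : Op N} (h : Commute A Bᴴ) : Commute Aᴴ B := by
  have h2 := congrArg Matrix.conjTranspose h.eq
  rw [Matrix.conjTranspose_mul, Matrix.conjTranspose_mul, Matrix.conjTranspose_conjTranspose] at h2
  exact h2.symm

lemma Nf_off (i : ι → Fin N) (hinj : Function.Injective i) (J : Finset ι) (X : Op N)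
    (h : ∀ k ∈ J, ∀ A : M2, Commute X (site (i k) A)) :
    (Nf i hinj).Off J X ∧ (Nf i hinj).Off J Xᴴ := by
  have hadj : ∀ k ∈ J, ∀ A : M2, Commute Xᴴ (site (i k) A) := by
    intro k hk A
    apply commute_adj
    rw [site_conjTranspose]
    exact h k hk _
  refine ⟨fun k hk b => ⟨h k hk _, ?_⟩, fun k hk b => ⟨hadj k hk _, ?_⟩⟩
  · show Commute X (site (i k) _)ᴴ
    rw [site_conjTranspose]
    exact h k hk _
  · show Commute Xᴴ (site (i k) _)ᴴ
    rw [site_conjTranspose]
    exact hadj k hk _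

/-- Comparison of the slice at `w'` with the iterate of a block family. -/
theorem bridge [Fintype ι] (gs : List (RGate N)) (hgs : gs.Pairwise fun g h => Disjoint g.S h.S)
    (w : Fin N → M2) (hw : ∀ s, Uni (w s)) (i : ι → Fin N) (hinj : Function.Injective i)
    (g : ι → RGate N) (hg : ∀ k, g k ∈ gs) (hi : ∀ k, i k ∈ (g k).S)
    (hone : ∀ k, ∀ s ∈ (g k).S, s ∈ Finset.univ.image i → s = i k) (T : Op N)
    (w' : Str N) (hw' : ∀ k, w' (i k) = false) :
    ∃ B : BData ι N, (∀ k, B.i k = i k) ∧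
      ‖E (Finset.univ.image i) ((lop gs * tensor w)ᴴ * T * (lop gs * tensor w)) w' w'‖
        ≤ ‖B.fam.EJ Finset.univ T‖ := by
  classical
  set I₂ := Finset.univ.image i with hI₂
  have hI : ∀ k, i k ∈ I₂ := fun k => Finset.mem_image_of_mem _ (Finset.mem_univ k)
  have hne : ∀ j k, j ≠ k → g j ≠ g k := by
    intro j k hjk he
    apply hjk
    apply hinj
    exact hone k (i j) (he ▸ hi j) (hI j)
  have hd : ∀ j k, j ≠ k → Disjoint (g j).S (g k).S := by
    intro j k hjk
    haveI : Std.Symm (fun g h : RGate N => Disjoint g.S h.S) := ⟨fun _ _ h => h.symm⟩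
    exact hgs.forall (hg j) (hg k) (hne j k hjk)
  set B := mkB i g w w' hi hd hw with hB
  refine ⟨B, fun _ => rfl, ?_⟩
  set τ := tauS w w' I₂ with hτ
  set C : ι → Op N := blkC g τ with hCdef
  have hC : ∀ k, C k ∈ SA (B.fam.W k) := fun k =>
    mul_mem (RGate.op_mem _) (tensor_mem_SA fun s hs => by
      have : s ∉ (g k).S := hs
      simp [this])
  have hCK : ∀ k b, C k * (Nf i hinj).K k b = B.fam.K k b := fun k b =>
    blkC_K i g w w' hi hd hw I₂ hI hone k b
  obtain ⟨rest, _, h2, _, h4⟩ := split_blocks B.fam g (fun _ => rfl) gs hgs hg hne τ C hC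
    (fun _ => rfl) Finset.univ
  set Ξ := lop rest * tensor fun s => if s ∈ Finset.univ.biUnion B.fam.W then 1 else τ s with hΞ
  set P := B.fam.cP C hC Finset.univ with hP
  set Λ := et (Finset.univ \ I₂) w' with hΛ
  have hw'S : w' ∈ SI (Finset.univ \ I₂) := by
    rw [mem_SI]
    intro j hj
    have : j ∈ I₂ := by simpa using hj
    obtain ⟨k, _, rfl⟩ := Finset.mem_image.mp this
    exact hw' k
  have hGΛ : (lop gs * tensor w) * Λ = P * Ξ := by
    rw [← h4, mul_assoc]
    congr 1
    rw [hΛ, et, Kt, tensor_mul]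
    congr 1
    funext s
    by_cases hs : s ∈ I₂
    · simp [hτ, tauS, hs]
    · simp [hτ, tauS, hs, mul_ket]
  -- `Λ` is off the sites
  have hΛoff : ∀ k ∈ Finset.univ, ∀ A : M2, Commute Λ (site (i k) A) := by
    intro k _ A
    refine SA_commute ?_ (et_mem _ _) (site_mem_SA (Finset.mem_singleton_self _) _)
    simp [hI k]
  obtain ⟨oΛ, oΛ'⟩ := Nf_off i hinj Finset.univ Λ hΛoff
  -- `Ξ` is off the sites
  have hΞoff : ∀ k ∈ Finset.univ, ∀ A : M2, Commute Ξ (site (i k) A) := by
    intro k hk A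
    refine Commute.mul_left ?_ ?_
    · apply lop_commute_tensor
      intro r hr s hs
      have hsi : s ≠ i k := fun e => Finset.disjoint_left.mp (h2 r hr k hk) hs (e ▸ hi k)
      exact Function.update_of_ne hsi _ _
    · apply tensor_commute
      intro s
      by_cases hsi : s = i k
      · left
        have : s ∈ Finset.univ.biUnion B.fam.W :=
          Finset.mem_biUnion.mpr ⟨k, hk, by rw [hsi]; exact hi k⟩
        simp [this]
      · right
        exact Function.update_of_ne hsi _ _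
  obtain ⟨oΞ, oΞ'⟩ := Nf_off i hinj Finset.univ Ξ hΞoff
  have hΞn : ‖Ξ‖ ≤ 1 := by
    refine (mul_norm_aux (norm_lop_le rest)).trans (norm_tensor_le_one _ fun s => ?_)
    by_cases hs : s ∈ Finset.univ.biUnion B.fam.W
    · simp [hs]
    · simp only [hs, if_false, hτ, tauS]
      by_cases hs2 : s ∈ I₂
      · simp only [hs2, if_true]
        exact norm_uni_le (hw s)
      · simp only [hs2, if_false]
        apply norm_ket_le
        rw [nsq_mulVec (hw s)]
        exact bv_unit _
  set A := (lop gs * tensor w)ᴴ * T * (lop gs * tensor w) with hA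
  have e1 : E I₂ A w' w' = (Nf i hinj).EJ Finset.univ A w' w' :=
    E_entry i hinj Finset.univ A w' fun k _ => hw' k
  have e2 : (Nf i hinj).EJ Finset.univ A w' w'
      = (Λᴴ * (Nf i hinj).EJ Finset.univ A * Λ) (zeroStr N) (zeroStr N) :=
    (entry_sandwich _ _ hw'S _).symm
  have e3 : Λᴴ * (Nf i hinj).EJ Finset.univ A * Λ
      = Ξᴴ * B.fam.EJ Finset.univ T * Ξ := by
    rw [← Fam.EJ_mul_left _ oΛ', ← Fam.EJ_mul_right _ oΛ]
    have e4 : Λᴴ * A * Λ = Ξᴴ * (Pᴴ * T * P) * Ξ := by
      have e5 : Λᴴ * A * Λ = ((lop gs * tensor w) * Λ)ᴴ * T * ((lop gs * tensor w) * Λ) := by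
        rw [hA, Matrix.conjTranspose_mul (lop gs * tensor w) Λ]
        simp only [mul_assoc]
      rw [e5, hGΛ, Matrix.conjTranspose_mul]
      simp only [mul_assoc]
    rw [e4, Fam.EJ_mul_right _ oΞ, Fam.EJ_mul_left _ oΞ', hP, Fam.EJ_conj B.fam C hC (Nf i hinj) hCK]
  rw [e1, e2, e3]
  refine (abs_entry_le _ _).trans ?_
  exact mul3_norm_le _ (by rw [norm_adj]; exact hΞn) hΞn

end Vale.Agent.Lib.P368y
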