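import Vale.Agent.Lib.P368y.Bridge3

/-!
A gate of the first layer containing many inputs.
-/

open scoped BigOperators Matrix Matrix.Norms.L2Operator

namespace Vale.Agent.Lib.P368y

open Vale.Agent.Lib.P368x

variable {N : ℕ} {ι : Type*} [DecidableEq ι]

/-- The rank one projectors of a gate, extended to all sites. -/
noncomputable def rp (g : RGate N) : Fin N → M2 := fun s => if s ∈ g.S then g.ρ s else e00

lemma rp_proj (g : RGate N) (s : Fin N) : Proj1 (rp g s) := by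
  by_cases hs : s ∈ g.S
  · simp only [rp, hs, if_true]; exact g.hS s hs
  · simp only [rp, hs, if_false]; exact proj1_e00

/-- The projectors at the sites. -/
noncomputable def siteQ (g : RGate N) : QFam (Fin N) N where
  S := fun s => {s}
  Q := fun s => site s (rp g s)
  hQmem := fun s => site_mem_SA (Finset.mem_singleton_self _) _
  hQh := fun s => by rw [site_conjTranspose, (rp_proj g s).herm]
  hQ2 := fun s => by rw [← site_mul, (rp_proj g s).idem]
  hSd := fun j k h => Finset.disjoint_singleton.mpr h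

lemma QP_eq (g : RGate N) (J : Finset (Fin N)) : (siteQ g).QP J = tensor (XOn J (rp g)) := by
  induction J using Finset.induction_on with
  | empty =>
    simp only [QFam.QP_empty, XOn, Finset.notMem_empty, if_false]
    exact tensor_one.symm
  | insert s J hs ih =>
    rw [QFam.QP_insert _ hs, ih]
    show site s (rp g s) * _ = _
    rw [site, tensor_mul]
    congr 1
    funext t
    by_cases ht : t = s
    · subst ht
      simp [XOn, hs]
    · simp [XOn, ht]

lemma tensor_split_left (g : RGate N) (J : Finset (Fin N)) (h : J ⊆ g.S) :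
    tensor g.ρ = (siteQ g).QP J * tensor (XOff J g.ρ) := by
  rw [QP_eq, tensor_mul]
  congr 1
  funext s
  by_cases hs : s ∈ J
  · simp [XOn, XOff, hs, rp, h hs]
  · simp [XOn, XOff, hs]

lemma tensor_split_right (g : RGate N) (J : Finset (Fin N)) (h : J ⊆ g.S) :
    tensor g.ρ = tensor (XOff J g.ρ) * (siteQ g).QP J := by
  rw [QP_eq, tensor_mul]
  congr 1
  funext s
  by_cases hs : s ∈ J
  · simp [XOn, XOff, hs, rp, h hs]
  · simp [XOn, XOff, hs]

lemma ON_bv : ON bv := by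
  have : amat bv = 1 := by
    ext c b
    cases c <;> cases b <;> simp [amat, bv]
  rw [ON, this]
  exact ⟨by simp, by simp⟩

lemma Ab_Nf (s : Fin N) {X : M2} (hX : Proj1 X) :
    ‖Ab ((Nf id Function.injective_id).K s) (site s X)‖ ≤ 1 / 2 := by
  rw [Ab_apply]
  have h := sum_N s ON_bv X (Z := 1) (fun A => Commute.one_left _)
  simp only [mul_one] at h
  show ‖(1 / 2 : ℂ) • ((site s (ket (bv false)))ᴴ * site s X * site s (ket (bv false))
    + (site s (ket (bv true)))ᴴ * site s X * site s (ket (bv true)))‖ ≤ 1 / 2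
  rw [h, proj1_trace hX, one_smul, norm_smul, norm_half]
  have := (norm_site_le s e00).trans proj1_e00.norm_le
  linarith

lemma norm_AJ_siteQ (g : RGate N) (J : Finset (Fin N)) :
    ‖(Nf id Function.injective_id).AJ J ((siteQ g).QP J)‖ ≤ (1 / 2 : ℝ) ^ J.card := by
  refine (norm_AJ_QP (Nf_nrm id Function.injective_id) (siteQ g)
    (fun j k hjk => Finset.disjoint_singleton.mpr hjk) J).trans ?_
  rw [← Finset.prod_const]
  exact Finset.prod_le_prod (fun _ _ => norm_nonneg _) fun k _ => Ab_Nf k (rp_proj g k)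

lemma half_pow_le (n : ℕ) : (1 / 2 : ℝ) ^ n ≤ ((3 / 4 : ℝ) ^ n) ^ 2 := by
  rw [← pow_mul, mul_comm, pow_mul]
  exact pow_le_pow_left₀ (by norm_num) (by norm_num) _

lemma peel_site_left (g : RGate N) (J : Finset (Fin N)) (Z : Op N) (hZ : ‖Z‖ ≤ 1) :
    ‖(Nf id Function.injective_id).EJ J ((siteQ g).QP J * Z)‖ ≤ (3 / 4 : ℝ) ^ J.card := by
  have h := peel_left (Nf_nrm id Function.injective_id) J ((siteQ g).QP_herm J) ((siteQ g).QP_idem J) Z
  have h2 := norm_AJ_siteQ g J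
  refine abs_le_of_sq_le_sq' (h.trans ?_) (by positivity) |>.2
  have h3 : ‖Z‖ ^ 2 ≤ 1 := pow_le_one₀ (norm_nonneg _) hZ
  calc _ ≤ (1 / 2 : ℝ) ^ J.card * 1 := by gcongr
    _ = (1 / 2 : ℝ) ^ J.card := mul_one _
    _ ≤ _ := half_pow_le _

lemma peel_site_right (g : RGate N) (J : Finset (Fin N)) (Z : Op N) (hZ : ‖Z‖ ≤ 1) :
    ‖(Nf id Function.injective_id).EJ J (Z * (siteQ g).QP J)‖ ≤ (3 / 4 : ℝ) ^ J.card := by
  have h := peel_right (Nf_nrm id Function.injective_id) J ((siteQ g).QP_herm J) ((siteQ g).QP_idem J) Z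
  have h2 := norm_AJ_siteQ g J
  refine abs_le_of_sq_le_sq' (h.trans ?_) (by positivity) |>.2
  have h3 : ‖Z‖ ^ 2 ≤ 1 := pow_le_one₀ (norm_nonneg _) hZ
  calc _ ≤ (1 / 2 : ℝ) ^ J.card * 1 := by gcongr
    _ = (1 / 2 : ℝ) ^ J.card := mul_one _
    _ ≤ _ := half_pow_le _

/-- A gate of the first layer containing many inputs. -/
theorem heavy_L1 (gs : List (RGate N)) (hgs : gs.Pairwise fun g h => Disjoint g.S h.S)
    (g : RGate N) (hg : g ∈ gs) (I₀ : Finset (Fin N)) (hI₀ : I₀ ⊆ g.S) (Y : Op N) (hY : ‖Y‖ ≤ 1)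
    (w' : Str N) (hw' : ∀ s ∈ I₀, w' s = false) :
    ‖E I₀ ((lop gs)ᴴ * Y * lop gs) w' w'‖ ≤ ‖E I₀ Y‖ + 4 * (3 / 4 : ℝ) ^ I₀.card := by
  classical
  obtain ⟨rest, _, r2, _, _, r4⟩ := extract gs hgs g hg
  set M := lop rest with hM
  have hMn : ‖M‖ ≤ 1 := norm_lop_le rest
  have hMad : ‖Mᴴ‖ ≤ 1 := by rw [norm_adj]; exact hMn
  have hgn := g.norm_le
  -- the sites of `I₀` are off `M`
  have hoff : ∀ s ∈ I₀, Off s M := fun s hs =>
    lop_off rest s fun r hr h => Finset.disjoint_left.mp (r2 r hr) h (hI₀ hs)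
  have hoff' : ∀ s ∈ I₀, Off s Mᴴ := fun s hs => (hoff s hs).conjTranspose
  have hcomm : ∀ k ∈ I₀, ∀ A : M2, Commute M (site (id k) A) := by
    intro s hs A
    apply lop_commute_tensor
    intro r hr t ht
    have : t ≠ s := fun e => Finset.disjoint_left.mp (r2 r hr) ht (e ▸ hI₀ hs)
    exact Function.update_of_ne this _ _
  obtain ⟨oM, oM'⟩ := Nf_off id Function.injective_id I₀ M hcomm
  set Rh := tensor g.ρ with hRh
  have hexp : g.op * Y * g.op = Y - (2 : ℂ) • (Rh * (Y * g.op)) - (2 : ℂ) • (Y * Rh) := by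
    have e3 : g.op = 1 - (2 : ℂ) • Rh := rfl
    calc g.op * Y * g.op = (1 - (2 : ℂ) • Rh) * Y * g.op := by rw [← e3]
      _ = Y * g.op - (2 : ℂ) • (Rh * (Y * g.op)) := by
          simp only [sub_mul, one_mul, smul_mul_assoc, mul_assoc]
      _ = Y * (1 - (2 : ℂ) • Rh) - (2 : ℂ) • (Rh * (Y * g.op)) := by rw [← e3]
      _ = _ := by
          simp only [mul_sub, mul_one, mul_smul_comm]
          abel
  have hA : (lop gs)ᴴ * Y * lop gs = Mᴴ * Y * M - (2 : ℂ) • (Mᴴ * (Rh * (Y * g.op)) * M)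
      - (2 : ℂ) • (Mᴴ * (Y * Rh) * M) := by
    rw [r4, Matrix.conjTranspose_mul, g.herm]
    calc Mᴴ * g.op * Y * (g.op * M) = Mᴴ * (g.op * Y * g.op) * M := by simp only [mul_assoc]
      _ = _ := by
        rw [hexp]
        simp only [mul_sub, sub_mul, mul_smul_comm, smul_mul_assoc]
  -- the three terms
  have t1 : ‖E I₀ (Mᴴ * Y * M) w' w'‖ ≤ ‖E I₀ Y‖ := by
    refine (abs_entry_le _ _).trans ?_
    rw [E_mul_right_off hoff, E_mul_left_off hoff']
    exact mul3_norm_le _ hMad hMn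
  have tZ : ∀ Z : Op N, ‖(Nf id Function.injective_id).EJ I₀ Z‖ ≤ (3 / 4 : ℝ) ^ I₀.card →
      ‖E I₀ (Mᴴ * Z * M) w' w'‖ ≤ (3 / 4 : ℝ) ^ I₀.card := by
    intro Z hZ
    have e := E_entry id Function.injective_id I₀ (Mᴴ * Z * M) w' hw'
    rw [Finset.image_id] at e
    rw [e]
    refine (abs_entry_le _ _).trans ?_
    rw [Fam.EJ_mul_right _ oM, Fam.EJ_mul_left _ oM']
    exact (mul3_norm_le _ hMad hMn).trans hZ
  have hTn : ‖tensor (XOff I₀ g.ρ)‖ ≤ 1 := by
    apply norm_tensor_le_one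
    intro s
    by_cases hs : s ∈ I₀
    · simp [XOff, hs]
    · simpa [XOff, hs] using (g.site_ok s).norm_le
  have t2 : ‖E I₀ (Mᴴ * (Rh * (Y * g.op)) * M) w' w'‖ ≤ (3 / 4 : ℝ) ^ I₀.card := by
    apply tZ
    rw [hRh, tensor_split_left g I₀ hI₀, mul_assoc]
    apply peel_site_left
    exact (mul_norm_aux hTn).trans ((mul_norm_aux' hgn).trans hY)
  have t3 : ‖E I₀ (Mᴴ * (Y * Rh) * M) w' w'‖ ≤ (3 / 4 : ℝ) ^ I₀.card := by
    apply tZ
    rw [hRh, tensor_split_right g I₀ hI₀, ← mul_assoc]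
    apply peel_site_right
    exact (mul_norm_aux' hTn).trans hY
  rw [hA, map_sub, map_sub, map_smul, map_smul]
  simp only [Matrix.sub_apply, Matrix.smul_apply, smul_eq_mul]
  have n2 : ‖(2 : ℂ)‖ = 2 := by norm_num
  have a1 := norm_sub_le (E I₀ (Mᴴ * Y * M) w' w' - 2 * E I₀ (Mᴴ * (Rh * (Y * g.op)) * M) w' w')
    (2 * E I₀ (Mᴴ * (Y * Rh) * M) w' w')
  have a2 := norm_sub_le (E I₀ (Mᴴ * Y * M) w' w') (2 * E I₀ (Mᴴ * (Rh * (Y * g.op)) * M) w' w')
  rw [norm_mul, n2] at a1 a2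
  linarith

end Vale.Agent.Lib.P368y
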