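import Vale.Agent.Lib.P368y.Bridge4

/-!
Frames of a layer of reflections: conjugating to diagonal gates.
-/

open scoped BigOperators Matrix Matrix.Norms.L2Operator

namespace Vale.Agent.Lib.P368y

open Vale.Agent.Lib.P368x

variable {N : ℕ}

/-- A frame for a rank one projector. -/
lemma proj1_frame {ρ : M2} (h : Proj1 ρ) : ∃ W : M2, Uni W ∧ Wᴴ * e11 * W = ρ := by
  obtain ⟨u, hu, rfl⟩ := h
  have h1 : (starRingEnd ℂ) (u false) * u false + (starRingEnd ℂ) (u true) * u true = 1 :=
    ip_self_unit hu
  set W : M2 := Matrix.of fun a c => if a then star (u c) else if c then u false else - u true with hW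
  have hWW : W * Wᴴ = 1 := by
    ext a b
    cases a <;> cases b <;>
      simp [hW, Matrix.mul_apply, Fintype.sum_bool, Matrix.conjTranspose_apply] <;>
      first
        | linear_combination h1
        | ring
        | (rw [mul_comm]; linear_combination h1)
        | (linear_combination (u false * 0))
  have hWW' : Wᴴ * W = 1 := mul_eq_one_comm.mp hWW
  refine ⟨W, ⟨hWW', hWW⟩, ?_⟩
  ext a b
  simp [hW, e11, Matrix.mul_apply, Fintype.sum_bool, Matrix.conjTranspose_apply, Matrix.vecMulVec_apply]

/-- A frame for a layer of reflections. -/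
lemma frame_list (gs : List (RGate N)) (hgs : gs.Pairwise fun g h => Disjoint g.S h.S) :
    ∃ w : Fin N → M2, (∀ s, Uni (w s)) ∧ ∀ g ∈ gs, ∀ s ∈ g.S, (w s)ᴴ * e11 * w s = g.ρ s := by
  induction gs with
  | nil => exact ⟨fun _ => 1, fun _ => ⟨by simp, by simp⟩, by simp⟩
  | cons g gs ih =>
    obtain ⟨hg, hgs'⟩ := List.pairwise_cons.mp hgs
    obtain ⟨w, hw, hw2⟩ := ih hgs'
    refine ⟨fun s => if h : s ∈ g.S then Classical.choose (proj1_frame (g.hS s h)) else w s, ?_, ?_⟩
    · intro s
      by_cases h : s ∈ g.S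
      · simp only [h, dif_pos]
        exact (Classical.choose_spec (proj1_frame (g.hS s h))).1
      · simp only [h, dif_neg, not_false_eq_true]
        exact hw s
    · intro r hr s hs
      rcases List.mem_cons.mp hr with rfl | hr
      · simp only [hs, dif_pos]
        exact (Classical.choose_spec (proj1_frame (r.hS s hs))).2
      · have h : s ∉ g.S := fun h => Finset.disjoint_left.mp (hg r hr) h hs
        simp only [h, dif_neg, not_false_eq_true]
        exact hw2 r hr s hs

/-- A gate in its frame. -/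
lemma gate_frame (g : RGate N) (w : Fin N → M2) (hw : ∀ s, Uni (w s))
    (h : ∀ s ∈ g.S, (w s)ᴴ * e11 * w s = g.ρ s) : (tensor w)ᴴ * Dg g.S * tensor w = g.op := by
  rw [Dg, RGate.op, mul_sub, sub_mul, mul_one, tensor_unitary hw, mul_smul_comm, smul_mul_assoc]
  congr 2
  rw [Pe, tensor_conjTranspose, tensor_mul, tensor_mul]
  congr 1
  funext s
  by_cases hs : s ∈ g.S
  · simp only [hs, if_true]
    exact h s hs
  · simp only [hs, if_false, mul_one]
    rw [g.hO s hs]
    exact (hw s).1

/-- A layer of reflections in its frame. -/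
lemma lop_frame (gs : List (RGate N)) (w : Fin N → M2) (hw : ∀ s, Uni (w s))
    (h : ∀ g ∈ gs, ∀ s ∈ g.S, (w s)ᴴ * e11 * w s = g.ρ s) :
    lop gs = (tensor w)ᴴ * Dl (gs.map RGate.S) * tensor w := by
  induction gs with
  | nil => simp [tensor_unitary hw]
  | cons g gs ih =>
    rw [lop_cons, List.map_cons, Dl_cons, ih fun r hr => h r (List.mem_cons_of_mem _ hr),
      ← gate_frame g w hw (h g (List.mem_cons_self ..))]
    calc (tensor w)ᴴ * Dg g.S * tensor w * ((tensor w)ᴴ * Dl (gs.map RGate.S) * tensor w)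
        = (tensor w)ᴴ * Dg g.S * (tensor w * (tensor w)ᴴ) * Dl (gs.map RGate.S) * tensor w := by
          simp only [mul_assoc]
      _ = _ := by
        rw [tensor_unitary' hw, mul_one]
        simp only [mul_assoc]

lemma map_S_pairwise (gs : List (RGate N)) (hgs : gs.Pairwise fun g h => Disjoint g.S h.S) :
    (gs.map RGate.S).Pairwise Disjoint := by
  rw [List.pairwise_map]
  exact hgs

lemma uni_adj {v : M2} (hv : Uni v) : Uni vᴴ := by
  refine ⟨?_, ?_⟩
  · rw [Matrix.conjTranspose_conjTranspose]; exact hv.2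
  · rw [Matrix.conjTranspose_conjTranspose]; exact hv.1

/-- Transporting the product projector to a frame. -/
noncomputable def Xfr (w X : Fin N → M2) : Fin N → M2 := fun s => w s * X s * (w s)ᴴ

lemma Xfr_ok {w X : Fin N → M2} (hw : ∀ s, Uni (w s)) (hX : AllOK X) : AllOK (Xfr w X) := by
  intro s
  rcases hX s with h | h
  · left
    simp only [Xfr, h, mul_one]
    exact (hw s).2
  · right
    have := h.conj (uni_adj (hw s))
    rwa [Matrix.conjTranspose_conjTranspose] at this

lemma tensor_Xfr (w X : Fin N → M2) : tensor (Xfr w X) = tensor w * tensor X * (tensor w)ᴴ := by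
  rw [tensor_mul, tensor_conjTranspose, tensor_mul]
  rfl

/-- The second layer acting on a product projector. -/
lemma layer_TT (gs : List (RGate N)) (w : Fin N → M2) (hw : ∀ s, Uni (w s))
    (h : ∀ g ∈ gs, ∀ s ∈ g.S, (w s)ᴴ * e11 * w s = g.ρ s) (X : Fin N → M2) :
    (lop gs)ᴴ * tensor X * lop gs = (tensor w)ᴴ * TT (gs.map RGate.S) (Xfr w X) * tensor w := by
  set D := Dl (gs.map RGate.S) with hD
  have hL := lop_frame gs w hw h
  have hL' : (lop gs)ᴴ = (tensor w)ᴴ * D * tensor w := by
    rw [hL, Matrix.conjTranspose_mul, Matrix.conjTranspose_mul, Matrix.conjTranspose_conjTranspose,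
      Dl_herm, mul_assoc]
  rw [hL', hL, TT, tensor_Xfr, ← hD]
  simp only [mul_assoc]

/-- Conjugating a reflection. -/
noncomputable def cjG (g : RGate N) (v : Fin N → M2) (hv : ∀ s, Uni (v s)) : RGate N where
  S := g.S
  ρ := fun s => (v s)ᴴ * g.ρ s * v s
  hS := fun s hs => (g.hS s hs).conj (hv s)
  hO := fun s hs => by
    rw [g.hO s hs, mul_one]
    exact (hv s).1

lemma cjG_op (g : RGate N) (v : Fin N → M2) (hv : ∀ s, Uni (v s)) :
    (tensor v)ᴴ * g.op * tensor v = (cjG g v hv).op := by
  rw [RGate.op, RGate.op, mul_sub, sub_mul, mul_one, tensor_unitary hv, mul_smul_comm, smul_mul_assoc]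
  congr 2
  rw [tensor_conjTranspose, tensor_mul, tensor_mul]
  rfl

lemma lop_cj (gs : List (RGate N)) (v : Fin N → M2) (hv : ∀ s, Uni (v s)) :
    (tensor v)ᴴ * lop gs * tensor v = lop (gs.map fun g => cjG g v hv) := by
  induction gs with
  | nil => simp [tensor_unitary hv]
  | cons g gs ih =>
    rw [lop_cons, List.map_cons, lop_cons, ← ih, ← cjG_op g v hv]
    calc (tensor v)ᴴ * (g.op * lop gs) * tensor v
        = (tensor v)ᴴ * g.op * 1 * lop gs * tensor v := by simp only [mul_one, mul_assoc]
      _ = (tensor v)ᴴ * g.op * (tensor v * (tensor v)ᴴ) * lop gs * tensor v := by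
          rw [tensor_unitary' hv]
      _ = _ := by simp only [mul_assoc]

lemma cj_pairwise (gs : List (RGate N)) (hgs : gs.Pairwise fun g h => Disjoint g.S h.S)
    (v : Fin N → M2) (hv : ∀ s, Uni (v s)) :
    (gs.map fun g => cjG g v hv).Pairwise fun g h => Disjoint g.S h.S := by
  rw [List.pairwise_map]
  exact hgs

/-- Moving a frame through a layer. -/
lemma frame_through (gs : List (RGate N)) (w : Fin N → M2) (hw : ∀ s, Uni (w s)) :
    tensor w * lop gs
      = lop (gs.map fun g => cjG g (fun s => (w s)ᴴ) fun s => uni_adj (hw s)) * tensor w := by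
  have hv : ∀ s, Uni ((w s)ᴴ) := fun s => uni_adj (hw s)
  have e : tensor (fun s => (w s)ᴴ) = (tensor w)ᴴ := (tensor_conjTranspose w).symm
  rw [← lop_cj gs _ hv, e, Matrix.conjTranspose_conjTranspose]
  calc tensor w * lop gs = tensor w * lop gs * 1 := (mul_one _).symm
    _ = tensor w * lop gs * ((tensor w)ᴴ * tensor w) := by rw [tensor_unitary hw]
    _ = _ := by simp only [mul_assoc]

/-! ### Gateless inputs -/

/-- The one-qubit reflection. -/
noncomputable def r00 : M2 := 1 - (2 : ℂ) • e00

lemma r00_sq : r00 * r00 = 1 := by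
  simp only [r00, mul_sub, sub_mul, mul_one, one_mul, smul_mul_assoc, mul_smul_comm, e00_idem]
  ext a b
  simp only [Matrix.sub_apply, Matrix.smul_apply, smul_eq_mul]
  ring

lemma r00_herm : r00ᴴ = r00 := by
  simp [r00, Matrix.conjTranspose_sub, Matrix.conjTranspose_smul, e00_herm]

lemma r00_uni : Uni r00 := by
  rw [Uni, r00_herm, r00_sq]
  exact ⟨rfl, rfl⟩

/-- The singleton gate. -/
noncomputable def g00 (i : Fin N) : RGate N where
  S := {i}
  ρ := Function.update (fun _ => 1) i e00
  hS := fun s hs => by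
    rw [Finset.mem_singleton.mp hs, Function.update_self]
    exact proj1_e00
  hO := fun s hs => Function.update_of_ne (fun e => hs (Finset.mem_singleton.mpr e)) _ _

lemma g00_op (i : Fin N) : (g00 i).op = site i r00 := by
  rw [RGate.op, r00]
  have e1 : tensor (g00 i).ρ = site i e00 := rfl
  rw [e1, ← site_smul]
  have h := tensor_update_sub (fun _ : Fin N => (1 : M2)) i 1 ((2 : ℂ) • e00)
  have e2 : site i (1 - (2 : ℂ) • e00) = tensor (Function.update (fun _ => 1) i (1 - (2 : ℂ) • e00)) := rfl
  rw [e2, h]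
  congr 1
  exact (site_one i).symm

/-- Inserting a singleton gate at a gateless input. -/
lemma gateless_step (gs : List (RGate N)) (i : Fin N) (hi : ∀ g ∈ gs, i ∉ g.S) (w : Fin N → M2) :
    lop (g00 i :: gs) * tensor (Function.update w i (r00 * w i)) = lop gs * tensor w := by
  have hc : Commute (g00 i).op (lop gs) := by
    rw [g00_op]
    refine (lop_commute_tensor gs _ ?_).symm
    intro g hg s hs
    have : s ≠ i := fun e => hi g hg (e ▸ hs)
    exact Function.update_of_ne this _ _
  rw [lop_cons, hc.eq, mul_assoc, g00_op, site, tensor_mul]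
  congr 2
  funext s
  by_cases hs : s = i
  · subst hs
    simp only [Function.update_self]
    rw [← mul_assoc, r00_sq, one_mul]
  · simp [Function.update_of_ne hs]

end Vale.Agent.Lib.P368y
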