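import Vale.Agent.Lib.P368y.ColumnBound

/-!
Garbage pairs, their effect on all-ones projectors, scalar estimates, the projector pair of a gate.
-/

open scoped BigOperators Matrix Matrix.Norms.L2Operator

namespace Vale.Agent.Lib.P368y

open Vale.Agent.Lib.P368x

variable {N : ℕ} {ι : Type*} [DecidableEq ι]

lemma ip_e11 (u v : Bool → ℂ) : ip u (e11 *ᵥ v) = star (u true) * v true := by
  simp [ip, e11, Matrix.mulVec, dotProduct, Fintype.sum_bool]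

lemma nsq_le_true {u : Bool → ℂ} (hu : nsq u = 1) : ‖u true‖ ^ 2 ≤ 1 := by
  unfold nsq at hu
  nlinarith [sq_nonneg ‖u false‖]

lemma norm_true_le {u : Bool → ℂ} (hu : nsq u = 1) : ‖u true‖ ≤ 1 := by
  have := nsq_le_true hu
  nlinarith [norm_nonneg (u true)]

/-- The scalar triple at one site. -/
lemma triple_one (p e : Bool → ℂ) (hp : nsq p = 1) (he : nsq e = 1) :
    ‖e true - p true * ip p e‖ ^ 2 ≤ (1 - ‖ip p e‖ ^ 2) * (1 - ‖p true‖ ^ 2) := by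
  have hp' : p false * star (p false) + p true * star (p true) = 1 := by
    have h3 : p false * star (p false) = ((‖p false‖ ^ 2 : ℝ) : ℂ) := by
      simp [Complex.mul_conj']
    have h4 : p true * star (p true) = ((‖p true‖ ^ 2 : ℝ) : ℂ) := by
      simp [Complex.mul_conj']
    rw [h3, h4, ← Complex.ofReal_add]
    unfold nsq at hp
    rw [hp]
    simp
  have e1 : e true - p true * ip p e
      = star (p false) * (p false * e true - p true * e false) := by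
    simp only [ip]
    linear_combination (-(e true)) * hp'
  have lag : ‖ip p e‖ ^ 2 + ‖p false * e true - p true * e false‖ ^ 2
      = (‖p false‖ ^ 2 + ‖p true‖ ^ 2) * (‖e false‖ ^ 2 + ‖e true‖ ^ 2) := by
    simp only [Complex.sq_norm, Complex.normSq_apply, ip, Complex.add_re, Complex.add_im,
      Complex.sub_re, Complex.sub_im, Complex.mul_re, Complex.mul_im, Complex.star_def,
      Complex.conj_re, Complex.conj_im]
    ring
  unfold nsq at hp he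
  rw [hp, he, one_mul] at lag
  rw [e1, norm_mul, norm_star, mul_pow]
  have h1 : ‖p false * e true - p true * e false‖ ^ 2 = 1 - ‖ip p e‖ ^ 2 := by linarith
  have h2 : ‖p false‖ ^ 2 = 1 - ‖p true‖ ^ 2 := by linarith
  rw [h1, h2, mul_comm]

lemma cs3 (x₁ x₂ x₃ y₁ y₂ y₃ : ℝ) :
    (x₁ * y₁ + x₂ * y₂ + x₃ * y₃) ^ 2 ≤ (x₁ ^ 2 + x₂ ^ 2 + x₃ ^ 2) * (y₁ ^ 2 + y₂ ^ 2 + y₃ ^ 2) := by
  nlinarith [sq_nonneg (x₁ * y₂ - x₂ * y₁), sq_nonneg (x₁ * y₃ - x₃ * y₁),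
    sq_nonneg (x₂ * y₃ - x₃ * y₂)]

/-- The scalar triple is closed under products. -/
lemma triple_mul {ε₁ ϖ₁ c₁ ε₂ ϖ₂ c₂ : ℂ}
    (h₁ : ‖ε₁ - ϖ₁ * c₁‖ ^ 2 ≤ (1 - ‖c₁‖ ^ 2) * (1 - ‖ϖ₁‖ ^ 2)) (hc₁ : ‖c₁‖ ≤ 1) (hp₁ : ‖ϖ₁‖ ≤ 1)
    (h₂ : ‖ε₂ - ϖ₂ * c₂‖ ^ 2 ≤ (1 - ‖c₂‖ ^ 2) * (1 - ‖ϖ₂‖ ^ 2)) (hc₂ : ‖c₂‖ ≤ 1) (hp₂ : ‖ϖ₂‖ ≤ 1) :
    ‖ε₁ * ε₂ - (ϖ₁ * ϖ₂) * (c₁ * c₂)‖ ^ 2 ≤ (1 - ‖c₁ * c₂‖ ^ 2) * (1 - ‖ϖ₁ * ϖ₂‖ ^ 2) := by
  set x₁ := ‖c₁‖ with hx₁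
  set x₂ := ‖c₂‖ with hx₂
  set p₁ := ‖ϖ₁‖ with hp₁'
  set p₂ := ‖ϖ₂‖ with hp₂'
  have x₁0 : 0 ≤ x₁ := norm_nonneg _
  have x₂0 : 0 ≤ x₂ := norm_nonneg _
  have p₁0 : 0 ≤ p₁ := norm_nonneg _
  have p₂0 : 0 ≤ p₂ := norm_nonneg _
  set A₁ := Real.sqrt (1 - x₁ ^ 2) with hA₁
  set A₂ := Real.sqrt (1 - x₂ ^ 2) with hA₂
  set P₁ := Real.sqrt (1 - p₁ ^ 2) with hP₁
  set P₂ := Real.sqrt (1 - p₂ ^ 2) with hP₂
  have sA₁ : A₁ ^ 2 = 1 - x₁ ^ 2 := Real.sq_sqrt (by nlinarith)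
  have sA₂ : A₂ ^ 2 = 1 - x₂ ^ 2 := Real.sq_sqrt (by nlinarith)
  have sP₁ : P₁ ^ 2 = 1 - p₁ ^ 2 := Real.sq_sqrt (by nlinarith)
  have sP₂ : P₂ ^ 2 = 1 - p₂ ^ 2 := Real.sq_sqrt (by nlinarith)
  have A₁0 : 0 ≤ A₁ := Real.sqrt_nonneg _
  have A₂0 : 0 ≤ A₂ := Real.sqrt_nonneg _
  have P₁0 : 0 ≤ P₁ := Real.sqrt_nonneg _
  have P₂0 : 0 ≤ P₂ := Real.sqrt_nonneg _
  set a₁ := ε₁ - ϖ₁ * c₁ with ha₁
  set a₂ := ε₂ - ϖ₂ * c₂ with ha₂
  have n₁ : ‖a₁‖ ≤ A₁ * P₁ := by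
    have : ‖a₁‖ ^ 2 ≤ (A₁ * P₁) ^ 2 := by rw [mul_pow, sA₁, sP₁]; exact h₁
    exact abs_le_of_sq_le_sq' this (by positivity) |>.2
  have n₂ : ‖a₂‖ ≤ A₂ * P₂ := by
    have : ‖a₂‖ ^ 2 ≤ (A₂ * P₂) ^ 2 := by rw [mul_pow, sA₂, sP₂]; exact h₂
    exact abs_le_of_sq_le_sq' this (by positivity) |>.2
  have e : ε₁ * ε₂ - (ϖ₁ * ϖ₂) * (c₁ * c₂) = a₁ * a₂ + a₁ * (ϖ₂ * c₂) + a₂ * (ϖ₁ * c₁) := by
    rw [ha₁, ha₂]; ring
  set B := (A₁ * A₂) * (P₁ * P₂) + (A₁ * x₂) * (P₁ * p₂) + (x₁ * A₂) * (p₁ * P₂) with hB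
  have hB0 : 0 ≤ B := by positivity
  have hle : ‖ε₁ * ε₂ - (ϖ₁ * ϖ₂) * (c₁ * c₂)‖ ≤ B := by
    rw [e]
    refine (norm_add₃_le).trans ?_
    rw [norm_mul, norm_mul, norm_mul, norm_mul, norm_mul]
    have m1 : ‖a₁‖ * ‖a₂‖ ≤ (A₁ * P₁) * (A₂ * P₂) :=
      mul_le_mul n₁ n₂ (norm_nonneg _) (by positivity)
    have m2 : ‖a₁‖ * (p₂ * x₂) ≤ (A₁ * P₁) * (p₂ * x₂) :=
      mul_le_mul_of_nonneg_right n₁ (by positivity)
    have m3 : ‖a₂‖ * (p₁ * x₁) ≤ (A₂ * P₂) * (p₁ * x₁) :=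
      mul_le_mul_of_nonneg_right n₂ (by positivity)
    have : (A₁ * P₁) * (A₂ * P₂) + (A₁ * P₁) * (p₂ * x₂) + (A₂ * P₂) * (p₁ * x₁) = B := by
      rw [hB]; ring
    linarith
  have hcs : B ^ 2 ≤ ((A₁ * A₂) ^ 2 + (A₁ * x₂) ^ 2 + (x₁ * A₂) ^ 2)
      * ((P₁ * P₂) ^ 2 + (P₁ * p₂) ^ 2 + (p₁ * P₂) ^ 2) := cs3 _ _ _ _ _ _
  have e1 : (A₁ * A₂) ^ 2 + (A₁ * x₂) ^ 2 + (x₁ * A₂) ^ 2 = 1 - ‖c₁ * c₂‖ ^ 2 := by
    rw [norm_mul, mul_pow, mul_pow, mul_pow, mul_pow, sA₁, sA₂]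
    ring
  have e2 : (P₁ * P₂) ^ 2 + (P₁ * p₂) ^ 2 + (p₁ * P₂) ^ 2 = 1 - ‖ϖ₁ * ϖ₂‖ ^ 2 := by
    rw [norm_mul, mul_pow, mul_pow, mul_pow, mul_pow, sP₁, sP₂]
    ring
  rw [e1, e2] at hcs
  have : ‖ε₁ * ε₂ - (ϖ₁ * ϖ₂) * (c₁ * c₂)‖ ^ 2 ≤ B ^ 2 :=
    pow_le_pow_left₀ (norm_nonneg _) hle 2
  exact this.trans hcs

/-- The triple for a product over a finite set of sites. -/
lemma triple_prod (T : Finset (Fin N)) (p e : Fin N → Bool → ℂ) (hp : ∀ s, nsq (p s) = 1)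
    (he : ∀ s, nsq (e s) = 1) :
    ‖(∏ s ∈ T, e s true) - (∏ s ∈ T, p s true) * ∏ s ∈ T, ip (p s) (e s)‖ ^ 2
      ≤ (1 - ‖∏ s ∈ T, ip (p s) (e s)‖ ^ 2) * (1 - ‖∏ s ∈ T, p s true‖ ^ 2) := by
  induction T using Finset.induction_on with
  | empty => simp
  | insert s T hs ih =>
    rw [Finset.prod_insert hs, Finset.prod_insert hs, Finset.prod_insert hs]
    refine triple_mul (triple_one _ _ (hp s) (he s)) (norm_ip_le (hp s) (he s))
      (norm_true_le (hp s)) ih ?_ ?_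
    · exact norm_prod_ip_le T p e (fun s _ => hp s) (fun s _ => he s)
    · rw [norm_prod]
      exact Finset.prod_le_one (fun _ _ => norm_nonneg _) fun s _ => norm_true_le (hp s)

/-! ### Garbage pairs -/

/-- Garbage data: two product states on each set of a disjoint family of sets of sites. -/
structure GarData (ι : Type*) (N : ℕ) where
  U : ι → Finset (Fin N)
  e : ι → Fin N → Bool → ℂ
  ψ : ι → Fin N → Bool → ℂ
  disj : ∀ j k, j ≠ k → Disjoint (U j) (U k)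
  he : ∀ k s, nsq (e k s) = 1
  hψ : ∀ k s, nsq (ψ k s) = 1

namespace GarData

variable (D : GarData ι N)

/-- Overlap on the whole set. -/
noncomputable def c (k : ι) : ℂ := ∏ s ∈ D.U k, ip (D.ψ k s) (D.e k s)

/-- The pair: reflected or not. -/
noncomputable def K (k : ι) (b : Bool) : Op N :=
  if b then Kt (D.U k) (D.e k) else Kt (D.U k) (D.e k) - (2 * D.c k) • Kt (D.U k) (D.ψ k)

lemma K_true (k : ι) : D.K k true = Kt (D.U k) (D.e k) := rfl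
lemma K_false (k : ι) : D.K k false = Kt (D.U k) (D.e k) - (2 * D.c k) • Kt (D.U k) (D.ψ k) := rfl

lemma K_mem (k : ι) (b : Bool) : D.K k b ∈ SA (D.U k) := by
  cases b
  · exact sub_mem (Kt_mem_SA _ _) (Subalgebra.smul_mem _ (Kt_mem_SA _ _) _)
  · exact Kt_mem_SA _ _

lemma K_norm (k : ι) (b : Bool) : ‖D.K k b‖ ≤ 1 := by
  cases b
  · have h := norm_comb_sq_le (D.U k) (D.e k) (D.ψ k) (fun s _ => D.he k s) (fun s _ => D.hψ k s)
      1 (-(2 * D.c k))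
    have e1 : (1 : ℂ) • Kt (D.U k) (D.e k) + (-(2 * D.c k)) • Kt (D.U k) (D.ψ k) = D.K k false := by
      rw [K_false, one_smul, neg_smul, sub_eq_add_neg]
    rw [e1] at h
    have e2 : ∏ s ∈ D.U k, ip (D.e k s) (D.ψ k s) = star (D.c k) := (star_prod_ip _ _ _).symm
    rw [e2] at h
    have e3 : (star (1 : ℂ) * (-(2 * D.c k)) * star (D.c k)).re = - 2 * ‖D.c k‖ ^ 2 := by
      have : D.c k * star (D.c k) = ((‖D.c k‖ ^ 2 : ℝ) : ℂ) := by
        simp [Complex.mul_conj']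
      have e4 : star (1 : ℂ) * (-(2 * D.c k)) * star (D.c k) = -2 * (D.c k * star (D.c k)) := by
        simp; ring
      have e6 : (-2 : ℂ) * ((‖D.c k‖ ^ 2 : ℝ) : ℂ) = ((-2 * ‖D.c k‖ ^ 2 : ℝ) : ℂ) := by
        push_cast; ring
      rw [e4, this, e6, Complex.ofReal_re]
    rw [e3] at h
    have e5 : ‖-(2 * D.c k)‖ ^ 2 = 4 * ‖D.c k‖ ^ 2 := by
      rw [norm_neg, norm_mul]
      simp
      ring
    rw [e5] at h
    simp only [norm_one] at h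
    have h1 : ‖D.K k false‖ ^ 2 ≤ 1 := by nlinarith
    nlinarith [norm_nonneg (D.K k false)]
  · exact norm_Kt_le _ _ fun s _ => D.he k s

/-- The family of garbage pairs. -/
noncomputable def fam : Fam ι N where
  W := D.U
  K := D.K
  disj := D.disj
  mem := D.K_mem

lemma fam_nrm : D.fam.Nrm := D.K_norm

/-- Probability of `1` for the reflected vector at a site. -/
noncomputable def rs (k : ι) (s : Fin N) : ℝ := ‖D.ψ k s true‖ ^ 2

/-- Normalised overlap at a site. -/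
noncomputable def ws (k : ι) (s : Fin N) : ℂ :=
  star (D.e k s true) * D.ψ k s true / ip (D.e k s) (D.ψ k s)

/-- Squared overlap. -/
noncomputable def xi (k : ι) : ℂ := ((‖D.c k‖ ^ 2 : ℝ) : ℂ)

/-- State of the recursion given a set of sites forced to one. -/
noncomputable def stRe (A₀ : Finset (Fin N)) (k : ι) : ℂ :=
  D.xi k * ∏ s ∈ A₀ ∩ D.U k, (D.rs k s : ℂ)

noncomputable def stIm (A₀ : Finset (Fin N)) (k : ι) : ℂ :=
  D.xi k * ∏ s ∈ A₀ ∩ D.U k, D.ws k s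

lemma ip_ne {k : ι} (hc : D.c k ≠ 0) {s : Fin N} (hs : s ∈ D.U k) :
    ip (D.e k s) (D.ψ k s) ≠ 0 := by
  have h := Finset.prod_ne_zero_iff.mp hc s hs
  intro h0
  apply h
  rw [← star_ip, h0, star_zero]

/-- Sandwich of an all-ones projector. -/
lemma sand_Pe (S A : Finset (Fin N)) (hA : A ⊆ S) (u v : Fin N → Bool → ℂ) :
    (Kt S u)ᴴ * Pe A * Kt S v
      = (∏ s ∈ S, if s ∈ A then star (u s true) * v s true else ip (u s) (v s)) • Pr S := by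
  have h := Kt_sandwich S u v (fun s => if s ∈ A then e11 else 1)
  rw [Pe, h]
  congr 1
  · refine Finset.prod_congr rfl fun s _ => ?_
    by_cases hs : s ∈ A
    · simp [hs, ip_e11]
    · simp [hs]
  · rw [Pr]
    congr 1
    funext s
    by_cases hs : s ∈ S
    · simp [hs]
    · have : s ∉ A := fun h' => hs (hA h')
      simp [hs, this]

/-- The map on an all-ones projector. -/
lemma Eb_Pe (k : ι) (A : Finset (Fin N)) (hA : A ⊆ D.U k) (hc : D.c k ≠ 0) :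
    Eb (D.K k) (Pe A) = ((2 * (D.xi k * ∏ s ∈ A, (D.rs k s : ℂ)
        - D.xi k * ∏ s ∈ A, D.ws k s).re : ℝ) : ℂ) • Pr (D.U k) := by
  set S := D.U k with hS
  set z := 2 * D.c k with hz
  set W := ∏ s ∈ A, D.ws k s with hW
  set R := ∏ s ∈ A, D.rs k s with hR
  have hRc : ∏ s ∈ A, (D.rs k s : ℂ) = ((R : ℝ) : ℂ) := by
    rw [hR]; push_cast; rfl
  have m1 : (∏ s ∈ S, if s ∈ A then star (D.e k s true) * D.ψ k s true
        else ip (D.e k s) (D.ψ k s)) = star (D.c k) * W := by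
    have e1 : ∀ s ∈ S, (if s ∈ A then star (D.e k s true) * D.ψ k s true
        else ip (D.e k s) (D.ψ k s))
        = ip (D.e k s) (D.ψ k s) * (if s ∈ A then D.ws k s else 1) := by
      intro s hs
      by_cases hsA : s ∈ A
      · simp only [hsA, if_true, ws]
        field_simp [D.ip_ne hc hs]
      · simp [hsA]
    rw [Finset.prod_congr rfl e1, Finset.prod_mul_distrib, Finset.prod_ite_mem,
      Finset.inter_eq_right.mpr hA, c, star_prod_ip]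
  have m2 : (∏ s ∈ S, if s ∈ A then star (D.ψ k s true) * D.e k s true
        else ip (D.ψ k s) (D.e k s)) = star (star (D.c k) * W) := by
    rw [← m1, star_prod]
    refine Finset.prod_congr rfl fun s _ => ?_
    by_cases hsA : s ∈ A
    · simp [hsA, mul_comm]
    · simp [hsA, star_ip]
  have m3 : (∏ s ∈ S, if s ∈ A then star (D.ψ k s true) * D.ψ k s true
        else ip (D.ψ k s) (D.ψ k s)) = ((R : ℝ) : ℂ) := by
    have e1 : ∀ s ∈ S, (if s ∈ A then star (D.ψ k s true) * D.ψ k s true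
        else ip (D.ψ k s) (D.ψ k s))
        = (if s ∈ A then (D.rs k s : ℂ) else 1) := by
      intro s _
      by_cases hsA : s ∈ A
      · simp only [hsA, if_true, rs]
        simp [Complex.conj_mul']
      · simp [hsA, ip_self_unit (D.hψ k s)]
    rw [Finset.prod_congr rfl e1, Finset.prod_ite_mem, Finset.inter_eq_right.mpr hA, hRc]
  have hsand := sand_Pe S A hA
  set me := (∏ s ∈ S, if s ∈ A then star (D.e k s true) * D.e k s true
        else ip (D.e k s) (D.e k s)) with hme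
  have E : (Kt S (D.e k) - z • Kt S (D.ψ k))ᴴ * Pe A * (Kt S (D.e k) - z • Kt S (D.ψ k))
      - (Kt S (D.e k))ᴴ * Pe A * Kt S (D.e k)
      = (star z * z * ((R : ℝ) : ℂ) - z * (star (D.c k) * W)
          - star z * star (star (D.c k) * W)) • Pr S := by
    simp only [Matrix.conjTranspose_sub, Matrix.conjTranspose_smul, sub_mul, mul_sub, smul_mul_assoc,
      mul_smul_comm, hsand, m1, m2, m3, ← hme]
    module
  rw [Eb_apply, K_false, K_true, ← hS, ← hz, E, smul_smul]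
  congr 1
  -- the scalar
  set ξ : ℝ := ‖D.c k‖ ^ 2 with hξ
  have hcc : D.c k * star (D.c k) = ((ξ : ℝ) : ℂ) := by
    simp [hξ, Complex.mul_conj']
  have hzeta : z * (star (D.c k) * W) = 2 * ((ξ : ℝ) : ℂ) * W := by
    rw [hz, ← hcc]; ring
  have hzz : star z * z = 4 * ((ξ : ℝ) : ℂ) := by
    rw [hz, ← hcc]; simp; ring
  have hconj : star z * star (star (D.c k) * W) = 2 * ((ξ : ℝ) : ℂ) * star W := by
    have : star z * star (star (D.c k) * W) = star (z * (star (D.c k) * W)) := by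
      rw [star_mul (z) _, mul_comm]
    rw [this, hzeta]
    simp
  have hWW : W + star W = 2 * ((W.re : ℝ) : ℂ) := by
    have := Complex.add_conj W
    simp only [Complex.star_def]
    rw [this]
    push_cast
    ring
  have hre : (((ξ : ℝ) : ℂ) * ((R : ℝ) : ℂ) - ((ξ : ℝ) : ℂ) * W).re = ξ * R - ξ * W.re := by
    simp
  rw [xi, hRc, hre, hzz, hzeta, hconj]
  push_cast
  linear_combination (-((ξ : ℝ) : ℂ)) * hWW

end GarData

end Vale.Agent.Lib.P368y
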