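import Vale.Agent.Lib.P368y.Column1

/-!
The column theorem for garbage pairs and products of conjugated gates.
-/

open scoped BigOperators Matrix Matrix.Norms.L2Operator

namespace Vale.Agent.Lib.P368y

open Vale.Agent.Lib.P368x

variable {N : ℕ} {ι : Type*} [DecidableEq ι]

/-- The `(1,1)` entry of a rank-one projector as a real number. -/
noncomputable def xt (ρ : M2) : ℝ := (ρ true true).re

lemma proj1_data {ρ : M2} (h : Proj1 ρ) :
    0 ≤ xt ρ ∧ xt ρ ≤ 1 ∧ ρ true true = (xt ρ : ℂ) ∧ ρ * e11 * ρ = (xt ρ : ℂ) • ρ ∧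
      e11 * ρ * e11 = (xt ρ : ℂ) • e11 := by
  obtain ⟨u, hu, rfl⟩ := h
  have h1 : (Matrix.vecMulVec u (star u)) true true = ((‖u true‖ ^ 2 : ℝ) : ℂ) := by
    simp [Matrix.vecMulVec_apply, Complex.mul_conj']
  have h2 : xt (Matrix.vecMulVec u (star u)) = ‖u true‖ ^ 2 := by
    rw [xt, h1, Complex.ofReal_re]
  rw [h2]
  refine ⟨by positivity, nsq_le_true hu, h1, ?_, ?_⟩
  · have e0 : star (u true) * u true = ((‖u true‖ ^ 2 : ℝ) : ℂ) := by
      simp [Complex.conj_mul']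
    ext a b
    have key : ((Matrix.vecMulVec u (star u)) * e11 * (Matrix.vecMulVec u (star u))) a b
        = (u a * star (u true)) * (u true * star (u b)) := by
      simp [Matrix.mul_apply, Fintype.sum_bool, e11, Matrix.vecMulVec_apply]
    rw [key, Matrix.smul_apply, Matrix.vecMulVec_apply, smul_eq_mul]
    simp only [Pi.star_apply]
    linear_combination (u a * star (u b)) * e0
  · ext a b
    cases a <;> cases b <;>
      simp [Matrix.mul_apply, Fintype.sum_bool, e11, Matrix.vecMulVec_apply, Complex.mul_conj']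

lemma XOn_siteOK {A : Finset (Fin N)} {X : Fin N → M2} (hX : ∀ s ∈ A, Proj1 (X s)) : AllOK (XOn A X) := by
  intro s
  by_cases hs : s ∈ A
  · simp only [XOn, hs, if_true]; exact Or.inr (hX s hs)
  · simp only [XOn, hs, if_false]; exact Or.inl rfl

/-- The scalar of a product of rank-one projectors. -/
noncomputable def bt (A : Finset (Fin N)) (X : Fin N → M2) : ℝ := ∏ s ∈ A, xt (X s)

lemma bt_bounds {A : Finset (Fin N)} {X : Fin N → M2} (hX : ∀ s ∈ A, Proj1 (X s)) :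
    0 ≤ bt A X ∧ bt A X ≤ 1 :=
  ⟨Finset.prod_nonneg fun s hs => (proj1_data (hX s hs)).1,
    Finset.prod_le_one (fun s hs => (proj1_data (hX s hs)).1) fun s hs => (proj1_data (hX s hs)).2.1⟩

lemma bt_cast (A : Finset (Fin N)) (X : Fin N → M2) :
    ((bt A X : ℝ) : ℂ) = ∏ s ∈ A, (xt (X s) : ℂ) := by
  rw [bt]; push_cast; rfl

lemma U_W_U {A : Finset (Fin N)} {X : Fin N → M2} (hX : ∀ s ∈ A, Proj1 (X s)) :
    tensor (XOn A X) * Pe A * tensor (XOn A X) = ((bt A X : ℝ) : ℂ) • tensor (XOn A X) := by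
  rw [bt_cast, ← tensor_smul_on, Pe, tensor_mul, tensor_mul]
  congr 1
  funext s
  by_cases hs : s ∈ A
  · simp only [XOn, hs, if_true]
    exact (proj1_data (hX s hs)).2.2.2.1
  · simp [XOn, hs]

lemma W_U_W {A : Finset (Fin N)} {X : Fin N → M2} (hX : ∀ s ∈ A, Proj1 (X s)) :
    Pe A * tensor (XOn A X) * Pe A = ((bt A X : ℝ) : ℂ) • Pe A := by
  rw [bt_cast, Pe, ← tensor_smul_on, tensor_mul, tensor_mul]
  congr 1
  funext s
  by_cases hs : s ∈ A
  · simp only [XOn, hs, if_true]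
    exact (proj1_data (hX s hs)).2.2.2.2
  · simp [XOn, hs]

/-- The projector pair attached to a gate. -/
lemma gate_pair {A : Finset (Fin N)} {X : Fin N → M2} (hX : ∀ s ∈ A, Proj1 (X s)) :
    ProjPair (tensor (XOn A X)) (Dg A * tensor (XOn A X) * Dg A) ((1 - 2 * bt A X) ^ 2) := by
  set U := tensor (XOn A X) with hU
  set r := Dg A with hr
  set b := bt A X with hb
  have hok := XOn_siteOK hX
  have hUh : Uᴴ = U := tensor_herm_ok hok
  have hU2 : U * U = U := tensor_idem_ok hok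
  have hrh : rᴴ = r := Dg_herm A
  have hr2 : r * r = 1 := Dg_sq A
  have hUrU : U * (r * U) = (((1 - 2 * b : ℝ)) : ℂ) • U := by
    rw [hr, Dg, sub_mul, one_mul, mul_sub, hU2, smul_mul_assoc, mul_smul_comm, ← mul_assoc, U_W_U hX,
      smul_smul, ← hb]
    push_cast
    module
  refine ⟨hUh, hU2, ?_, ?_, ?_, ?_⟩
  · rw [Matrix.conjTranspose_mul, Matrix.conjTranspose_mul, hrh, hUh, mul_assoc]
  · calc r * U * r * (r * U * r) = r * U * (r * r) * U * r := by simp only [mul_assoc]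
      _ = r * (U * U) * r := by rw [hr2, mul_one]; simp only [mul_assoc]
      _ = _ := by rw [hU2]
  · calc U * (r * U * r * U) = U * (r * U) * (r * U) := by simp only [mul_assoc]
      _ = (((1 - 2 * b : ℝ)) : ℂ) • (U * (r * U)) := by conv_lhs => rw [hUrU, smul_mul_assoc]
      _ = _ := by
        rw [hUrU, smul_smul]
        push_cast
        ring_nf
  · calc r * U * r * (U * (r * U * r)) = r * (U * (r * U) * (r * U)) * r := by simp only [mul_assoc]
      _ = r * ((((1 - 2 * b : ℝ)) : ℂ) • (U * (r * U))) * r := by conv_lhs => rw [hUrU, smul_mul_assoc]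
      _ = _ := by
        rw [hUrU, smul_smul, mul_smul_comm, smul_mul_assoc]
        push_cast
        ring_nf

lemma split_algebra (P W U : Op N) (hP : P * P = P) (c1 : Commute P U) (c2 : Commute P W) :
    (1 - (2 : ℂ) • (P * W)) * U * (1 - (2 : ℂ) • (P * W))
      = U + P * ((1 - (2 : ℂ) • W) * U * (1 - (2 : ℂ) • W) - U) := by
  have e1 : U * (P * W) = P * (U * W) := by rw [← mul_assoc, ← c1.eq, mul_assoc]
  have e2 : P * (W * (P * (U * W))) = P * (W * (U * W)) := by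
    calc P * (W * (P * (U * W))) = P * ((W * P) * (U * W)) := by simp only [mul_assoc]
      _ = P * ((P * W) * (U * W)) := by rw [c2.eq]
      _ = (P * P) * (W * (U * W)) := by simp only [mul_assoc]
      _ = _ := by rw [hP]
  simp only [mul_sub, sub_mul, mul_one, one_mul, smul_mul_assoc, mul_smul_comm, mul_assoc, e1, e2]
  module

/-- A gate with live part `SL` (untested) and tested part `SA`. -/
lemma Qg_split (SL SA : Finset (Fin N)) (hd : Disjoint SL SA) (X : Fin N → M2)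
    (hSL : ∀ s ∈ SL, X s = 1) :
    Qg (SL ∪ SA) X = tensor (XOn SA X)
      + Pe SL * (Dg SA * tensor (XOn SA X) * Dg SA - tensor (XOn SA X)) := by
  have hXOn : XOn (SL ∪ SA) X = XOn SA X := by
    funext s
    by_cases h1 : s ∈ SL
    · have h2 : s ∉ SA := Finset.disjoint_left.mp hd h1
      simp [XOn, h1, h2, hSL s h1]
    · by_cases h2 : s ∈ SA <;> simp [XOn, h1, h2]
  have hP : Commute (Pe SL) (tensor (XOn SA X)) :=
    SA_commute hd (Pe_mem_SA SL) (tensor_XOn_mem SA X)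
  have hW : Commute (Pe SL) (Pe SA) := Pe_commute _ _
  rw [Qg, hXOn, Dg, Pe_union SL SA hd, Dg]
  exact split_algebra _ _ _ (Pe_idem SL) hP hW

namespace GarData

variable (D : GarData ι N)

/-- Overlap of block `k` on a set of sites. -/
noncomputable def cT (k : ι) (T : Finset (Fin N)) : ℂ := ∏ s ∈ T, ip (D.ψ k s) (D.e k s)

lemma norm_cT_le (k : ι) (T : Finset (Fin N)) : ‖D.cT k T‖ ≤ 1 :=
  norm_prod_ip_le _ _ _ (fun s _ => D.hψ k s) (fun s _ => D.he k s)

lemma rs_nonneg (k : ι) (s : Fin N) : 0 ≤ D.rs k s := by unfold rs; positivity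

lemma rs_le (k : ι) (s : Fin N) : D.rs k s ≤ 1 := nsq_le_true (D.hψ k s)

/-- Scalar facts for a gate and a block. -/
lemma gate_scalar (k : ι) (T : Finset (Fin N)) (hc : D.cT k T ≠ 0) :
    ‖(∏ s ∈ T, D.ws k s) - ((∏ s ∈ T, D.rs k s : ℝ) : ℂ)‖ ^ 2
        ≤ (∏ s ∈ T, D.rs k s) * (1 - ∏ s ∈ T, D.rs k s) * (1 / ‖D.cT k T‖ ^ 2 - 1) ∧
      ((∏ s ∈ T, D.rs k s) = 0 → (∏ s ∈ T, D.ws k s) = 0) := by
  set ε := ∏ s ∈ T, D.e k s true with hε
  set ϖ := ∏ s ∈ T, D.ψ k s true with hϖ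
  set c' := D.cT k T with hc'
  have hW : ∏ s ∈ T, D.ws k s = star ε * ϖ / star c' := by
    simp only [ws]
    rw [Finset.prod_div_distrib, Finset.prod_mul_distrib, hε, star_prod, hc', cT, star_prod]
    congr 1
    exact Finset.prod_congr rfl fun s _ => (star_ip _ _).symm
  have hR : ∏ s ∈ T, D.rs k s = ‖ϖ‖ ^ 2 := by
    simp only [rs]
    rw [Finset.prod_pow, hϖ, norm_prod]
  have hRc : ((‖ϖ‖ ^ 2 : ℝ) : ℂ) = ϖ * star ϖ := by
    simp [Complex.mul_conj']
  have hsc : star c' ≠ 0 := by simpa using hc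
  rw [hW, hR]
  refine ⟨?_, ?_⟩
  · have e : star ε * ϖ / star c' - ((‖ϖ‖ ^ 2 : ℝ) : ℂ)
        = ϖ * star (ε - ϖ * c') / star c' := by
      rw [hRc, star_sub, star_mul]
      field_simp
    rw [e, norm_div, norm_mul, norm_star, norm_star, div_pow, mul_pow]
    have h3 := triple_prod T (D.ψ k) (D.e k) (D.hψ k) (D.he k)
    rw [← hε, ← hϖ] at h3
    have h4 : ∏ s ∈ T, ip (D.ψ k s) (D.e k s) = c' := rfl
    rw [h4] at h3
    have hx : 0 < ‖c'‖ ^ 2 := by
      have : 0 < ‖c'‖ := norm_pos_iff.mpr hc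
      positivity
    have e5 : ‖ϖ‖ ^ 2 * (1 - ‖ϖ‖ ^ 2) * (1 / ‖c'‖ ^ 2 - 1)
        = ‖ϖ‖ ^ 2 * ((1 - ‖c'‖ ^ 2) * (1 - ‖ϖ‖ ^ 2)) / ‖c'‖ ^ 2 := by
      field_simp
    rw [e5]
    apply div_le_div_of_nonneg_right _ hx.le
    exact mul_le_mul_of_nonneg_left h3 (by positivity)
  · intro h0
    have : ϖ = 0 := by
      have h1 : ‖ϖ‖ = 0 := by
        have := pow_eq_zero_iff (n := 2) (by norm_num) |>.mp h0
        exact this
      exact norm_eq_zero.mp h1
    rw [this]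
    simp

variable (J : Finset ι)

/-- The live sites. -/
def Lv : Finset (Fin N) := J.biUnion D.U

/-- Gate data. -/
noncomputable def mkGd (X : Fin N → M2) (g : Finset (Fin N)) : Gd ι N where
  U := tensor (XOn (g \ D.Lv J) X)
  L := Dg (g \ D.Lv J) * tensor (XOn (g \ D.Lv J) X) * Dg (g \ D.Lv J) - tensor (XOn (g \ D.Lv J) X)
  r := fun k => ∏ s ∈ g ∩ D.U k, D.rs k s
  w := fun k => ∏ s ∈ g ∩ D.U k, D.ws k s
  S := 2 * Real.sqrt (bt (g \ D.Lv J) X * (1 - bt (g \ D.Lv J) X))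
  δ := fun k => ‖(∏ s ∈ g ∩ D.U k, D.ws k s) - ((∏ s ∈ g ∩ D.U k, D.rs k s : ℝ) : ℂ)‖ /
    (∏ s ∈ g ∩ D.U k, D.rs k s)
  t := fun k => Real.sqrt (1 / ‖D.cT k (g ∩ D.U k)‖ ^ 2 - 1)

variable {J}

lemma cT_ne {k : ι} (hc : D.c k ≠ 0) (T : Finset (Fin N)) (hT : T ⊆ D.U k) : D.cT k T ≠ 0 := by
  rw [cT, Finset.prod_ne_zero_iff]
  intro s hs
  exact Finset.prod_ne_zero_iff.mp hc s (hT hs)

lemma mkGd_ok (X : Fin N → M2) (g : Finset (Fin N)) (hc : ∀ k ∈ J, D.c k ≠ 0)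
    (hX : ∀ s ∈ g \ D.Lv J, Proj1 (X s)) : (D.mkGd J X g).OK J := by
  set A := g \ D.Lv J with hA
  obtain ⟨hb0, hb1⟩ := bt_bounds hX
  set b := bt A X with hb
  have hpair := gate_pair hX
  rw [← hb] at hpair
  have hy : 0 ≤ b * (1 - b) := mul_nonneg hb0 (by linarith)
  have hSsq : (2 * Real.sqrt (b * (1 - b))) ^ 2 = 1 - (1 - 2 * b) ^ 2 := by
    rw [mul_pow, Real.sq_sqrt hy]
    ring
  have hS0 : 0 ≤ 2 * Real.sqrt (b * (1 - b)) := by positivity
  have hγ0 : 0 ≤ (1 - 2 * b) ^ 2 := sq_nonneg _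
  have hγ1 : (1 - 2 * b) ^ 2 ≤ 1 := by nlinarith
  refine ⟨hS0, ?_, ?_, ?_, ?_, ?_, ?_, ?_, ?_, ?_⟩
  · show 2 * Real.sqrt (b * (1 - b)) ≤ 1
    nlinarith [sq_nonneg (2 * Real.sqrt (b * (1 - b)))]
  · show ‖Dg A * tensor (XOn A X) * Dg A - tensor (XOn A X)‖ ≤ 2 * Real.sqrt (b * (1 - b))
    have h1 := hpair.L_le hγ1
    rw [← hSsq] at h1
    exact abs_le_of_sq_le_sq' h1 hS0 |>.2
  · intro k _
    exact Finset.prod_nonneg fun s _ => D.rs_nonneg k s
  · intro k _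
    exact Finset.prod_le_one (fun s _ => D.rs_nonneg k s) fun s _ => D.rs_le k s
  · have hP0 : 0 ≤ (D.mkGd J X g).P J := Finset.prod_nonneg fun k _ =>
      Finset.prod_nonneg fun s _ => D.rs_nonneg k s
    have hP1 : (D.mkGd J X g).P J ≤ 1 := Finset.prod_le_one (fun k _ =>
      Finset.prod_nonneg fun s _ => D.rs_nonneg k s) fun k _ =>
      Finset.prod_le_one (fun s _ => D.rs_nonneg k s) fun s _ => D.rs_le k s
    set P := (D.mkGd J X g).P J with hP
    have e : (D.mkGd J X g).U + ((P : ℝ) : ℂ) • (D.mkGd J X g).L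
        = ((1 - P : ℝ) : ℂ) • tensor (XOn A X) + (P : ℂ) • (Dg A * tensor (XOn A X) * Dg A) := by
      show tensor (XOn A X) + ((P : ℝ) : ℂ) • (Dg A * tensor (XOn A X) * Dg A - tensor (XOn A X)) = _
      push_cast
      module
    rw [e]
    have h2 := hpair.H_le hγ0 hγ1 P hP0 hP1
    have e2 : (D.mkGd J X g).S ^ 2 = 1 - (1 - 2 * b) ^ 2 := hSsq
    rw [e2]
    exact h2
  · intro k _
    exact div_nonneg (norm_nonneg _) (Finset.prod_nonneg fun s _ => D.rs_nonneg k s)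
  · intro k hk
    show ‖(∏ s ∈ g ∩ D.U k, D.ws k s) - ((∏ s ∈ g ∩ D.U k, D.rs k s : ℝ) : ℂ)‖
      ≤ (∏ s ∈ g ∩ D.U k, D.rs k s) * (‖(∏ s ∈ g ∩ D.U k, D.ws k s)
        - ((∏ s ∈ g ∩ D.U k, D.rs k s : ℝ) : ℂ)‖ / (∏ s ∈ g ∩ D.U k, D.rs k s))
    have hcT := D.cT_ne (hc k hk) (g ∩ D.U k) Finset.inter_subset_right
    obtain ⟨_, h2⟩ := D.gate_scalar k (g ∩ D.U k) hcT
    by_cases hr : ∏ s ∈ g ∩ D.U k, D.rs k s = 0
    · rw [h2 hr, hr]
      simp
    · rw [mul_div_cancel₀ _ hr]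
  · intro k _
    exact Real.sqrt_nonneg _
  · intro k hk hr
    show ‖(∏ s ∈ g ∩ D.U k, D.ws k s) - ((∏ s ∈ g ∩ D.U k, D.rs k s : ℝ) : ℂ)‖
        / (∏ s ∈ g ∩ D.U k, D.rs k s)
      ≤ Real.sqrt (1 / ‖D.cT k (g ∩ D.U k)‖ ^ 2 - 1) * Real.sqrt ((1 - ∏ s ∈ g ∩ D.U k, D.rs k s)
        / (∏ s ∈ g ∩ D.U k, D.rs k s))
    have hr' : 0 < ∏ s ∈ g ∩ D.U k, D.rs k s := hr
    have hcT := D.cT_ne (hc k hk) (g ∩ D.U k) Finset.inter_subset_right
    obtain ⟨h1, _⟩ := D.gate_scalar k (g ∩ D.U k) hcT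
    set R := ∏ s ∈ g ∩ D.U k, D.rs k s with hR
    have hR1 : R ≤ 1 := Finset.prod_le_one (fun s _ => D.rs_nonneg k s) fun s _ => D.rs_le k s
    set d := ‖(∏ s ∈ g ∩ D.U k, D.ws k s) - ((R : ℝ) : ℂ)‖ with hd
    have hx : 0 < ‖D.cT k (g ∩ D.U k)‖ := norm_pos_iff.mpr hcT
    have hx1 : ‖D.cT k (g ∩ D.U k)‖ ≤ 1 := D.norm_cT_le _ _
    set x := ‖D.cT k (g ∩ D.U k)‖ with hxd
    have ht : 0 ≤ 1 / x ^ 2 - 1 := by
      have : x ^ 2 ≤ 1 := by nlinarith
      have : 1 ≤ 1 / x ^ 2 := by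
        rw [le_div_iff₀ (by positivity)]
        linarith
      linarith
    have hv : 0 ≤ (1 - R) / R := div_nonneg (by linarith) hr'.le
    have hrhs0 : 0 ≤ Real.sqrt (1 / x ^ 2 - 1) * Real.sqrt ((1 - R) / R) := by positivity
    have hsq : (d / R) ^ 2 ≤ (Real.sqrt (1 / x ^ 2 - 1) * Real.sqrt ((1 - R) / R)) ^ 2 := by
      rw [mul_pow, Real.sq_sqrt ht, Real.sq_sqrt hv, div_pow]
      have e : (1 / x ^ 2 - 1) * ((1 - R) / R) = (R * (1 - R) * (1 / x ^ 2 - 1)) / R ^ 2 := by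
        field_simp
      rw [e]
      exact div_le_div_of_nonneg_right h1 (by positivity)
    exact abs_le_of_sq_le_sq' hsq hrhs0 |>.2

/-- The value of `t` for the gate data. -/
lemma mkGd_t_sq (X : Fin N → M2) (g : Finset (Fin N)) {k : ι} (hc : D.c k ≠ 0) :
    1 + ((D.mkGd J X g).t k) ^ 2 = 1 / ‖D.cT k (g ∩ D.U k)‖ ^ 2 := by
  show 1 + (Real.sqrt (1 / ‖D.cT k (g ∩ D.U k)‖ ^ 2 - 1)) ^ 2 = _
  have hcT := D.cT_ne hc (g ∩ D.U k) Finset.inter_subset_right
  have hx : 0 < ‖D.cT k (g ∩ D.U k)‖ := norm_pos_iff.mpr hcT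
  have hx1 : ‖D.cT k (g ∩ D.U k)‖ ≤ 1 := D.norm_cT_le _ _
  set x := ‖D.cT k (g ∩ D.U k)‖ with hxd
  have ht : 0 ≤ 1 / x ^ 2 - 1 := by
    have : x ^ 2 ≤ 1 := by nlinarith
    have : 1 ≤ 1 / x ^ 2 := by
      rw [le_div_iff₀ (by positivity)]
      linarith
    linarith
  rw [Real.sq_sqrt ht]
  ring

/-- The overlaps of pairwise disjoint gates. -/
lemma cT_list_le (k : ι) (gs : List (Finset (Fin N))) (hgs : gs.Pairwise Disjoint)
    (T : Finset (Fin N)) :
    ‖D.cT k T‖ ^ 2 ≤ (gs.map fun g => ‖D.cT k (g ∩ T)‖ ^ 2).prod := by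
  induction gs generalizing T with
  | nil =>
    simp only [List.map_nil, List.prod_nil]
    have := D.norm_cT_le k T
    nlinarith [norm_nonneg (D.cT k T)]
  | cons g gs ih =>
    obtain ⟨hg, hgs'⟩ := List.pairwise_cons.mp hgs
    simp only [List.map_cons, List.prod_cons]
    have e : D.cT k T = D.cT k (g ∩ T) * D.cT k (T \ g) := by
      simp only [cT]
      rw [← Finset.prod_union]
      · congr 1
        ext s
        simp only [Finset.mem_union, Finset.mem_inter, Finset.mem_sdiff]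
        tauto
      · rw [Finset.disjoint_left]
        intro s hs hs'
        exact (Finset.mem_sdiff.mp hs').2 (Finset.mem_inter.mp hs).1
    have i := ih hgs' (T \ g)
    have e2 : (gs.map fun h => ‖D.cT k (h ∩ (T \ g))‖ ^ 2) = gs.map fun h => ‖D.cT k (h ∩ T)‖ ^ 2 := by
      refine List.map_congr_left fun h hh => ?_
      have : h ∩ (T \ g) = h ∩ T := by
        ext s
        simp only [Finset.mem_inter, Finset.mem_sdiff]
        constructor
        · rintro ⟨a, b, _⟩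
          exact ⟨a, b⟩
        · rintro ⟨a, b⟩
          exact ⟨a, b, fun hs => Finset.disjoint_left.mp (hg h hh) hs a⟩
      rw [this]
    rw [e2] at i
    rw [e, norm_mul, mul_pow]
    exact mul_le_mul_of_nonneg_left i (by positivity)

/-- The numerical conclusion for one block. -/
lemma block_numeric (k : ι) (hc : D.c k ≠ 0) (gs : List (Finset (Fin N)))
    (hgs : gs.Pairwise Disjoint) (X : Fin N → M2) :
    2 * ‖D.xi k‖ * (2 / 5) * ((gs.map (D.mkGd J X)).map fun g => 1 + g.t k ^ 2).prod ≤ 4 / 5 := by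
  set x := ‖D.c k‖ ^ 2 with hx
  have hx0 : 0 < x := by
    have : 0 < ‖D.c k‖ := norm_pos_iff.mpr hc
    positivity
  have hξ : ‖D.xi k‖ = x := by
    rw [xi, Complex.norm_real, Real.norm_of_nonneg hx0.le]
  rw [hξ, List.map_map]
  have e : (gs.map ((fun g : Gd ι N => 1 + g.t k ^ 2) ∘ D.mkGd J X))
      = gs.map fun g => 1 / ‖D.cT k (g ∩ D.U k)‖ ^ 2 := by
    refine List.map_congr_left fun g _ => ?_
    exact D.mkGd_t_sq X g hc
  rw [e]
  have h1 := D.cT_list_le k gs hgs (D.U k)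
  have h2 : D.cT k (D.U k) = D.c k := rfl
  rw [h2] at h1
  set Pm := (gs.map fun g => ‖D.cT k (g ∩ D.U k)‖ ^ 2).prod with hPm
  have h3 : (gs.map fun g => 1 / ‖D.cT k (g ∩ D.U k)‖ ^ 2).prod = 1 / Pm := by
    rw [hPm]
    clear h1 e hPm
    induction gs with
    | nil => simp
    | cons g gs ih =>
      simp only [List.map_cons, List.prod_cons]
      rw [ih (List.pairwise_cons.mp hgs).2]
      rw [one_div, one_div, one_div, mul_inv]
  rw [h3]
  have hP0 : 0 < Pm := lt_of_lt_of_le hx0 h1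
  have : x * (1 / Pm) ≤ 1 := by
    rw [mul_one_div, div_le_one hP0]
    exact h1
  have e5 : 2 * x * (2 / 5) * (1 / Pm) = (4 / 5) * (x * (1 / Pm)) := by ring
  rw [e5]
  nlinarith

/-- `X` with all the gates of a list removed. -/
def XOffAll : List (Finset (Fin N)) → (Fin N → M2) → (Fin N → M2)
  | [], X => X
  | g :: gs, X => XOffAll gs (XOff g X)

lemma XOffAll_ok (gs : List (Finset (Fin N))) {X : Fin N → M2} (hX : AllOK X) :
    AllOK (XOffAll gs X) := by
  induction gs generalizing X with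
  | nil => exact hX
  | cons g gs ih => exact ih (XOff_ok hX)

lemma XOffAll_one (gs : List (Finset (Fin N))) {X : Fin N → M2} {s : Fin N} (hs : X s = 1) :
    XOffAll gs X s = 1 := by
  induction gs generalizing X with
  | nil => exact hs
  | cons g gs ih =>
    apply ih
    by_cases h : s ∈ g <;> simp [XOff, h, hs]

end GarData

lemma Dd_congr (J : Finset ι) (Z₀ : Op N) (G : List (Gd ι N)) {A A' Z Z' : ι → ℂ}
    (hA : ∀ k ∈ J, A k = A' k) (hZ : ∀ k ∈ J, Z k = Z' k) : Dd J Z₀ G A Z = Dd J Z₀ G A' Z' := by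
  induction G generalizing A A' Z Z' with
  | nil =>
    simp only [Dd]
    congr 2
    refine Finset.prod_congr rfl fun k hk => ?_
    rw [hA k hk, hZ k hk]
  | cons g G ih =>
    simp only [Dd]
    have a := ih hA hZ
    have b : Dd J Z₀ G (fun k => A k * g.r k) (fun k => Z k * g.w k)
        = Dd J Z₀ G (fun k => A' k * g.r k) (fun k => Z' k * g.w k) :=
      ih (fun k hk => by simp only [hA k hk]) (fun k hk => by simp only [hZ k hk])
    rw [a, b]

end Vale.Agent.Lib.P368y
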