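import Vale.Agent.Lib.P368y.Column2

/-!
The column theorem.
-/

open scoped BigOperators Matrix Matrix.Norms.L2Operator

namespace Vale.Agent.Lib.P368y

open Vale.Agent.Lib.P368x

variable {N : ℕ} {ι : Type*} [DecidableEq ι]

/-- One sector step at an untested site outside the blocks. -/
lemma EJ_sector (F : Fam ι N) (J : Finset ι) (s : Fin N) (hs : ∀ k ∈ J, s ∉ F.W k)
    (gs : List (Finset (Fin N))) (X : Fin N → M2) (hX : X s = 1) :
    ‖F.EJ J (TT gs X)‖ ≤ max ‖F.EJ J (TT (secZero s gs) X)‖ ‖F.EJ J (TT (secOne s gs) X)‖ := by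
  have hoff : F.Off J (site s e00) := by
    apply F.off_of_SA (T := {s})
    · intro k hk
      rw [Finset.disjoint_singleton_left]
      exact hs k hk
    · exact site_mem_SA (Finset.mem_singleton_self s) _
  have hoff1 : F.Off J (1 - site s e00) := by
    intro k hk b
    exact ⟨(Commute.one_left _).sub_left (hoff k hk b).1, (Commute.one_left _).sub_left (hoff k hk b).2⟩
  rw [TT_sector s gs X hX, map_add, F.EJ_mul_left hoff, F.EJ_mul_left hoff1]
  apply sector_le _ _ _ (P0_herm s) (P0_idem s)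
  · exact F.EJ_commute_op hoff (TT_commute_site (fun g hg => notMem_secZero hg) hX _)
  · exact F.EJ_commute_op hoff (TT_commute_site (fun g hg => notMem_secOne hg) hX _)

namespace GarData

variable (D : GarData ι N)

lemma EJ_Pe (J : Finset ι) (A₀ : Finset (Fin N)) (hA : A₀ ⊆ D.Lv J) (hc : ∀ k ∈ J, D.c k ≠ 0) :
    D.fam.EJ J (Pe A₀) =
      ((∏ k ∈ J, (2 * (D.stRe A₀ k - D.stIm A₀ k).re) : ℝ) : ℂ) • Pr (D.Lv J) := by
  induction J using Finset.induction_on generalizing A₀ with
  | empty =>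
    have : A₀ = ∅ := by
      apply Finset.subset_empty.mp
      simpa [Lv] using hA
    subst this
    simp [Lv]
  | insert k J hk ih =>
    have hLv : D.Lv (insert k J) = D.U k ∪ D.Lv J := by
      simp [Lv, Finset.biUnion_insert]
    set A₁ := A₀ ∩ D.U k with hA₁
    set A₂ := A₀ \ D.U k with hA₂
    have hd12 : Disjoint A₁ A₂ := by
      rw [Finset.disjoint_left]
      intro s hs hs'
      exact (Finset.mem_sdiff.mp hs').2 (Finset.mem_inter.mp hs).2
    have hun : A₁ ∪ A₂ = A₀ := by
      ext s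
      simp only [hA₁, hA₂, Finset.mem_union, Finset.mem_inter, Finset.mem_sdiff]
      tauto
    have hPe : Pe A₀ = Pe A₁ * Pe A₂ := by rw [← hun, Pe_union _ _ hd12]
    have hA₂J : A₂ ⊆ D.Lv J := by
      intro s hs
      have h1 := hA (Finset.mem_sdiff.mp hs).1
      rw [hLv, Finset.mem_union] at h1
      rcases h1 with h1 | h1
      · exact absurd h1 (Finset.mem_sdiff.mp hs).2
      · exact h1
    have hkoff : ∀ j ∈ J, Disjoint (D.U k) (D.U j) := fun j hj =>
      D.disj k j fun h => hk (h ▸ hj)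
    have hdLv : Disjoint (D.U k) (D.Lv J) := by
      rw [Lv, Finset.disjoint_biUnion_right]
      exact hkoff
    have hc' := fun j hj => hc j (Finset.mem_insert_of_mem hj)
    have hk0 := hc k (Finset.mem_insert_self _ _)
    have step1 : Eb (D.K k) (Pe A₁ * Pe A₂) = Eb (D.K k) (Pe A₁) * Pe A₂ := by
      apply Eb_mul_right
      intro b
      refine SA_commute (S := A₂) (T := D.U k) ?_ (Pe_mem_SA _) (D.K_mem k b)
      rw [Finset.disjoint_left]
      intro s hs
      exact (Finset.mem_sdiff.mp hs).2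
    have hEb := D.Eb_Pe k A₁ Finset.inter_subset_right hk0
    have hoff : D.fam.Off J (Pr (D.U k)) :=
      D.fam.off_of_SA (T := D.U k) hkoff (Pr_mem_SA _)
    rw [hPe, D.fam.EJ_insert_apply' hk]
    show D.fam.EJ J (Eb (D.K k) (Pe A₁ * Pe A₂)) = _
    rw [step1, hEb, smul_mul_assoc, map_smul, D.fam.EJ_mul_left hoff, ih A₂ hA₂J hc', mul_smul_comm,
      smul_smul, hLv, Pr_union _ _ hdLv]
    congr 1
    rw [Finset.prod_insert hk]
    push_cast
    congr 1
    refine Finset.prod_congr rfl fun j hj => ?_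
    have : A₂ ∩ D.U j = A₀ ∩ D.U j := by
      ext s
      simp only [hA₂, Finset.mem_inter, Finset.mem_sdiff]
      constructor
      · rintro ⟨⟨a, _⟩, c⟩
        exact ⟨a, c⟩
      · rintro ⟨a, c⟩
        exact ⟨⟨a, fun h => Finset.disjoint_left.mp (hkoff j hj) h c⟩, c⟩
    simp only [stRe, stIm, this]

lemma mkGd_XOff (J : Finset ι) (X : Fin N → M2) (g h : Finset (Fin N)) (hd : Disjoint g h) :
    D.mkGd J (XOff g X) h = D.mkGd J X h := by
  have e1 : XOn (h \ D.Lv J) (XOff g X) = XOn (h \ D.Lv J) X := by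
    funext s
    by_cases hs : s ∈ h \ D.Lv J
    · have : s ∉ g := fun hg => Finset.disjoint_left.mp hd hg (Finset.mem_sdiff.mp hs).1
      simp [XOn, XOff, hs, this]
    · simp [XOn, hs]
  have e2 : bt (h \ D.Lv J) (XOff g X) = bt (h \ D.Lv J) X := by
    refine Finset.prod_congr rfl fun s hs => ?_
    have : s ∉ g := fun hg => Finset.disjoint_left.mp hd hg (Finset.mem_sdiff.mp hs).1
    simp [XOff, this]
  simp only [mkGd, e1, e2]

/-- The iterate of the garbage maps in closed form. -/
theorem EJ_TT (J : Finset ι) (hc : ∀ k ∈ J, D.c k ≠ 0) (gs : List (Finset (Fin N)))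
    (hgs : gs.Pairwise Disjoint) (X : Fin N → M2) (hX1 : ∀ s ∈ D.Lv J, X s = 1)
    (hN : ∀ g ∈ gs, ∀ s ∈ g \ D.Lv J, Proj1 (X s)) (A₀ : Finset (Fin N)) (hA : A₀ ⊆ D.Lv J)
    (hdis : ∀ g ∈ gs, Disjoint A₀ g) :
    D.fam.EJ J (TT gs X * Pe A₀) = Pr (D.Lv J) * Dd J (tensor (XOffAll gs X))
      (gs.map (D.mkGd J X)) (D.stRe A₀) (D.stIm A₀) := by
  have hLvU : ∀ k ∈ J, D.U k ⊆ D.Lv J := fun k hk => Finset.subset_biUnion_of_mem D.U hk
  induction gs generalizing X A₀ with
  | nil =>
    have hT : D.fam.Off J (tensor X) := by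
      apply D.fam.off_of_SA (T := Finset.univ \ D.Lv J)
      · intro k hk
        rw [Finset.disjoint_left]
        intro s hs hs'
        exact (Finset.mem_sdiff.mp hs).2 (hLvU k hk hs')
      · apply tensor_mem_SA
        intro s hs
        exact hX1 s (by simpa using hs)
    have hcomm : Commute (tensor X) (Pr (D.Lv J)) := by
      refine SA_commute (S := Finset.univ \ D.Lv J) (T := D.Lv J) Finset.sdiff_disjoint ?_
        (Pr_mem_SA _)
      apply tensor_mem_SA
      intro s hs
      exact hX1 s (by simpa using hs)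
    simp only [TT, Dl_nil, one_mul, mul_one, XOffAll, List.map_nil, Dd]
    rw [D.fam.EJ_mul_left hT, EJ_Pe D J A₀ hA hc, mul_smul_comm, mul_smul_comm, hcomm.eq]
  | cons g gs ih =>
    obtain ⟨hg, hgs'⟩ := List.pairwise_cons.mp hgs
    set SL := g ∩ D.Lv J with hSL
    set SA' := g \ D.Lv J with hSA'
    have hgu : SL ∪ SA' = g := by
      ext s
      simp only [hSL, hSA', Finset.mem_union, Finset.mem_inter, Finset.mem_sdiff]
      tauto
    have hdSL : Disjoint SL SA' := by
      rw [Finset.disjoint_left]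
      intro s hs hs'
      exact (Finset.mem_sdiff.mp hs').2 (Finset.mem_inter.mp hs).2
    set X' := XOff g X with hX'
    set U := tensor (XOn SA' X) with hU
    set L := Dg SA' * U * Dg SA' - U with hL
    have hQ : Qg g X = U + Pe SL * L := by
      have := Qg_split SL SA' hdSL X fun s hs => hX1 s (Finset.mem_inter.mp hs).2
      rwa [hgu] at this
    set T := TT gs X' with hTdef
    have hUmem : U ∈ SA SA' := tensor_XOn_mem _ _
    have hLmem : L ∈ SA SA' := sub_mem (mul_mem (mul_mem (Dg_mem_SA _) hUmem) (Dg_mem_SA _)) hUmem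
    have hSAoff : ∀ k ∈ J, Disjoint SA' (D.U k) := by
      intro k hk
      rw [Finset.disjoint_left]
      intro s hs hs'
      exact (Finset.mem_sdiff.mp hs).2 (hLvU k hk hs')
    have hUoff : D.fam.Off J U := D.fam.off_of_SA hSAoff hUmem
    have hLoff : D.fam.Off J L := D.fam.off_of_SA hSAoff hLmem
    have hTg : T ∈ SA (Finset.univ \ g) := by
      apply TT_mem_SA
      · intro h hh s hs
        simp only [Finset.mem_sdiff, Finset.mem_univ, true_and]
        exact fun hsg => Finset.disjoint_left.mp (hg h hh) hsg hs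
      · intro s hs
        have : s ∈ g := by simpa using hs
        simp [hX', XOff, this]
    have hSLsub : SL ⊆ g := Finset.inter_subset_left
    have hPT : Commute (Pe SL) T :=
      SA_commute (S := g) (T := Finset.univ \ g) Finset.disjoint_sdiff
        (SA_mono hSLsub (Pe_mem_SA _)) hTg
    have hPL : Commute (Pe SL) L := SA_commute hdSL (Pe_mem_SA _) hLmem
    have hdA : Disjoint SL A₀ := by
      exact Finset.disjoint_of_subset_left hSLsub
        (hdis g (List.mem_cons_self ..)).symm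
    have hexpand : TT (g :: gs) X * Pe A₀ = U * (T * Pe A₀) + L * (T * Pe (SL ∪ A₀)) := by
      have hTT : TT (g :: gs) X = Qg g X * T := TT_cons g gs X hg
      rw [hTT, hQ, Pe_union _ _ hdA, add_mul, add_mul]
      congr 1
      · simp only [mul_assoc]
      · calc Pe SL * L * T * Pe A₀ = L * (Pe SL * T) * Pe A₀ := by
              rw [hPL.eq]; simp only [mul_assoc]
          _ = L * (T * Pe SL) * Pe A₀ := by rw [hPT.eq]
          _ = _ := by simp only [mul_assoc]
    have hX'1 : ∀ s ∈ D.Lv J, X' s = 1 := by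
      intro s hs
      by_cases h : s ∈ g
      · simp [hX', XOff, h]
      · simp [hX', XOff, h, hX1 s hs]
    have hN' : ∀ h ∈ gs, ∀ s ∈ h \ D.Lv J, Proj1 (X' s) := by
      intro h hh s hs
      have h1 := (Finset.mem_sdiff.mp hs).1
      have : s ∉ g := fun hsg => Finset.disjoint_left.mp (hg h hh) hsg h1
      simp only [hX', XOff, this, if_false]
      exact hN h (List.mem_cons_of_mem _ hh) s hs
    have i1 := ih hgs' X' hX'1 hN' A₀ hA (fun h hh => hdis h (List.mem_cons_of_mem _ hh))
    have i2 := ih hgs' X' hX'1 hN' (SL ∪ A₀)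
      (Finset.union_subset Finset.inter_subset_right hA)
      (fun h hh => by
        rw [Finset.disjoint_union_left]
        exact ⟨Finset.disjoint_of_subset_left hSLsub (hg h hh),
          hdis h (List.mem_cons_of_mem _ hh)⟩)
    have hmap : gs.map (D.mkGd J X') = gs.map (D.mkGd J X) :=
      List.map_congr_left fun h hh => D.mkGd_XOff J X g h (hg h hh)
    rw [hmap] at i1 i2
    have hPrU : Commute U (Pr (D.Lv J)) :=
      SA_commute (S := SA') (T := D.Lv J) Finset.sdiff_disjoint hUmem (Pr_mem_SA _)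
    have hPrL : Commute L (Pr (D.Lv J)) :=
      SA_commute (S := SA') (T := D.Lv J) Finset.sdiff_disjoint hLmem (Pr_mem_SA _)
    rw [hexpand, map_add, D.fam.EJ_mul_left hUoff, D.fam.EJ_mul_left hLoff, i1, i2]
    simp only [XOffAll, List.map_cons, Dd]
    rw [mul_add, ← mul_assoc, ← mul_assoc, ← mul_assoc, ← mul_assoc, hPrU.eq, hPrL.eq]
    congr 2
    -- the states
    show Dd J _ _ (D.stRe (SL ∪ A₀)) (D.stIm (SL ∪ A₀)) = Dd J _ _ _ _
    have hinter : ∀ k ∈ J, (SL ∪ A₀) ∩ D.U k = (g ∩ D.U k) ∪ (A₀ ∩ D.U k) := by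
      intro k hk
      ext s
      simp only [hSL, Finset.mem_inter, Finset.mem_union]
      constructor
      · rintro ⟨⟨a, _⟩ | a, c⟩
        · exact Or.inl ⟨a, c⟩
        · exact Or.inr ⟨a, c⟩
      · rintro (⟨a, c⟩ | ⟨a, c⟩)
        · exact ⟨Or.inl ⟨a, hLvU k hk c⟩, c⟩
        · exact ⟨Or.inr a, c⟩
    have hdisj : ∀ k, Disjoint (g ∩ D.U k) (A₀ ∩ D.U k) := by
      intro k
      rw [Finset.disjoint_left]
      intro s hs hs'
      exact Finset.disjoint_left.mp (hdis g (List.mem_cons_self ..)) (Finset.mem_inter.mp hs').1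
        (Finset.mem_inter.mp hs).1
    apply Dd_congr
    · intro k hk
      rw [stRe, stRe, hinter k hk, Finset.prod_union (hdisj k)]
      show _ = _ * ((∏ s ∈ g ∩ D.U k, D.rs k s : ℝ) : ℂ)
      push_cast
      ring
    · intro k hk
      rw [stIm, stIm, hinter k hk, Finset.prod_union (hdisj k)]
      show _ = _ * (∏ s ∈ g ∩ D.U k, D.ws k s)
      ring

/-- The column theorem when all sites of all gates are live or tested. -/
theorem column_normal (J : Finset ι) (gs : List (Finset (Fin N))) (hgs : gs.Pairwise Disjoint)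
    (X : Fin N → M2) (hok : AllOK X) (hX1 : ∀ s ∈ D.Lv J, X s = 1)
    (hN : ∀ g ∈ gs, ∀ s ∈ g \ D.Lv J, Proj1 (X s)) :
    ‖D.fam.EJ J (TT gs X)‖ ≤ (4 / 5 : ℝ) ^ J.card := by
  by_cases hc : ∀ k ∈ J, D.c k ≠ 0
  · have h := EJ_TT D J hc gs hgs X hX1 hN ∅ (Finset.empty_subset _)
      (fun g _ => Finset.disjoint_empty_left g)
    rw [Pe_empty, mul_one] at h
    have e1 : D.stRe ∅ = D.xi := by
      funext k
      simp [stRe]
    have e2 : D.stIm ∅ = D.xi := by
      funext k
      simp [stIm]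
    rw [e1, e2] at h
    rw [h]
    refine (mul_norm_aux (norm_Pr_le _)).trans ?_
    have hZ : ‖tensor (XOffAll gs X)‖ ≤ 1 := norm_tensor_ok (XOffAll_ok gs hok)
    have hG : ∀ g ∈ gs.map (D.mkGd J X), g.OK J := by
      intro g hg
      obtain ⟨g', hg', rfl⟩ := List.mem_map.mp hg
      exact D.mkGd_ok X g' hc (hN g' hg')
    refine (Dd_final J _ hZ _ hG D.xi).trans ?_
    have e3 : (∏ k ∈ J, (2 * ‖D.xi k‖)) * (2 / 5 : ℝ) ^ J.card
        * ∏ k ∈ J, ((gs.map (D.mkGd J X)).map fun g => 1 + g.t k ^ 2).prod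
        = ∏ k ∈ J, (2 * ‖D.xi k‖ * (2 / 5) * ((gs.map (D.mkGd J X)).map fun g => 1 + g.t k ^ 2).prod) := by
      symm
      rw [Finset.prod_mul_distrib (f := fun k => 2 * ‖D.xi k‖ * (2 / 5)),
        Finset.prod_mul_distrib (f := fun k => 2 * ‖D.xi k‖) (g := fun _ => (2 / 5 : ℝ)),
        Finset.prod_const]
    rw [e3, ← Finset.prod_const]
    apply Finset.prod_le_prod
    · intro k hk
      apply mul_nonneg (by positivity)
      apply List.prod_nonneg
      intro x hx
      obtain ⟨g, _, rfl⟩ := List.mem_map.mp hx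
      positivity
    · intro k hk
      exact D.block_numeric k (hc k hk) gs hgs X
  · simp only [not_forall, not_not] at hc
    obtain ⟨k, hk, hk0⟩ := hc
    have hK : Eb (D.K k) = 0 := by
      have : D.K k false = D.K k true := by
        rw [K_false, K_true, hk0]
        simp
      apply LinearMap.ext
      intro A
      rw [Eb_apply, this]
      simp
    have hE : D.fam.EJ J = 0 := by
      have e : J = insert k (J.erase k) := (Finset.insert_erase hk).symm
      rw [e, D.fam.EJ_insert (Finset.notMem_erase _ _)]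
      show Eb (D.K k) * _ = 0
      rw [hK, zero_mul]
    rw [hE]
    simp only [LinearMap.zero_apply, norm_zero]
    positivity

/-- Set of untested gate sites outside the blocks. -/
noncomputable def bad (J : Finset ι) (gs : List (Finset (Fin N))) (X : Fin N → M2) : Finset (Fin N) := by
  classical
  exact (gs.toFinset.biUnion id).filter fun s => s ∉ D.Lv J ∧ X s = 1

lemma mem_bad {J : Finset ι} {gs : List (Finset (Fin N))} {X : Fin N → M2} {s : Fin N} :
    s ∈ D.bad J gs X ↔ (∃ g ∈ gs, s ∈ g) ∧ s ∉ D.Lv J ∧ X s = 1 := by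
  classical
  simp [bad]

/-- The column theorem. -/
theorem column (J : Finset ι) (gs : List (Finset (Fin N))) (hgs : gs.Pairwise Disjoint)
    (X : Fin N → M2) (hok : AllOK X) (hX1 : ∀ s ∈ D.Lv J, X s = 1) :
    ‖D.fam.EJ J (TT gs X)‖ ≤ (4 / 5 : ℝ) ^ J.card := by
  classical
  induction' hn : (D.bad J gs X).card using Nat.strong_induction_on with n ih generalizing gs
  by_cases hb : D.bad J gs X = ∅
  · apply column_normal D J gs hgs X hok hX1
    intro g hg s hs
    rcases hok s with h1 | h1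
    · exfalso
      have : s ∈ D.bad J gs X :=
        D.mem_bad.mpr ⟨⟨g, hg, (Finset.mem_sdiff.mp hs).1⟩, (Finset.mem_sdiff.mp hs).2, h1⟩
      rw [hb] at this
      exact Finset.notMem_empty s this
    · exact h1
  · obtain ⟨s, hs⟩ := Finset.nonempty_iff_ne_empty.mpr hb
    obtain ⟨_, hsL, hs1⟩ := D.mem_bad.mp hs
    have hsW : ∀ k ∈ J, s ∉ D.fam.W k := by
      intro k hk h
      exact hsL (Finset.mem_biUnion.mpr ⟨k, hk, h⟩)
    refine (EJ_sector D.fam J s hsW gs X hs1).trans ?_
    have hsub0 : D.bad J (secZero s gs) X ⊂ D.bad J gs X := by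
      refine Finset.ssubset_iff_of_subset ?_ |>.mpr ⟨s, hs, ?_⟩
      · intro t ht
        obtain ⟨⟨g, hg, hgt⟩, h2, h3⟩ := D.mem_bad.mp ht
        have hg' : g ∈ gs := (List.mem_filter.mp hg).1
        exact D.mem_bad.mpr ⟨⟨g, hg', hgt⟩, h2, h3⟩
      · intro h
        obtain ⟨⟨g, hg, hgt⟩, _, _⟩ := D.mem_bad.mp h
        exact notMem_secZero hg hgt
    have hsub1 : D.bad J (secOne s gs) X ⊂ D.bad J gs X := by
      refine Finset.ssubset_iff_of_subset ?_ |>.mpr ⟨s, hs, ?_⟩
      · intro t ht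
        obtain ⟨⟨g, hg, hgt⟩, h2, h3⟩ := D.mem_bad.mp ht
        obtain ⟨g', hg', rfl⟩ := List.mem_map.mp hg
        exact D.mem_bad.mpr ⟨⟨g', hg', Finset.mem_of_mem_erase hgt⟩, h2, h3⟩
      · intro h
        obtain ⟨⟨g, hg, hgt⟩, _, _⟩ := D.mem_bad.mp h
        exact notMem_secOne hg hgt
    apply max_le
    · exact ih _ (hn ▸ Finset.card_lt_card hsub0) _ (secZero_pairwise hgs) rfl
    · exact ih _ (hn ▸ Finset.card_lt_card hsub1) _ (secOne_pairwise hgs) rfl

end GarData

end Vale.Agent.Lib.P368y
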