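import Mathlib

/-!
The scalar inequality behind the column bound.
-/

open scoped BigOperators

namespace Vale.Agent.Lib.P368y

/-- `x ^ (3/2)`, written with a square root. -/
noncomputable def pw (x : ℝ) : ℝ := x * Real.sqrt x

lemma pw_nonneg {x : ℝ} (hx : 0 ≤ x) : 0 ≤ pw x := mul_nonneg hx (Real.sqrt_nonneg _)

lemma pw_mul {x y : ℝ} (hx : 0 ≤ x) : pw (x * y) = pw x * pw y := by
  unfold pw
  rw [Real.sqrt_mul hx]
  ring

lemma pw_mono {x y : ℝ} (hx : 0 ≤ x) (h : x ≤ y) : pw x ≤ pw y :=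
  mul_le_mul h (Real.sqrt_le_sqrt h) (Real.sqrt_nonneg _) (hx.trans h)

lemma pw_one : pw 1 = 1 := by simp [pw]

lemma pw_sq {x : ℝ} (hx : 0 ≤ x) : pw x ^ 2 = x ^ 3 := by
  unfold pw
  rw [mul_pow, Real.sq_sqrt hx]
  ring

lemma pw_prod {ι : Type*} (s : Finset ι) (f : ι → ℝ) (hf : ∀ i ∈ s, 0 ≤ f i) :
    pw (∏ i ∈ s, f i) = ∏ i ∈ s, pw (f i) := by
  classical
  induction s using Finset.induction_on with
  | empty => simp [pw_one]
  | insert a s ha ih =>
    rw [Finset.prod_insert ha, Finset.prod_insert ha, pw_mul (hf a (Finset.mem_insert_self _ _)),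
      ih fun i hi => hf i (Finset.mem_insert_of_mem hi)]

/-- `u - 1 ≤ (2/5) u^(3/2)`. -/
lemma sub_one_le_pw {u : ℝ} (hu : 0 ≤ u) : u - 1 ≤ (2 / 5) * pw u := by
  set v := Real.sqrt u with hv
  have hv0 : 0 ≤ v := Real.sqrt_nonneg _
  have hvv : v * v = u := Real.mul_self_sqrt hu
  unfold pw
  rw [← hv, ← hvv]
  nlinarith [sq_nonneg (v - 5 / 3), mul_nonneg hv0 (sq_nonneg (v - 5 / 3))]

/-- Cauchy–Schwarz over subsets, in product form. -/
lemma prod_cs {ι : Type*} (s : Finset ι) (t η : ι → ℝ) (ht : ∀ i ∈ s, 0 ≤ t i)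
    (hη : ∀ i ∈ s, 0 ≤ η i) :
    1 ≤ ∏ i ∈ s, (1 + t i * η i) ∧ 1 ≤ ∏ i ∈ s, (1 + t i ^ 2) ∧ 1 ≤ ∏ i ∈ s, (1 + η i ^ 2) ∧
    (∏ i ∈ s, (1 + t i * η i) - 1) ^ 2 ≤
      (∏ i ∈ s, (1 + t i ^ 2) - 1) * (∏ i ∈ s, (1 + η i ^ 2) - 1) := by
  classical
  induction s using Finset.induction_on with
  | empty => simp
  | insert a s ha ih =>
    obtain ⟨h1, h2, h3, h4⟩ := ih (fun i hi => ht i (Finset.mem_insert_of_mem hi))
      (fun i hi => hη i (Finset.mem_insert_of_mem hi))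
    have t0 := ht a (Finset.mem_insert_self _ _)
    have η0 := hη a (Finset.mem_insert_self _ _)
    simp only [Finset.prod_insert ha]
    set W := ∏ i ∈ s, (1 + t i * η i)
    set B := ∏ i ∈ s, (1 + t i ^ 2)
    set P := ∏ i ∈ s, (1 + η i ^ 2)
    have x0 : 0 ≤ W - 1 := by linarith
    have a0 : 0 ≤ B - 1 := by linarith
    have b0 : 0 ≤ P - 1 := by linarith
    refine ⟨?_, ?_, ?_, ?_⟩
    · nlinarith [mul_nonneg t0 η0]
    · nlinarith [sq_nonneg (t a)]
    · nlinarith [sq_nonneg (η a)]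
    · -- three-term Cauchy-Schwarz
      set x := W - 1 with hx
      set α := Real.sqrt (B - 1) with hα
      set β := Real.sqrt (P - 1) with hβ
      have hαα : α * α = B - 1 := Real.mul_self_sqrt a0
      have hββ : β * β = P - 1 := Real.mul_self_sqrt b0
      have α0 : 0 ≤ α := Real.sqrt_nonneg _
      have β0 : 0 ≤ β := Real.sqrt_nonneg _
      have hxs : x ≤ α * β := by
        have : x ^ 2 ≤ (α * β) ^ 2 := by
          rw [mul_pow, sq α, sq β, hαα, hββ]
          exact h4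
        exact abs_le_of_sq_le_sq' this (mul_nonneg α0 β0) |>.2
      have eW : (1 + t a * η a) * W - 1 = x + t a * η a + x * (t a * η a) := by
        rw [hx]; ring
      have eB : (1 + t a ^ 2) * B - 1 = α * α + t a ^ 2 + α * α * t a ^ 2 := by
        rw [hαα]; ring
      have eP : (1 + η a ^ 2) * P - 1 = β * β + η a ^ 2 + β * β * η a ^ 2 := by
        rw [hββ]; ring
      rw [eW, eB, eP]
      have m : x + t a * η a + x * (t a * η a) ≤ α * β + t a * η a + α * β * (t a * η a) := by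
        have : x * (t a * η a) ≤ α * β * (t a * η a) :=
          mul_le_mul_of_nonneg_right hxs (mul_nonneg t0 η0)
        linarith
      have n0 : 0 ≤ x + t a * η a + x * (t a * η a) := by positivity
      have c : (α * β + t a * η a + α * β * (t a * η a)) ^ 2 ≤
          (α * α + t a ^ 2 + α * α * t a ^ 2) * (β * β + η a ^ 2 + β * β * η a ^ 2) := by
        nlinarith [sq_nonneg (α * η a - t a * β), sq_nonneg (α * (β * η a) - (α * t a) * β),
          sq_nonneg (t a * (β * η a) - (α * t a) * η a)]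
      exact (pow_le_pow_left₀ n0 m 2).trans c

/-- The one-variable inequality. -/
lemma single_site (u w S : ℝ) (hu : 0 ≤ u) (hw : 0 ≤ w) (hS0 : 0 ≤ S) (hS1 : S ≤ 1) :
    S * (1 / (1 + w ^ 2)) * (pw (1 + u * w) - 1)
      ≤ u ^ 2 + (1 / (1 + w ^ 2)) * (1 - 1 / (1 + w ^ 2)) * S ^ 2 := by
  set z := u * w with hz
  have hz0 : 0 ≤ z := mul_nonneg hu hw
  set D := 1 + w ^ 2 with hD
  have hD1 : 1 ≤ D := by nlinarith [sq_nonneg w]
  have hD0 : 0 < D := by linarith
  set A := pw (1 + z) - 1 with hA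
  have hAeq : (A + 1) ^ 2 = (1 + z) ^ 3 := by
    rw [hA, sub_add_cancel, pw_sq (by linarith)]
  have hA1 : 1 ≤ A + 1 := by
    have := pw_mono (x := 1) (y := 1 + z) (by norm_num) (by linarith)
    rw [pw_one] at this
    rw [hA]; linarith
  have e1 : (1 / D) * (1 - 1 / D) = w ^ 2 / D ^ 2 := by
    rw [hD]
    field_simp
    ring
  rw [e1]
  have goal_form : S * (1 / D) * A = (S / D) * A := by ring
  rw [goal_form]
  by_cases hcase : z ≤ 8 / 5
  · -- `A ≤ 2 z`
    have hA2 : A ≤ 2 * z := by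
      have h1 : (A + 1) ^ 2 ≤ (1 + 2 * z) ^ 2 := by
        rw [hAeq]
        nlinarith [mul_nonneg hz0 hz0, mul_nonneg (mul_nonneg hz0 hz0) hz0,
          mul_nonneg hz0 (by linarith : (0 : ℝ) ≤ 8 / 5 - z),
          mul_nonneg (mul_nonneg hz0 hz0) (by linarith : (0 : ℝ) ≤ 8 / 5 - z)]
      have := abs_le_of_sq_le_sq' h1 (by linarith) |>.2
      linarith
    have h2 : (S / D) * A ≤ (S / D) * (2 * z) :=
      mul_le_mul_of_nonneg_left hA2 (by positivity)
    have h3 : (S / D) * (2 * z) = 2 * u * (S * w / D) := by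
      rw [hz]; field_simp
    have h4 : w ^ 2 / D ^ 2 * S ^ 2 = (S * w / D) ^ 2 := by
      field_simp
    rw [h4]
    nlinarith [sq_nonneg (u - S * w / D)]
  · -- large `z`: the extreme case `S = 1`
    have hz1 : 8 / 5 < z := not_le.mp hcase
    have hA2 : 2 ≤ A := by
      by_contra hlt
      have hlt' : A + 1 < 3 := by linarith
      have : (A + 1) ^ 2 < 3 ^ 2 := pow_lt_pow_left₀ hlt' (by linarith) (by norm_num)
      rw [hAeq] at this
      have h8 : (1 + (8 / 5 : ℝ)) ^ 3 ≤ (1 + z) ^ 3 :=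
        pow_le_pow_left₀ (by norm_num) (by linarith) 3
      norm_num at h8 this
      linarith
    have hA3 : A ≤ z ^ 2 + 1 := by
      have h1 : (A + 1) ^ 2 ≤ (z ^ 2 + 2) ^ 2 := by
        rw [hAeq]
        nlinarith [sq_nonneg (z ^ 2 - z / 2), sq_nonneg (z - 1), sq_nonneg (z - 3 / 2),
          mul_nonneg hz0 hz0]
      have := abs_le_of_sq_le_sq' h1 (by positivity) |>.2
      linarith
    have hv : w ^ 2 ≤ D := by rw [hD]; linarith
    have red : (S / D) * A - w ^ 2 / D ^ 2 * S ^ 2 ≤ A / D - w ^ 2 / D ^ 2 := by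
      have h1 : w ^ 2 / D ^ 2 * (1 + S) ≤ 2 / D := by
        have : w ^ 2 / D ^ 2 ≤ 1 / D := by
          rw [div_le_div_iff₀ (by positivity) hD0]
          nlinarith
        have h1S : 1 + S ≤ 2 := by linarith
        have h0 : 0 ≤ 1 / D := by positivity
        have h00 : 0 ≤ w ^ 2 / D ^ 2 := by positivity
        calc w ^ 2 / D ^ 2 * (1 + S) ≤ w ^ 2 / D ^ 2 * 2 := by gcongr
          _ ≤ 1 / D * 2 := by gcongr
          _ = 2 / D := by ring
      have h2 : 2 / D ≤ A / D := by gcongr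
      have h3 : 0 ≤ (1 - S) * (A / D - w ^ 2 / D ^ 2 * (1 + S)) :=
        mul_nonneg (by linarith) (by linarith)
      have e : A / D - w ^ 2 / D ^ 2 - ((S / D) * A - w ^ 2 / D ^ 2 * S ^ 2)
          = (1 - S) * (A / D - w ^ 2 / D ^ 2 * (1 + S)) := by ring
      linarith
    -- now `w ≠ 0`
    have hw0 : w ≠ 0 := by
      intro h
      rw [hz, h] at hz1
      norm_num at hz1
    have hwp : 0 < w ^ 2 := by positivity
    have hu2 : u ^ 2 = z ^ 2 / w ^ 2 := by
      rw [hz]; field_simp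
    have main : A / D - w ^ 2 / D ^ 2 ≤ u ^ 2 := by
      rw [hu2, div_sub_div _ _ hD0.ne' (by positivity), div_le_div_iff₀ (by positivity) hwp]
      set v := w ^ 2 with hvdef
      have hDv : D = 1 + v := by rw [hD]
      have hp : 0 ≤ (z ^ 2 + 1 - A) * v ^ 2 + (2 * z ^ 2 - A) * v + z ^ 2 := by
        have a1 : 0 ≤ z ^ 2 + 1 - A := by linarith
        have a2 : 0 ≤ 2 * z ^ 2 - A := by nlinarith
        positivity
      have e : z ^ 2 * (D * D ^ 2) - (A * D ^ 2 - D * v) * v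
          = D * ((z ^ 2 + 1 - A) * v ^ 2 + (2 * z ^ 2 - A) * v + z ^ 2) := by
        rw [hDv]
        ring
      have : 0 ≤ z ^ 2 * (D * D ^ 2) - (A * D ^ 2 - D * v) * v := by
        rw [e]
        exact mul_nonneg hD0.le hp
      linarith
    linarith

/-- The column inequality for one gate. -/
theorem column_scalar {ι : Type*} (s : Finset ι) (r t δ : ι → ℝ) (S : ℝ) (hS0 : 0 ≤ S) (hS1 : S ≤ 1)
    (hr0 : ∀ i ∈ s, 0 < r i) (hr1 : ∀ i ∈ s, r i ≤ 1) (ht : ∀ i ∈ s, 0 ≤ t i)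
    (hδ0 : ∀ i ∈ s, 0 ≤ δ i) (hδ : ∀ i ∈ s, δ i ≤ t i * Real.sqrt ((1 - r i) / r i)) :
    (1 - (∏ i ∈ s, r i) * (1 - ∏ i ∈ s, r i) * S ^ 2)
        + S * (∏ i ∈ s, r i) * (∏ i ∈ s, pw (1 + δ i) - 1) ≤ ∏ i ∈ s, (1 + t i ^ 2) := by
  classical
  set η : ι → ℝ := fun i => Real.sqrt ((1 - r i) / r i) with hη
  have hη0 : ∀ i ∈ s, 0 ≤ η i := fun i _ => Real.sqrt_nonneg _
  have hηη : ∀ i ∈ s, 1 + η i ^ 2 = 1 / r i := by
    intro i hi
    have h0 := hr0 i hi
    have h1 := hr1 i hi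
    simp only [hη]
    rw [Real.sq_sqrt (div_nonneg (by linarith) h0.le)]
    field_simp
    ring
  obtain ⟨h1, h2, h3, h4⟩ := prod_cs s t η ht hη0
  set p := ∏ i ∈ s, r i with hp
  have hp0 : 0 < p := Finset.prod_pos hr0
  have hPP : ∏ i ∈ s, (1 + η i ^ 2) = 1 / p := by
    rw [Finset.prod_congr rfl hηη, Finset.prod_div_distrib]
    simp [hp]
  set W := ∏ i ∈ s, (1 + t i * η i) with hW
  set B := ∏ i ∈ s, (1 + t i ^ 2) with hB
  rw [hPP] at h3 h4
  set u := Real.sqrt (B - 1) with hu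
  set w := Real.sqrt (1 / p - 1) with hw
  have huu : u ^ 2 = B - 1 := Real.sq_sqrt (by linarith)
  have hww : w ^ 2 = 1 / p - 1 := Real.sq_sqrt (by linarith)
  have hu0 : 0 ≤ u := Real.sqrt_nonneg _
  have hw0 : 0 ≤ w := Real.sqrt_nonneg _
  have hWz : W ≤ 1 + u * w := by
    have : (W - 1) ^ 2 ≤ (u * w) ^ 2 := by
      rw [mul_pow, huu, hww]
      exact h4
    have := abs_le_of_sq_le_sq' this (mul_nonneg hu0 hw0) |>.2
    linarith
  have hprod : ∏ i ∈ s, pw (1 + δ i) ≤ pw (1 + u * w) := by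
    rw [← pw_prod s _ (fun i hi => by linarith [hδ0 i hi])]
    have h5 : ∏ i ∈ s, (1 + δ i) ≤ W := by
      apply Finset.prod_le_prod
      · intro i hi
        linarith [hδ0 i hi]
      · intro i hi
        linarith [hδ i hi]
    have h6 : 0 ≤ ∏ i ∈ s, (1 + δ i) :=
      Finset.prod_nonneg fun i hi => by linarith [hδ0 i hi]
    exact pw_mono h6 (h5.trans hWz)
  have key := single_site u w S hu0 hw0 hS0 hS1
  have hD : 1 / (1 + w ^ 2) = p := by
    rw [hww]
    field_simp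
    ring
  rw [hD, huu] at key
  have hS2 : 0 ≤ S * p := mul_nonneg hS0 hp0.le
  have : S * p * (∏ i ∈ s, pw (1 + δ i) - 1) ≤ S * p * (pw (1 + u * w) - 1) := by
    apply mul_le_mul_of_nonneg_left _ hS2
    linarith
  nlinarith

end Vale.Agent.Lib.P368y
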