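import Vale.Agent.Lib.P368y.Gates
import Vale.Agent.Lib.P368y.ColumnLemma

/-!
The recursion behind the column theorem, as a statement about lists of gate data.
-/

open scoped BigOperators Matrix Matrix.Norms.L2Operator

namespace Vale.Agent.Lib.P368y

open Vale.Agent.Lib.P368x

variable {N : ℕ}

/-- Data of one gate for the recursion. -/
structure Gd (ι : Type*) (N : ℕ) where
  U : Op N
  L : Op N
  r : ι → ℝ
  w : ι → ℂ
  S : ℝ
  δ : ι → ℝ
  t : ι → ℝ

variable {ι : Type*} [DecidableEq ι]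

namespace Gd

def P (J : Finset ι) (g : Gd ι N) : ℝ := ∏ k ∈ J, g.r k

def ff (J : Finset ι) (g : Gd ι N) : ℝ := g.S * g.P J

def ee (J : Finset ι) (g : Gd ι N) : ℝ := 1 - g.P J * (1 - g.P J) * g.S ^ 2 - g.S * g.P J

/-- Hypotheses on the data of one gate. -/
structure OK (J : Finset ι) (g : Gd ι N) : Prop where
  S0 : 0 ≤ g.S
  S1 : g.S ≤ 1
  hL : ‖g.L‖ ≤ g.S
  r0 : ∀ k ∈ J, 0 ≤ g.r k
  r1 : ∀ k ∈ J, g.r k ≤ 1
  hH : ‖g.U + ((g.P J : ℝ) : ℂ) • g.L‖ ≤ 1 - g.P J * (1 - g.P J) * g.S ^ 2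
  δ0 : ∀ k ∈ J, 0 ≤ g.δ k
  hd : ∀ k ∈ J, ‖g.w k - (g.r k : ℂ)‖ ≤ g.r k * g.δ k
  t0 : ∀ k ∈ J, 0 ≤ g.t k
  hδ : ∀ k ∈ J, 0 < g.r k → g.δ k ≤ g.t k * Real.sqrt ((1 - g.r k) / g.r k)

variable {J : Finset ι} {g : Gd ι N}

lemma OK.P0 (h : g.OK J) : 0 ≤ g.P J := Finset.prod_nonneg h.r0

lemma OK.P1 (h : g.OK J) : g.P J ≤ 1 := Finset.prod_le_one h.r0 h.r1

lemma OK.ff0 (h : g.OK J) : 0 ≤ g.ff J := mul_nonneg h.S0 h.P0

lemma OK.ee0 (h : g.OK J) : 0 ≤ g.ee J := by
  have p0 := h.P0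
  have p1 := h.P1
  have s0 := h.S0
  have s1 := h.S1
  unfold ee
  have h1 : g.P J * (1 - g.P J) * g.S ^ 2 ≤ g.P J * (1 - g.P J) := by
    have : 0 ≤ g.P J * (1 - g.P J) := mul_nonneg p0 (by linarith)
    have : g.S ^ 2 ≤ 1 := by nlinarith
    nlinarith
  have h2 : g.S * g.P J ≤ g.P J := by nlinarith
  nlinarith [sq_nonneg (1 - g.P J)]

lemma ee_add_ff : g.ee J + g.ff J = 1 - g.P J * (1 - g.P J) * g.S ^ 2 := by
  simp only [ee, ff]; ring

end Gd

/-- The recursion. -/
noncomputable def Dd (J : Finset ι) (Z₀ : Op N) : List (Gd ι N) → (ι → ℂ) → (ι → ℂ) → Op N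
  | [], A, Z => ((∏ k ∈ J, (2 * (A k - Z k).re) : ℝ) : ℂ) • Z₀
  | g :: G, A, Z => g.U * Dd J Z₀ G A Z + g.L * Dd J Z₀ G (fun k => A k * g.r k) (fun k => Z k * g.w k)

def stA (K : Finset ι) (A : ι → ℂ) : ι → ℂ := fun k => if k ∈ K then 0 else A k

def stZ (K : Finset ι) (Z d : ι → ℂ) : ι → ℂ := fun k => if k ∈ K then Z k * d k else Z k

/-- Multilinear expansion of the recursion. -/
lemma Dd_expand (J : Finset ι) (Z₀ : Op N) (G : List (Gd ι N)) (r : ι → ℝ) (w : ι → ℂ) (A Z : ι → ℂ) :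
    Dd J Z₀ G (fun k => A k * r k) (fun k => Z k * w k)
      = ∑ K ∈ J.powerset, ((∏ k ∈ J \ K, r k : ℝ) : ℂ) •
          Dd J Z₀ G (stA K A) (stZ K Z fun k => w k - r k) := by
  induction G generalizing A Z with
  | nil =>
    simp only [Dd]
    simp only [smul_smul]
    rw [← Finset.sum_smul]
    congr 1
    have key : ∏ k ∈ J, (2 * ((A k * r k : ℂ) - Z k * w k).re)
        = ∑ K ∈ J.powerset, (∏ k ∈ J \ K, r k) *
            ∏ k ∈ J, (2 * (stA K A k - stZ K Z (fun k => w k - r k) k).re) := by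
      have e : ∀ k ∈ J, 2 * ((A k * r k : ℂ) - Z k * w k).re
          = (2 * (0 - Z k * (w k - r k)).re) + (r k * (2 * (A k - Z k).re)) := by
        intro k _
        simp only [Complex.sub_re, Complex.mul_re, Complex.ofReal_re, Complex.ofReal_im, Complex.zero_re,
          Complex.sub_im]
        ring
      rw [Finset.prod_congr rfl e, Finset.prod_add]
      refine Finset.sum_congr rfl fun K hK => ?_
      have hKJ := Finset.mem_powerset.mp hK
      rw [← Finset.prod_sdiff hKJ]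
      have a1 : ∏ k ∈ K, (2 * (stA K A k - stZ K Z (fun k => w k - r k) k).re)
          = ∏ k ∈ K, (2 * (0 - Z k * (w k - r k)).re) := by
        refine Finset.prod_congr rfl fun k hk => ?_
        simp [stA, stZ, hk]
      have a2 : ∏ k ∈ J \ K, (2 * (stA K A k - stZ K Z (fun k => w k - r k) k).re)
          = ∏ k ∈ J \ K, (2 * (A k - Z k).re) := by
        refine Finset.prod_congr rfl fun k hk => ?_
        have : k ∉ K := (Finset.mem_sdiff.mp hk).2
        simp [stA, stZ, this]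
      have a3 : ∏ k ∈ J \ K, (r k * (2 * (A k - Z k).re))
          = (∏ k ∈ J \ K, r k) * ∏ k ∈ J \ K, (2 * (A k - Z k).re) := Finset.prod_mul_distrib
      rw [a1, a2, a3]
      ring
    rw [key]
    push_cast
    rfl
  | cons g G ih =>
    simp only [Dd]
    rw [ih A Z]
    have e1 : (fun k => A k * (r k : ℂ) * (g.r k : ℂ)) = fun k => (A k * g.r k) * (r k : ℂ) := by
      funext k; ring
    have e2 : (fun k => Z k * w k * g.w k) = fun k => (Z k * g.w k) * w k := by
      funext k; ring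
    rw [e1, e2, ih (fun k => A k * g.r k) (fun k => Z k * g.w k), Finset.mul_sum, Finset.mul_sum,
      ← Finset.sum_add_distrib]
    refine Finset.sum_congr rfl fun K _ => ?_
    have e3 : stA K (fun k => A k * (g.r k : ℂ)) = fun k => stA K A k * (g.r k : ℂ) := by
      funext k
      by_cases hk : k ∈ K <;> simp [stA, hk]
    have e4 : stZ K (fun k => Z k * g.w k) (fun k => w k - r k)
        = fun k => stZ K Z (fun k => w k - r k) k * g.w k := by
      funext k
      by_cases hk : k ∈ K <;> simp [stZ, hk]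
      ring
    rw [e3, e4, smul_add, mul_smul_comm, mul_smul_comm]

/-- The scalar majorant. -/
noncomputable def Psi (J : Finset ι) : List (Gd ι N) → Finset ι → (ι → ℝ) → ℝ
  | [], C, u => ∏ k ∈ J, (if k ∈ C then u k else u k - 1)
  | g :: G, C, u => g.ee J * Psi J G C u + g.ff J * Psi J G C (fun k => u k * (1 + g.δ k))

lemma Psi_nonneg (J : Finset ι) (G : List (Gd ι N)) (hG : ∀ g ∈ G, g.OK J) (C : Finset ι)
    (u : ι → ℝ) (hu : ∀ k ∈ J, 1 ≤ u k) : 0 ≤ Psi J G C u := by
  induction G generalizing u with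
  | nil =>
    simp only [Psi]
    refine Finset.prod_nonneg fun k hk => ?_
    have := hu k hk
    by_cases hc : k ∈ C
    · simp only [hc, if_true]; linarith
    · simp only [hc, if_false]; linarith
  | cons g G ih =>
    simp only [Psi]
    have hg := hG g (List.mem_cons_self ..)
    have hG' : ∀ h ∈ G, h.OK J := fun h hh => hG h (List.mem_cons_of_mem _ hh)
    refine add_nonneg (mul_nonneg hg.ee0 (ih hG' u hu)) (mul_nonneg hg.ff0 (ih hG' _ ?_))
    intro k hk
    have h1 := hu k hk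
    have h2 := hg.δ0 k hk
    nlinarith

/-- Multilinear expansion of the majorant. -/
lemma Psi_expand (J : Finset ι) (G : List (Gd ι N)) (C : Finset ι) (δ u : ι → ℝ) :
    Psi J G C (fun k => u k * (1 + δ k))
      = ∑ K ∈ J.powerset, (∏ k ∈ K, δ k) * Psi J G (C ∪ K) u := by
  induction G generalizing u with
  | nil =>
    simp only [Psi]
    have e : ∀ k ∈ J, (if k ∈ C then u k * (1 + δ k) else u k * (1 + δ k) - 1)
        = (δ k * u k) + (if k ∈ C then u k else u k - 1) := by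
      intro k _
      by_cases hc : k ∈ C <;> simp [hc] <;> ring
    rw [Finset.prod_congr rfl e, Finset.prod_add]
    refine Finset.sum_congr rfl fun K hK => ?_
    have hKJ := Finset.mem_powerset.mp hK
    rw [← Finset.prod_sdiff hKJ (f := fun k => if k ∈ C ∪ K then u k else u k - 1),
      Finset.prod_mul_distrib]
    have a1 : ∏ k ∈ K, (if k ∈ C ∪ K then u k else u k - 1) = ∏ k ∈ K, u k := by
      refine Finset.prod_congr rfl fun k hk => ?_
      simp [hk]
    have a2 : ∏ k ∈ J \ K, (if k ∈ C ∪ K then u k else u k - 1)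
        = ∏ k ∈ J \ K, (if k ∈ C then u k else u k - 1) := by
      refine Finset.prod_congr rfl fun k hk => ?_
      have : k ∉ K := (Finset.mem_sdiff.mp hk).2
      simp [this]
    rw [a1, a2]
    ring
  | cons g G ih =>
    simp only [Psi]
    have e1 : (fun k => u k * (1 + δ k) * (1 + g.δ k)) = fun k => (u k * (1 + g.δ k)) * (1 + δ k) := by
      funext k; ring
    rw [e1, ih u, ih (fun k => u k * (1 + g.δ k)), Finset.mul_sum, Finset.mul_sum,
      ← Finset.sum_add_distrib]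
    refine Finset.sum_congr rfl fun K _ => ?_
    ring

/-- The main estimate for the recursion. -/
theorem Dd_bound (J : Finset ι) (Z₀ : Op N) (hZ₀ : ‖Z₀‖ ≤ 1) (G : List (Gd ι N))
    (hG : ∀ g ∈ G, g.OK J) (C : Finset ι) (A Z : ι → ℂ)
    (hC : ∀ k ∈ J, (k ∈ C ∧ A k = 0) ∨ (k ∉ C ∧ A k = Z k)) :
    ‖Dd J Z₀ G A Z‖ ≤ (∏ k ∈ J, (2 * ‖Z k‖)) * Psi J G C (fun _ => 1) := by
  induction G generalizing C A Z with
  | nil =>
    simp only [Dd, Psi]
    rw [norm_smul, Complex.norm_real, Real.norm_eq_abs, Finset.abs_prod, ← Finset.prod_mul_distrib]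
    have h1 : ∏ k ∈ J, |2 * (A k - Z k).re|
        ≤ ∏ k ∈ J, (2 * ‖Z k‖ * if k ∈ C then (1 : ℝ) else 1 - 1) := by
      apply Finset.prod_le_prod
      · intro k _; exact abs_nonneg _
      · intro k hk
        rcases hC k hk with ⟨h1, h2⟩ | ⟨h1, h2⟩
        · simp only [h1, if_true, mul_one, h2, zero_sub, Complex.neg_re, mul_neg, abs_neg, abs_mul]
          have := Complex.abs_re_le_norm (Z k)
          norm_num
          linarith
        · simp [h1, h2]
    have h2 : 0 ≤ ∏ k ∈ J, |2 * (A k - Z k).re| := Finset.prod_nonneg fun k _ => abs_nonneg _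
    calc _ ≤ (∏ k ∈ J, |2 * (A k - Z k).re|) * 1 := by
          apply mul_le_mul_of_nonneg_left hZ₀ h2
      _ ≤ _ := by rw [mul_one]; exact h1
  | cons g G ih =>
    have hg := hG g (List.mem_cons_self ..)
    have hG' : ∀ h ∈ G, h.OK J := fun h hh => hG h (List.mem_cons_of_mem _ hh)
    set d : ι → ℂ := fun k => g.w k - g.r k with hd
    set Zn := ∏ k ∈ J, (2 * ‖Z k‖) with hZn
    have hZn0 : 0 ≤ Zn := Finset.prod_nonneg fun k _ => by positivity
    set Ps := fun K : Finset ι => Psi J G (C ∪ K) (fun _ => 1) with hPs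
    have hPs0 : ∀ K, 0 ≤ Ps K := fun K => Psi_nonneg J G hG' _ _ fun _ _ => le_refl _
    set Pr' := g.P J with hP
    have hemp : (∅ : Finset ι) ∈ J.powerset := Finset.empty_mem_powerset J
    -- the expansion
    have hexp := Dd_expand J Z₀ G g.r g.w A Z
    rw [← Finset.add_sum_erase _ _ hemp] at hexp
    have st1 : stA ∅ A = A := by funext k; simp [stA]
    have st2 : stZ ∅ Z d = Z := by funext k; simp [stZ]
    simp only [Finset.sdiff_empty] at hexp
    rw [st1, st2] at hexp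
    set D := Dd J Z₀ G A Z with hD
    set Sg := ∑ K ∈ J.powerset.erase ∅, ((∏ k ∈ J \ K, g.r k : ℝ) : ℂ) •
        Dd J Z₀ G (stA K A) (stZ K Z d) with hSg
    have hmain : Dd J Z₀ (g :: G) A Z = (g.U + ((Pr' : ℝ) : ℂ) • g.L) * D + g.L * Sg := by
      simp only [Dd]
      rw [hexp]
      simp only [add_mul, mul_add, smul_mul_assoc, mul_smul_comm]
      rw [hP, Gd.P]
      abel
    -- each term of the sum
    have hterm : ∀ K ∈ J.powerset.erase ∅,
        ‖((∏ k ∈ J \ K, g.r k : ℝ) : ℂ) • Dd J Z₀ G (stA K A) (stZ K Z d)‖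
          ≤ Zn * Pr' * ((∏ k ∈ K, g.δ k) * Ps K) := by
      intro K hK
      have hKJ : K ⊆ J := Finset.mem_powerset.mp (Finset.mem_of_mem_erase hK)
      have hval : ∀ k ∈ J, (k ∈ C ∪ K ∧ stA K A k = 0) ∨
          (k ∉ C ∪ K ∧ stA K A k = stZ K Z d k) := by
        intro k hk
        by_cases hkK : k ∈ K
        · left
          exact ⟨Finset.mem_union_right _ hkK, by simp [stA, hkK]⟩
        · rcases hC k hk with ⟨h1, h2⟩ | ⟨h1, h2⟩
          · left
            exact ⟨Finset.mem_union_left _ h1, by simp [stA, hkK, h2]⟩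
          · right
            refine ⟨by simp [h1, hkK], by simp [stA, stZ, hkK, h2]⟩
      have hi := ih hG' (C ∪ K) (stA K A) (stZ K Z d) hval
      have hprodr : 0 ≤ ∏ k ∈ J \ K, g.r k :=
        Finset.prod_nonneg fun k hk => hg.r0 k (Finset.mem_sdiff.mp hk).1
      rw [norm_smul, Complex.norm_real, Real.norm_of_nonneg hprodr]
      have hz : ∏ k ∈ J, (2 * ‖stZ K Z d k‖) ≤ Zn * ∏ k ∈ K, (g.r k * g.δ k) := by
        rw [hZn, ← Finset.prod_sdiff hKJ, ← Finset.prod_sdiff hKJ (f := fun k => 2 * ‖Z k‖),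
          mul_assoc, ← Finset.prod_mul_distrib (s := K)]
        have a1 : ∏ k ∈ J \ K, (2 * ‖stZ K Z d k‖) = ∏ k ∈ J \ K, (2 * ‖Z k‖) := by
          refine Finset.prod_congr rfl fun k hk => ?_
          have : k ∉ K := (Finset.mem_sdiff.mp hk).2
          simp [stZ, this]
        rw [a1]
        apply mul_le_mul_of_nonneg_left _ (Finset.prod_nonneg fun k _ => by positivity)
        apply Finset.prod_le_prod (fun k _ => by positivity)
        intro k hk
        simp only [stZ, hk, if_true, norm_mul]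
        have := hg.hd k (hKJ hk)
        have hz0 := norm_nonneg (Z k)
        simp only [hd]
        nlinarith
      have hPP : (∏ k ∈ J \ K, g.r k) * ∏ k ∈ K, g.r k = Pr' := by
        rw [hP, Gd.P, Finset.prod_sdiff hKJ]
      calc (∏ k ∈ J \ K, g.r k) * ‖Dd J Z₀ G (stA K A) (stZ K Z d)‖
          ≤ (∏ k ∈ J \ K, g.r k) * ((∏ k ∈ J, (2 * ‖stZ K Z d k‖)) * Ps K) := by
            apply mul_le_mul_of_nonneg_left hi hprodr
        _ ≤ (∏ k ∈ J \ K, g.r k) * ((Zn * ∏ k ∈ K, (g.r k * g.δ k)) * Ps K) := by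
            apply mul_le_mul_of_nonneg_left _ hprodr
            exact mul_le_mul_of_nonneg_right hz (hPs0 K)
        _ = Zn * ((∏ k ∈ J \ K, g.r k) * ∏ k ∈ K, g.r k) * ((∏ k ∈ K, g.δ k) * Ps K) := by
            rw [Finset.prod_mul_distrib]
            ring
        _ = _ := by rw [hPP]
    have hSg_le : ‖Sg‖ ≤ Zn * Pr' * ∑ K ∈ J.powerset.erase ∅, (∏ k ∈ K, g.δ k) * Ps K := by
      rw [Finset.mul_sum]
      exact (norm_sum_le _ _).trans (Finset.sum_le_sum hterm)
    have hPs_e : Ps ∅ = Psi J G C (fun _ => 1) := by simp [hPs]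
    have hD_le : ‖D‖ ≤ Zn * Ps ∅ := by
      rw [hPs_e]
      exact ih hG' C A Z hC
    have hpsi : Psi J (g :: G) C (fun _ => 1)
        = g.ee J * Ps ∅ + g.ff J * (Ps ∅ + ∑ K ∈ J.powerset.erase ∅, (∏ k ∈ K, g.δ k) * Ps K) := by
      simp only [Psi]
      have e0 := Psi_expand J G C g.δ (fun _ => 1)
      rw [e0, ← Finset.add_sum_erase _ _ hemp]
      simp [hPs]
    rw [hmain, hpsi]
    have hlam := hg.hH
    set Rest := ∑ K ∈ J.powerset.erase ∅, (∏ k ∈ K, g.δ k) * Ps K with hRest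
    have t1 : ‖(g.U + ((Pr' : ℝ) : ℂ) • g.L) * D‖ ≤ (g.ee J + g.ff J) * (Zn * Ps ∅) := by
      refine (norm_mul_le _ _).trans ?_
      rw [Gd.ee_add_ff]
      exact mul_le_mul hlam hD_le (norm_nonneg _) (by nlinarith [hg.ee0, hg.ff0, Gd.ee_add_ff (g := g) (J := J)])
    have t2 : ‖g.L * Sg‖ ≤ g.ff J * (Zn * Rest) := by
      refine (norm_mul_le _ _).trans ?_
      have hf : g.ff J * (Zn * Rest) = g.S * (Zn * Pr' * Rest) := by
        rw [Gd.ff]
        ring
      rw [hf]
      exact mul_le_mul hg.hL hSg_le (norm_nonneg _) hg.S0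
    refine (norm_add_le _ _).trans ((add_le_add t1 t2).trans (le_of_eq ?_))
    ring

/-- Elimination of the set `C = ∅`. -/
lemma Psi_le (J : Finset ι) (G : List (Gd ι N)) (hG : ∀ g ∈ G, g.OK J) (u : ι → ℝ)
    (hu : ∀ k ∈ J, 1 ≤ u k) :
    Psi J G ∅ u ≤ (2 / 5 : ℝ) ^ J.card * (∏ k ∈ J, pw (u k)) *
      (G.map fun g => g.ee J + g.ff J * ∏ k ∈ J, pw (1 + g.δ k)).prod := by
  induction G generalizing u with
  | nil =>
    simp only [Psi, List.map_nil, List.prod_nil, mul_one]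
    have : (2 / 5 : ℝ) ^ J.card * ∏ k ∈ J, pw (u k) = ∏ k ∈ J, ((2 / 5) * pw (u k)) := by
      rw [Finset.prod_mul_distrib, Finset.prod_const]
    rw [this]
    apply Finset.prod_le_prod
    · intro k hk
      simp only [Finset.notMem_empty, if_false]
      linarith [hu k hk]
    · intro k hk
      simp only [Finset.notMem_empty, if_false]
      exact sub_one_le_pw (by linarith [hu k hk])
  | cons g G ih =>
    have hg := hG g (List.mem_cons_self ..)
    have hG' : ∀ h ∈ G, h.OK J := fun h hh => hG h (List.mem_cons_of_mem _ hh)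
    simp only [Psi, List.map_cons, List.prod_cons]
    have i1 := ih hG' u hu
    have hu' : ∀ k ∈ J, 1 ≤ u k * (1 + g.δ k) := by
      intro k hk
      have h1 := hu k hk
      have h2 := hg.δ0 k hk
      nlinarith
    have i2 := ih hG' _ hu'
    have e : ∏ k ∈ J, pw (u k * (1 + g.δ k)) = (∏ k ∈ J, pw (u k)) * ∏ k ∈ J, pw (1 + g.δ k) := by
      rw [← Finset.prod_mul_distrib]
      refine Finset.prod_congr rfl fun k hk => ?_
      exact pw_mul (by linarith [hu k hk])
    rw [e] at i2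
    have a1 := mul_le_mul_of_nonneg_left i1 hg.ee0
    have a2 := mul_le_mul_of_nonneg_left i2 hg.ff0
    refine (add_le_add a1 a2).trans (le_of_eq ?_)
    ring

/-- The column inequality for the data of one gate. -/
lemma gate_factor_le (J : Finset ι) (g : Gd ι N) (hg : g.OK J) :
    g.ee J + g.ff J * ∏ k ∈ J, pw (1 + g.δ k) ≤ ∏ k ∈ J, (1 + g.t k ^ 2) := by
  by_cases hp : ∀ k ∈ J, 0 < g.r k
  · have := column_scalar J g.r g.t g.δ g.S hg.S0 hg.S1 hp hg.r1 hg.t0 hg.δ0
      (fun k hk => hg.hδ k hk (hp k hk))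
    refine le_trans (le_of_eq ?_) this
    simp only [Gd.ee, Gd.ff, Gd.P]
    ring
  · simp only [not_forall, not_lt] at hp
    obtain ⟨k, hk, hk0⟩ := hp
    have hr : g.r k = 0 := le_antisymm hk0 (hg.r0 k hk)
    have hP0 : g.P J = 0 := Finset.prod_eq_zero hk hr
    simp only [Gd.ee, Gd.ff, hP0]
    simp only [zero_mul, mul_zero, sub_zero]
    have : ∏ k ∈ J, (1 : ℝ) ≤ ∏ k ∈ J, (1 + g.t k ^ 2) :=
      Finset.prod_le_prod (fun _ _ => zero_le_one) fun k _ => by nlinarith [sq_nonneg (g.t k)]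
    simpa using this

lemma list_prod_le_prod (J : Finset ι) (G : List (Gd ι N)) (a : Gd ι N → ℝ) (t : Gd ι N → ι → ℝ)
    (ha0 : ∀ g ∈ G, 0 ≤ a g) (ha : ∀ g ∈ G, a g ≤ ∏ k ∈ J, t g k) :
    (G.map a).prod ≤ ∏ k ∈ J, (G.map fun g => t g k).prod := by
  induction G with
  | nil => simp
  | cons g G ih =>
    simp only [List.map_cons, List.prod_cons]
    rw [Finset.prod_mul_distrib]
    have i := ih (fun h hh => ha0 h (List.mem_cons_of_mem _ hh))
      (fun h hh => ha h (List.mem_cons_of_mem _ hh))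
    have h0 : 0 ≤ (G.map a).prod := List.prod_nonneg (by
      intro x hx
      obtain ⟨h, hh, rfl⟩ := List.mem_map.mp hx
      exact ha0 h (List.mem_cons_of_mem _ hh))
    exact mul_le_mul (ha g (List.mem_cons_self ..)) i h0
      ((ha0 g (List.mem_cons_self ..)).trans (ha g (List.mem_cons_self ..)))

/-- Final form of the recursion bound. -/
theorem Dd_final (J : Finset ι) (Z₀ : Op N) (hZ₀ : ‖Z₀‖ ≤ 1) (G : List (Gd ι N))
    (hG : ∀ g ∈ G, g.OK J) (ξ : ι → ℂ) :
    ‖Dd J Z₀ G ξ ξ‖ ≤ (∏ k ∈ J, (2 * ‖ξ k‖)) * (2 / 5 : ℝ) ^ J.card *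
      ∏ k ∈ J, (G.map fun g => 1 + g.t k ^ 2).prod := by
  have h1 := Dd_bound J Z₀ hZ₀ G hG ∅ ξ ξ (by
    intro k _
    right
    exact ⟨Finset.notMem_empty k, rfl⟩)
  have h2 := Psi_le J G hG (fun _ => 1) fun _ _ => le_refl _
  simp only [pw_one, Finset.prod_const_one, mul_one] at h2
  have h3 := list_prod_le_prod J G (fun g => g.ee J + g.ff J * ∏ k ∈ J, pw (1 + g.δ k))
    (fun g k => 1 + g.t k ^ 2)
    (by
      intro g hg
      have hgg := hG g hg
      have : 0 ≤ ∏ k ∈ J, pw (1 + g.δ k) :=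
        Finset.prod_nonneg fun k hk => pw_nonneg (by linarith [hgg.δ0 k hk])
      exact add_nonneg hgg.ee0 (mul_nonneg hgg.ff0 this))
    (fun g hg => gate_factor_le J g (hG g hg))
  have hZn0 : 0 ≤ ∏ k ∈ J, (2 * ‖ξ k‖) := Finset.prod_nonneg fun k _ => by positivity
  refine h1.trans ?_
  rw [mul_assoc]
  apply mul_le_mul_of_nonneg_left _ hZn0
  refine h2.trans ?_
  apply mul_le_mul_of_nonneg_left h3
  positivity

end Vale.Agent.Lib.P368y
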