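import Vale.Agent.Lib.P368y.Shrink

/-!
The core bound: blocks with distinct gates at their inputs.
-/

open scoped BigOperators Matrix Matrix.Norms.L2Operator

namespace Vale.Agent.Lib.P368y

open Vale.Agent.Lib.P368x

variable {N : ℕ} {ι : Type*} [DecidableEq ι]

/-- The rate of the core bound. -/
noncomputable def νc : ℝ := 1 - 1 / 10 ^ 7

lemma νc_nonneg : 0 ≤ νc := by unfold νc; norm_num

lemma νc_le_one : νc ≤ 1 := by unfold νc; norm_num

/-- The number of colours. -/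
def M₀ : ℕ := 16 * 10 ^ 16

section Light

variable (B : BData ι N) (S : ι → Finset (Fin N)) (hS : ∀ j k, j ≠ k → Disjoint (S j) (S k))
  (hi : ∀ k, B.i k ∈ S k) (X : Fin N → M2) (hX : AllOK X)

include hS hi hX

/-- The bound when the row sums are small. -/
theorem core_light [Fintype ι] (gs : List (Finset (Fin N))) (hgs : gs.Pairwise Disjoint)
    (hmem : ∀ k, S k ∈ gs)
    (hrow : ∀ k, (1 / 10 ^ 8 : ℝ) < ‖B.c k‖ →
      ∑ l ∈ Finset.univ.erase k, (1 - ‖B.ck k (S l)‖ ^ 2) ≤ 5 / 10 ^ 16) :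
    ‖B.fam.EJ Finset.univ (TT gs X)‖ ≤ νc ^ Fintype.card ι := by
  classical
  set fresh : ι → Prop := fun k => ‖B.c k‖ ≤ 1 / 10 ^ 8 with hfresh
  set B' := B.shrink S fresh with hB'
  have hpriv : ∀ j k, j ≠ k → Disjoint (S k) (B'.W j) := by
    intro j k hjk
    have hij : B.i j ∉ S k := fun h => Finset.disjoint_left.mp (hS j k hjk) (hi j) h
    rw [Finset.disjoint_left]
    intro s hs hs'
    have hW : B'.W j = if fresh j then {B.i j} else B.W j \ B.Mk S j := rfl
    rw [hW] at hs'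
    by_cases hf : fresh j
    · simp only [hf, if_true, Finset.mem_singleton] at hs'
      exact hij (hs' ▸ hs)
    · simp only [hf, if_false, Finset.mem_sdiff] at hs'
      apply hs'.2
      rw [B.mem_Mk S]
      exact ⟨hs'.1, fun h => hij (h ▸ hs), k, hjk.symm, hs⟩
  have hT : ∀ J' ⊆ Finset.univ, ‖B'.fam.EJ J' (TT gs X)‖ ≤ νp ^ J'.card := fun J' _ =>
    fbt B' S hS hi hpriv X hX gs hgs hmem J'
  have h := surgery B.fam B'.fam (B.Ok S fresh) B.fam_nrm B'.fam_nrm (B.shrink_W_sub S fresh)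
    (B.Ok_mem S fresh) (B.Ok_norm S fresh) (TT gs X) νp (5 / 10 ^ 8) νp_nonneg (by norm_num)
    Finset.univ
    (by
      intro k _ b
      by_cases hf : fresh k
      · have h1 := B.close_fresh S fresh hf b
        have h2 : ‖B.c k‖ ≤ 1 / 10 ^ 8 := hf
        have h3 : (2 : ℝ) * (1 / 10 ^ 8) ≤ 5 / 10 ^ 8 := by norm_num
        exact h1.trans (by linarith)
      · have h1 := B.close_removal S fresh hf b
        have h2 := hrow k (not_le.mp hf)
        have h3 := B.cM_bound S hS k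
        refine abs_le_of_sq_le_sq' ?_ (by norm_num) |>.2
        refine h1.trans ?_
        have h4 : (4 : ℝ) * (5 / 10 ^ 16) ≤ (5 / 10 ^ 8) ^ 2 := by norm_num
        linarith) hT
  rw [Finset.card_univ] at h
  refine h.trans (le_of_eq ?_)
  congr 1
  unfold νp νc
  norm_num

end Light

/-- The restriction of a family of blocks to a subset. -/
def BData.restrict (B : BData ι N) (J : Finset ι) : BData J N where
  W := fun k => B.W k.1
  i := fun k => B.i k.1
  ψ := fun k => B.ψ k.1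
  e := fun k => B.e k.1
  α := fun k => B.α k.1
  hi := fun k => B.hi k.1
  disj := fun j k h => B.disj j.1 k.1 fun e => h (Subtype.ext e)
  hψ := fun k => B.hψ k.1
  he := fun k => B.he k.1
  hα := fun k => B.hα k.1

lemma EJ_restrict (B : BData ι N) (J : Finset ι) (J' : Finset J) :
    (B.restrict J).fam.EJ J' = B.fam.EJ (J'.map (Function.Embedding.subtype _)) := by
  induction J' using Finset.induction_on with
  | empty => simp
  | insert k J' hk ih =>
    rw [Fam.EJ_insert _ hk, ih, Finset.map_insert, Fam.EJ_insert]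
    · rfl
    · simpa using hk

lemma EJ_restrict_univ (B : BData ι N) (J : Finset ι) :
    (B.restrict J).fam.EJ Finset.univ = B.fam.EJ J := by
  rw [EJ_restrict]
  congr 1
  ext x
  simp

lemma exp_forty : Real.exp (-40) ≤ (1 / 10 ^ 16 : ℝ) := by
  have h1 : (2.7 : ℝ) ≤ Real.exp 1 := by
    have := Real.exp_one_gt_d9
    linarith
  have h2 : (40 : ℝ) = ((40 : ℕ) : ℝ) * 1 := by norm_num
  have h3 : Real.exp 40 = Real.exp 1 ^ 40 := by
    rw [h2, Real.exp_nat_mul]
  have h4 : (2.7 : ℝ) ^ 40 ≤ Real.exp 1 ^ 40 := pow_le_pow_left₀ (by norm_num) h1 40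
  have h5 : (10 : ℝ) ^ 16 ≤ Real.exp 40 := by
    rw [h3]
    refine le_trans ?_ h4
    norm_num
  rw [Real.exp_neg]
  rw [one_div]
  exact inv_anti₀ (by positivity) h5

namespace BData

variable (B : BData ι N) (S : ι → Finset (Fin N)) (hS : ∀ j k, j ≠ k → Disjoint (S j) (S k))

include hS in
/-- The row sum of a block with a non-negligible overlap. -/
lemma row_le [Fintype ι] (k : ι) (hk : (1 / 10 ^ 8 : ℝ) < ‖B.c k‖) :
    ∑ l ∈ Finset.univ.erase k, (1 - ‖B.ck k (S l)‖ ^ 2) ≤ 40 := by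
  classical
  set D := (Finset.univ.erase k).biUnion fun l => (B.W k).erase (B.i k) ∩ S l with hD
  have hsub : D ⊆ (B.W k).erase (B.i k) := by
    intro s hs
    obtain ⟨l, _, hl⟩ := Finset.mem_biUnion.mp hs
    exact (Finset.mem_inter.mp hl).1
  have hprod : ∏ s ∈ D, ip (B.ψ k s) (B.e k s) = ∏ l ∈ Finset.univ.erase k, B.ck k (S l) := by
    rw [hD, Finset.prod_biUnion]
    · rfl
    · intro a _ b _ hab
      simp only [Function.onFun]
      exact Finset.disjoint_of_subset_left Finset.inter_subset_right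
        (Finset.disjoint_of_subset_right Finset.inter_subset_right (hS a b hab))
  have hc : ‖B.c k‖ ≤ ∏ l ∈ Finset.univ.erase k, ‖B.ck k (S l)‖ := by
    rw [← norm_prod, ← hprod, BData.c, ← Finset.prod_sdiff hsub, norm_mul, mul_comm]
    have h1 : ‖∏ s ∈ (B.W k).erase (B.i k) \ D, ip (B.ψ k s) (B.e k s)‖ ≤ 1 :=
      norm_prod_ip_le _ _ _ (fun s _ => B.hψ k s) (fun s _ => B.he k s)
    exact mul_le_of_le_one_right (norm_nonneg _) h1
  have hsq : (1 / 10 ^ 16 : ℝ) < ∏ l ∈ Finset.univ.erase k, ‖B.ck k (S l)‖ ^ 2 := by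
    rw [Finset.prod_pow]
    have h1 : (1 / 10 ^ 8 : ℝ) < ∏ l ∈ Finset.univ.erase k, ‖B.ck k (S l)‖ := lt_of_lt_of_le hk hc
    have h2 : (1 / 10 ^ 8 : ℝ) ^ 2 < (∏ l ∈ Finset.univ.erase k, ‖B.ck k (S l)‖) ^ 2 :=
      pow_lt_pow_left₀ h1 (by norm_num) (by norm_num)
    refine lt_of_le_of_lt (le_of_eq ?_) h2
    norm_num
  have hexp : ∏ l ∈ Finset.univ.erase k, ‖B.ck k (S l)‖ ^ 2
      ≤ Real.exp (- ∑ l ∈ Finset.univ.erase k, (1 - ‖B.ck k (S l)‖ ^ 2)) := by
    rw [← Finset.sum_neg_distrib, Real.exp_sum]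
    apply Finset.prod_le_prod (fun _ _ => by positivity)
    intro l _
    have := Real.add_one_le_exp (-(1 - ‖B.ck k (S l)‖ ^ 2))
    linarith
  by_contra hcon
  push_neg at hcon
  have h1 : Real.exp (- ∑ l ∈ Finset.univ.erase k, (1 - ‖B.ck k (S l)‖ ^ 2)) < Real.exp (-40) :=
    Real.exp_lt_exp.mpr (by linarith)
  have h2 := exp_forty
  linarith

end BData

section Core

variable (B : BData ι N) (S : ι → Finset (Fin N)) (hS : ∀ j k, j ≠ k → Disjoint (S j) (S k))
  (hi : ∀ k, B.i k ∈ S k) (X : Fin N → M2) (hX : AllOK X)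

include hS hi hX

/-- Selection and the light bound. -/
theorem core_select [Fintype ι] (gs : List (Finset (Fin N))) (hgs : gs.Pairwise Disjoint)
    (hmem : ∀ k, S k ∈ gs) :
    ∃ J : Finset ι, Fintype.card ι ≤ 2 * M₀ * J.card ∧
      ‖B.fam.EJ J (TT gs X)‖ ≤ νc ^ J.card := by
  classical
  set a : ι → ι → ℝ := fun j k =>
    if ‖B.c j‖ ≤ 1 / 10 ^ 8 ∨ j = k then 0 else 1 - ‖B.ck j (S k)‖ ^ 2 with ha
  have ha0 : ∀ j k, 0 ≤ a j k := by
    intro j k
    simp only [ha]
    split_ifs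
    · exact le_rfl
    · have := pow_le_one₀ (n := 2) (norm_nonneg _) (B.norm_ck_le j (S k))
      linarith
  have hrow : ∀ j, ∑ k ∈ Finset.univ.erase j, a j k ≤ 40 := by
    intro j
    by_cases hf : ‖B.c j‖ ≤ 1 / 10 ^ 8
    · have : ∀ k ∈ Finset.univ.erase j, a j k = 0 := by
        intro k _
        exact if_pos (Or.inl hf)
      rw [Finset.sum_eq_zero this]
      norm_num
    · refine le_trans (le_of_eq ?_) (B.row_le S hS j (not_le.mp hf))
      refine Finset.sum_congr rfl fun k hk => ?_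
      have hne : j ≠ k := (Finset.ne_of_mem_erase hk).symm
      exact if_neg (not_or.mpr ⟨hf, hne⟩)
  have hM₀ : 0 < M₀ := by unfold M₀; norm_num
  obtain ⟨J, hJ1, hJ2⟩ := select a ha0 40 (by norm_num) hrow M₀ hM₀
  refine ⟨J, hJ1, ?_⟩
  have hcard : Fintype.card J = J.card := Fintype.card_coe J
  rw [← EJ_restrict_univ, ← hcard]
  refine core_light (B.restrict J) (fun k => S k.1) (fun j k h => hS j.1 k.1 fun e => h (Subtype.ext e))
    (fun k => hi k.1) X hX gs hgs (fun k => hmem k.1) ?_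
  intro k hk
  have hk' : (1 / 10 ^ 8 : ℝ) < ‖B.c k.1‖ := hk
  have h1 := hJ2 k.1 k.2
  have h2 : (2 : ℝ) * 40 / (M₀ : ℝ) = 5 / 10 ^ 16 := by
    unfold M₀
    norm_num
  rw [h2] at h1
  refine le_trans (le_of_eq ?_) h1
  have hmap : (Finset.univ.erase k).map (Function.Embedding.subtype _) = J.erase k.1 := by
    ext x
    simp only [Finset.mem_map, Finset.mem_erase, Finset.mem_univ, and_true,
      Function.Embedding.subtype_apply, Subtype.exists]
    constructor
    · rintro ⟨y, hy, hne, rfl⟩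
      exact ⟨fun h => hne (Subtype.ext h), hy⟩
    · rintro ⟨hne, hx⟩
      exact ⟨x, hx, fun h => hne (by rw [← h]), rfl⟩
  rw [← hmap, Finset.sum_map]
  refine Finset.sum_congr rfl fun l hl => ?_
  have hne : k.1 ≠ l.1 := fun h => (Finset.ne_of_mem_erase hl) (Subtype.ext h.symm)
  have hf : ¬ ‖B.c k.1‖ ≤ 1 / 10 ^ 8 := not_le.mpr hk'
  have e : a k.1 l.1 = 1 - ‖B.ck k.1 (S l.1)‖ ^ 2 := if_neg (not_or.mpr ⟨hf, hne⟩)
  simp only [Function.Embedding.subtype_apply]
  rw [e]
  rfl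

/-- The core bound. -/
theorem core [Fintype ι] (gs : List (Finset (Fin N))) (hgs : gs.Pairwise Disjoint)
    (hmem : ∀ k, S k ∈ gs) (m : ℕ) (hm : 2 * M₀ * m ≤ Fintype.card ι) :
    ‖B.fam.EJ Finset.univ (TT gs X)‖ ≤ νc ^ m := by
  obtain ⟨J, hJ1, hJ2⟩ := core_select B S hS hi X hX gs hgs hmem
  have hM₀ : 0 < 2 * M₀ := by unfold M₀; norm_num
  have hJm : m ≤ J.card := by
    have : 2 * M₀ * m ≤ 2 * M₀ * J.card := hm.trans hJ1
    exact Nat.le_of_mul_le_mul_left this hM₀
  refine (Fam.norm_EJ_mono B.fam_nrm (Finset.subset_univ J) _).trans (hJ2.trans ?_)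
  exact pow_le_pow_of_le_one νc_nonneg νc_le_one hJm

end Core

end Vale.Agent.Lib.P368y
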