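import Vale.Agent.Lib.P368y.Label3

/-!
Domination of signed Kraus maps by unsigned ones: the peeling bound.
-/

open scoped BigOperators Matrix Matrix.Norms.L2Operator

namespace Vale.Agent.Lib.P368y

open Vale.Agent.Lib.P368x

variable {N : ℕ} {ι : Type*} [DecidableEq ι]

/-- The unsigned Kraus map of a pair of operators. -/
noncomputable def Ab (K : Bool → Op N) : Module.End ℂ (Op N) where
  toFun A := (1 / 2 : ℂ) • ((K false)ᴴ * A * K false + (K true)ᴴ * A * K true)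
  map_add' A B := by
    simp only [mul_add, add_mul, smul_add]
    abel
  map_smul' c A := by
    simp only [mul_smul_comm, smul_mul_assoc, RingHom.id_apply, ← smul_add]
    rw [smul_comm]

lemma Ab_apply (K : Bool → Op N) (A : Op N) :
    Ab K A = (1 / 2 : ℂ) • ((K false)ᴴ * A * K false + (K true)ᴴ * A * K true) := rfl

lemma norm_Ab_le (K : Bool → Op N) (h : ∀ b, ‖K b‖ ≤ 1) (A : Op N) : ‖Ab K A‖ ≤ ‖A‖ := by
  rw [Ab_apply, norm_smul, norm_half]
  have h1 : ‖(K false)ᴴ * A * K false‖ ≤ ‖A‖ := mul3_norm_le A (by rw [norm_adj]; exact h _) (h _)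
  have h2 : ‖(K true)ᴴ * A * K true‖ ≤ ‖A‖ := mul3_norm_le A (by rw [norm_adj]; exact h _) (h _)
  have h3 := norm_add_le ((K false)ᴴ * A * K false) ((K true)ᴴ * A * K true)
  linarith

lemma Ab_comm_apply {K K' : Bool → Op N} (h : ∀ b c, Commute (K b) (K' c))
    (h' : ∀ b c, Commute (K b)ᴴ (K' c)ᴴ) (A : Op N) : Ab K (Ab K' A) = Ab K' (Ab K A) := by
  simp only [Ab_apply, mul_add, add_mul, mul_smul_comm, smul_mul_assoc, smul_add]
  rw [conj_comm A (h' false false) (h false false), conj_comm A (h' false true) (h false true),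
    conj_comm A (h' true false) (h true false), conj_comm A (h' true true) (h true true)]
  module

lemma Ab_commute {S T : Finset (Fin N)} (hd : Disjoint S T) {K K' : Bool → Op N}
    (hK : ∀ b, K b ∈ SA S) (hK' : ∀ b, K' b ∈ SA T) : Commute (Ab K) (Ab K') := by
  apply LinearMap.ext
  intro A
  exact Ab_comm_apply (fun b c => SA_commute hd (hK b) (hK' c))
    (fun b c => SA_commute hd (SA_adj (hK b)) (SA_adj (hK' c))) A

lemma Ab_mul_left {K : Bool → Op N} {B : Op N} (h : ∀ b, Commute B (K b)ᴴ) (A : Op N) :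
    Ab K (B * A) = B * Ab K A := by
  simp only [Ab_apply, mul_smul_comm, mul_add]
  congr 2
  · simp only [mul_assoc]; rw [← mul_assoc, ← (h false).eq, mul_assoc]
  · simp only [mul_assoc]; rw [← mul_assoc, ← (h true).eq, mul_assoc]

lemma Ab_mul_right {K : Bool → Op N} {B : Op N} (h : ∀ b, Commute B (K b)) (A : Op N) :
    Ab K (A * B) = Ab K A * B := by
  simp only [Ab_apply, smul_mul_assoc, add_mul]
  congr 2
  · simp only [mul_assoc]; rw [(h false).eq]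
  · simp only [mul_assoc]; rw [(h true).eq]

namespace Fam

lemma pairwiseA (F : Fam ι N) (J : Finset ι) :
    (J : Set ι).Pairwise (Function.onFun Commute fun k => Ab (F.K k)) := by
  intro j _ k _ hjk
  exact Ab_commute (F.disj j k hjk) (F.mem j) (F.mem k)

/-- The iterate of the unsigned maps over `J`. -/
noncomputable def AJ (F : Fam ι N) (J : Finset ι) : Module.End ℂ (Op N) :=
  J.noncommProd (fun k => Ab (F.K k)) (F.pairwiseA J)

variable (F : Fam ι N)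

@[simp] lemma AJ_empty : F.AJ ∅ = 1 := rfl

lemma AJ_insert {J : Finset ι} {k : ι} (hk : k ∉ J) : F.AJ (insert k J) = Ab (F.K k) * F.AJ J := by
  rw [AJ, Finset.noncommProd_insert_of_notMem _ _ _ _ hk]
  rfl

lemma AJ_insert' {J : Finset ι} {k : ι} (hk : k ∉ J) : F.AJ (insert k J) = F.AJ J * Ab (F.K k) := by
  rw [AJ, Finset.noncommProd_insert_of_notMem' _ _ _ _ hk]
  rfl

lemma AJ_insert_apply {J : Finset ι} {k : ι} (hk : k ∉ J) (A : Op N) :
    F.AJ (insert k J) A = Ab (F.K k) (F.AJ J A) := by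
  rw [AJ_insert F hk]; rfl

lemma AJ_insert_apply' {J : Finset ι} {k : ι} (hk : k ∉ J) (A : Op N) :
    F.AJ (insert k J) A = F.AJ J (Ab (F.K k) A) := by
  rw [AJ_insert' F hk]; rfl

variable {F} in
lemma norm_AJ_le (hF : F.Nrm) (J : Finset ι) (A : Op N) : ‖F.AJ J A‖ ≤ ‖A‖ := by
  induction J using Finset.induction_on with
  | empty => simp
  | insert k J hk ih =>
    rw [AJ_insert_apply F hk]
    exact (norm_Ab_le _ (hF k) _).trans ih

lemma AJ_mul_left {J : Finset ι} {B : Op N} (h : F.Off J B) (A : Op N) :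
    F.AJ J (B * A) = B * F.AJ J A := by
  induction J using Finset.induction_on with
  | empty => simp
  | insert k J hk ih =>
    rw [AJ_insert_apply F hk, AJ_insert_apply F hk,
      ih (h.mono (Finset.subset_insert _ _)),
      Ab_mul_left fun b => (h k (Finset.mem_insert_self _ _) b).2]

end Fam

/-! ### Domination -/

lemma qf_conj (x : Str N → ℂ) (K P : Op N) : qf x (Kᴴ * P * K) = qf (K *ᵥ x) P := by
  unfold qf
  rw [← Matrix.mulVec_mulVec, ← Matrix.mulVec_mulVec, dot_mulVec_adj]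

lemma dot_conj (x y : Str N → ℂ) (K Z : Op N) :
    star y ⬝ᵥ ((Kᴴ * Z * K) *ᵥ x) = star (K *ᵥ y) ⬝ᵥ (Z *ᵥ (K *ᵥ x)) := by
  rw [← Matrix.mulVec_mulVec, ← Matrix.mulVec_mulVec, dot_mulVec_adj]

lemma qf_Ab (x : Str N → ℂ) (K : Bool → Op N) (P : Op N) :
    qf x (Ab K P) = (1 / 2) * (qf (K false *ᵥ x) P + qf (K true *ᵥ x) P) := by
  rw [Ab_apply]
  have : (1 / 2 : ℂ) = ((1 / 2 : ℝ) : ℂ) := by norm_num
  rw [this, qf_smul, qf_add, qf_conj, qf_conj]

/-- `Z` is dominated by the positive forms `P`, `R`. -/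
structure Dom (Z P R : Op N) : Prop where
  hP : ∀ x, 0 ≤ qf x P
  hR : ∀ x, 0 ≤ qf x R
  h : ∀ x y, ‖star y ⬝ᵥ (Z *ᵥ x)‖ ^ 2 ≤ qf y P * qf x R

lemma two_term_cs (a₀ a₁ p₀ p₁ r₀ r₁ : ℝ) (ha₀ : 0 ≤ a₀) (ha₁ : 0 ≤ a₁) (hp₀ : 0 ≤ p₀) (hp₁ : 0 ≤ p₁)
    (hr₀ : 0 ≤ r₀) (hr₁ : 0 ≤ r₁) (h₀ : a₀ ^ 2 ≤ p₀ * r₀) (h₁ : a₁ ^ 2 ≤ p₁ * r₁) :
    (a₀ + a₁) ^ 2 ≤ (p₀ + p₁) * (r₀ + r₁) := by
  have h2 : 2 * (a₀ * a₁) ≤ p₀ * r₁ + p₁ * r₀ := by
    have hsq : (2 * (a₀ * a₁)) ^ 2 ≤ (p₀ * r₁ + p₁ * r₀) ^ 2 := by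
      have e1 : (a₀ * a₁) ^ 2 ≤ (p₀ * r₀) * (p₁ * r₁) := by
        rw [mul_pow]
        exact mul_le_mul h₀ h₁ (sq_nonneg _) (mul_nonneg hp₀ hr₀)
      nlinarith [sq_nonneg (p₀ * r₁ - p₁ * r₀)]
    exact abs_le_of_sq_le_sq' hsq (by positivity) |>.2
  nlinarith

lemma Dom.step {Z P R : Op N} (hD : Dom Z P R) (K : Bool → Op N) :
    Dom (Eb K Z) (Ab K P) (Ab K R) := by
  refine ⟨?_, ?_, ?_⟩
  · intro x
    rw [qf_Ab]
    have := hD.hP (K false *ᵥ x)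
    have := hD.hP (K true *ᵥ x)
    linarith
  · intro x
    rw [qf_Ab]
    have := hD.hR (K false *ᵥ x)
    have := hD.hR (K true *ᵥ x)
    linarith
  · intro x y
    have e : star y ⬝ᵥ (Eb K Z *ᵥ x) = (1 / 2 : ℂ) *
        (star (K false *ᵥ y) ⬝ᵥ (Z *ᵥ (K false *ᵥ x)) - star (K true *ᵥ y) ⬝ᵥ (Z *ᵥ (K true *ᵥ x))) := by
      rw [Eb_apply, Matrix.smul_mulVec, dotProduct_smul, Matrix.sub_mulVec, dotProduct_sub, dot_conj,
        dot_conj]
      rfl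
    rw [e, norm_mul, norm_half, qf_Ab, qf_Ab]
    have h0 := hD.h (K false *ᵥ x) (K false *ᵥ y)
    have h1 := hD.h (K true *ᵥ x) (K true *ᵥ y)
    have hs := norm_sub_le (star (K false *ᵥ y) ⬝ᵥ (Z *ᵥ (K false *ᵥ x)))
      (star (K true *ᵥ y) ⬝ᵥ (Z *ᵥ (K true *ᵥ x)))
    have cs := two_term_cs _ _ _ _ _ _ (norm_nonneg _) (norm_nonneg _) (hD.hP (K false *ᵥ y))
      (hD.hP (K true *ᵥ y)) (hD.hR (K false *ᵥ x)) (hD.hR (K true *ᵥ x)) h0 h1
    have hsq := pow_le_pow_left₀ (norm_nonneg _) hs 2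
    nlinarith

lemma Dom.iter {Z P R : Op N} (hD : Dom Z P R) (F : Fam ι N) (J : Finset ι) :
    Dom (F.EJ J Z) (F.AJ J P) (F.AJ J R) := by
  induction J using Finset.induction_on with
  | empty => simpa using hD
  | insert k J hk ih =>
    rw [Fam.EJ_insert_apply F hk, Fam.AJ_insert_apply F hk, Fam.AJ_insert_apply F hk]
    exact ih.step _

lemma Dom.norm_sq_le {Z P R : Op N} (hD : Dom Z P R) : ‖Z‖ ^ 2 ≤ ‖P‖ * ‖R‖ := by
  set c := Real.sqrt (‖P‖ * ‖R‖) with hc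
  have hc0 : 0 ≤ c := Real.sqrt_nonneg _
  have hnn : 0 ≤ ‖P‖ * ‖R‖ := by positivity
  have hb : ‖Z‖ ≤ c := by
    apply op_norm_le _ _ hc0
    intro x y
    have h1 := hD.h x y
    have h2 : qf y P ≤ ‖P‖ * vn y ^ 2 := qf_le_norm _ _
    have h3 : qf x R ≤ ‖R‖ * vn x ^ 2 := qf_le_norm _ _
    have h4 : qf y P * qf x R ≤ (‖P‖ * vn y ^ 2) * (‖R‖ * vn x ^ 2) :=
      mul_le_mul h2 h3 (hD.hR x) (by positivity)
    have h5 : ‖star y ⬝ᵥ (Z *ᵥ x)‖ ^ 2 ≤ (c * (vn y * vn x)) ^ 2 := by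
      rw [mul_pow, hc, Real.sq_sqrt hnn]
      nlinarith
    exact abs_le_of_sq_le_sq' h5 (by have := vn_nonneg x; have := vn_nonneg y; positivity) |>.2
  calc ‖Z‖ ^ 2 ≤ c ^ 2 := pow_le_pow_left₀ (norm_nonneg _) hb 2
    _ = _ := Real.sq_sqrt hnn

lemma Dom_left {Pj : Op N} (hh : Pjᴴ = Pj) (h2 : Pj * Pj = Pj) (B : Op N) : Dom (Pj * B) Pj (Bᴴ * B) := by
  refine ⟨fun x => ?_, fun x => ?_, fun x y => ?_⟩
  · rw [qf_proj hh h2]; positivity
  · rw [qf_adj_mul]; positivity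
  · rw [qf_proj hh h2, qf_adj_mul]
    have e : star y ⬝ᵥ ((Pj * B) *ᵥ x) = star (Pj *ᵥ y) ⬝ᵥ (B *ᵥ x) := by
      rw [← Matrix.mulVec_mulVec]
      have := dot_mulVec_adj Pj (B *ᵥ x) y
      rwa [hh] at this
    rw [e, ← mul_pow]
    exact pow_le_pow_left₀ (norm_nonneg _) (dot_norm_le _ _) 2

lemma Dom_right {Pj : Op N} (hh : Pjᴴ = Pj) (h2 : Pj * Pj = Pj) (B : Op N) : Dom (B * Pj) (B * Bᴴ) Pj := by
  refine ⟨fun x => ?_, fun x => ?_, fun x y => ?_⟩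
  · have := qf_adj_mul x Bᴴ
    rw [Matrix.conjTranspose_conjTranspose] at this
    rw [this]; positivity
  · rw [qf_proj hh h2]; positivity
  · have h3 := qf_adj_mul y Bᴴ
    rw [Matrix.conjTranspose_conjTranspose] at h3
    rw [qf_proj hh h2, h3]
    have e : star y ⬝ᵥ ((B * Pj) *ᵥ x) = star (Bᴴ *ᵥ y) ⬝ᵥ (Pj *ᵥ x) := by
      rw [← Matrix.mulVec_mulVec]
      have := dot_mulVec_adj Bᴴ (Pj *ᵥ x) y
      rwa [Matrix.conjTranspose_conjTranspose] at this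
    rw [e, ← mul_pow]
    exact pow_le_pow_left₀ (norm_nonneg _) (dot_norm_le _ _) 2

/-- Peeling on the left. -/
theorem peel_left {F : Fam ι N} (hF : F.Nrm) (J : Finset ι) {Pj : Op N} (hh : Pjᴴ = Pj) (h2 : Pj * Pj = Pj)
    (B : Op N) : ‖F.EJ J (Pj * B)‖ ^ 2 ≤ ‖F.AJ J Pj‖ * ‖B‖ ^ 2 := by
  have h := ((Dom_left hh h2 B).iter F J).norm_sq_le
  refine h.trans ?_
  apply mul_le_mul_of_nonneg_left _ (norm_nonneg _)
  refine (Fam.norm_AJ_le hF J _).trans ?_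
  refine (norm_mul_le _ _).trans (le_of_eq ?_)
  rw [norm_adj]
  ring

/-- Peeling on the right. -/
theorem peel_right {F : Fam ι N} (hF : F.Nrm) (J : Finset ι) {Pj : Op N} (hh : Pjᴴ = Pj) (h2 : Pj * Pj = Pj)
    (B : Op N) : ‖F.EJ J (B * Pj)‖ ^ 2 ≤ ‖F.AJ J Pj‖ * ‖B‖ ^ 2 := by
  have h := ((Dom_right hh h2 B).iter F J).norm_sq_le
  refine h.trans ?_
  rw [mul_comm]
  apply mul_le_mul_of_nonneg_left _ (norm_nonneg _)
  refine (Fam.norm_AJ_le hF J _).trans ?_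
  refine (norm_mul_le _ _).trans (le_of_eq ?_)
  rw [norm_adj]
  ring

/-- The unsigned iterate of a product of projectors. -/
theorem norm_AJ_QP {F : Fam ι N} (hF : F.Nrm) (D : QFam ι N)
    (hSW : ∀ j k, j ≠ k → Disjoint (D.S j) (F.W k)) (J : Finset ι) :
    ‖F.AJ J (D.QP J)‖ ≤ ∏ k ∈ J, ‖Ab (F.K k) (D.Q k)‖ := by
  induction J using Finset.induction_on with
  | empty =>
    simp only [Fam.AJ_empty, QFam.QP_empty, Module.End.one_apply, Finset.prod_empty]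
    exact norm_le_one_of_proj' (by simp) (by simp)
  | insert k J hk ih =>
    have hne : ∀ {j}, j ∈ J → j ≠ k := fun {j} h e => hk (e ▸ h)
    have hQPc : ∀ b, Commute (D.QP J) (F.K k b) := fun b =>
      D.QP_commute (fun j hj => hSW j k (hne hj)) (F.mem k b)
    have hmem : Ab (F.K k) (D.Q k) ∈ SA (D.S k ∪ F.W k) := by
      rw [Ab_apply]
      have hK : ∀ b, F.K k b ∈ SA (D.S k ∪ F.W k) := fun b =>
        SA_mono Finset.subset_union_right (F.mem k b)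
      have hQ : D.Q k ∈ SA (D.S k ∪ F.W k) := SA_mono Finset.subset_union_left (D.hQmem k)
      exact Subalgebra.smul_mem _ (add_mem (mul_mem (mul_mem (SA_adj (hK _)) hQ) (hK _))
        (mul_mem (mul_mem (SA_adj (hK _)) hQ) (hK _))) _
    have hoff : F.Off J (Ab (F.K k) (D.Q k)) := by
      apply Fam.off_of_SA _ _ hmem
      intro j hj
      rw [Finset.disjoint_union_left]
      exact ⟨hSW k j (hne hj).symm, F.disj k j (hne hj).symm⟩
    rw [QFam.QP_insert _ hk, Fam.AJ_insert_apply' _ hk, Ab_mul_right hQPc, Fam.AJ_mul_left _ hoff,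
      Finset.prod_insert hk]
    refine (norm_mul_le _ _).trans ?_
    exact mul_le_mul_of_nonneg_left ih (norm_nonneg _)

end Vale.Agent.Lib.P368y
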