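import Vale.Agent.Lib.P368y.Dom

/-!
Splitting selected gates off a conjugated product projector.
-/

open scoped BigOperators Matrix Matrix.Norms.L2Operator

namespace Vale.Agent.Lib.P368y

open Vale.Agent.Lib.P368x

variable {N : ℕ} {ι : Type*} [DecidableEq ι]

/-- The projectors of a family of gates. -/
noncomputable def gateQ (S : ι → Finset (Fin N)) (hS : ∀ j k, j ≠ k → Disjoint (S j) (S k))
    (X : Fin N → M2) (hX : AllOK X) : QFam ι N where
  S := S
  Q := fun k => Qg (S k) X
  hQmem := fun k => Qg_mem_SA _ _
  hQh := fun k => Qg_herm _ hX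
  hQ2 := fun k => Qg_idem _ hX
  hSd := hS

lemma gateQ_QP_congr (S : ι → Finset (Fin N)) (hS : ∀ j k, j ≠ k → Disjoint (S j) (S k))
    {X Y : Fin N → M2} (hX : AllOK X) (hY : AllOK Y) (J : Finset ι)
    (h : ∀ j ∈ J, ∀ s ∈ S j, X s = Y s) :
    (gateQ S hS X hX).QP J = (gateQ S hS Y hY).QP J := by
  induction J using Finset.induction_on with
  | empty => simp
  | insert k J hk ih =>
    rw [QFam.QP_insert _ hk, QFam.QP_insert _ hk, ih fun j hj => h j (Finset.mem_insert_of_mem hj)]
    congr 1
    show Qg (S k) X = Qg (S k) Y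
    have : XOn (S k) X = XOn (S k) Y := by
      funext s
      by_cases hs : s ∈ S k
      · simp [XOn, hs, h k (Finset.mem_insert_self _ _) s hs]
      · simp [XOn, hs]
    rw [Qg, Qg, this]

/-- Extracting the selected gates. -/
theorem TT_extract (S : ι → Finset (Fin N)) (hS : ∀ j k, j ≠ k → Disjoint (S j) (S k))
    (J : Finset ι) : ∀ (gs : List (Finset (Fin N))) (_ : gs.Pairwise Disjoint)
    (_ : ∀ k ∈ J, S k ∈ gs) (_ : ∀ k ∈ J, (S k).Nonempty) (X : Fin N → M2) (hX : AllOK X),
    ∃ gs' : List (Finset (Fin N)), gs'.Pairwise Disjoint ∧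
      (∀ g ∈ gs', g ∈ gs ∧ ∀ k ∈ J, Disjoint g (S k)) ∧
      TT gs X = (gateQ S hS X hX).QP J * TT gs' (XOff (J.biUnion S) X) := by
  induction J using Finset.induction_on with
  | empty =>
    intro gs hgs _ _ X hX
    refine ⟨gs, hgs, fun g hg => ⟨hg, by simp⟩, ?_⟩
    have : XOff (∅ : Finset (Fin N)) X = X := by
      funext s
      simp [XOff]
    simp [this]
  | insert k J hk ih =>
    intro gs hgs hmem hne X hX
    have hkm := hmem k (Finset.mem_insert_self _ _)
    have hp : (S k :: gs.erase (S k)).Perm gs := (List.perm_cons_erase hkm).symm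
    have hsymm : ∀ {a b : Finset (Fin N)}, Disjoint a b → Disjoint b a := fun h => h.symm
    have hgs₁ : (S k :: gs.erase (S k)).Pairwise Disjoint := (hp.pairwise_iff hsymm).mpr hgs
    obtain ⟨hg, hgs'⟩ := List.pairwise_cons.mp hgs₁
    have hTT : TT gs X = Qg (S k) X * TT (gs.erase (S k)) (XOff (S k) X) := by
      rw [TT_perm hp.symm, TT_cons _ _ _ hg]
    have hX₁ : AllOK (XOff (S k) X) := XOff_ok hX
    obtain ⟨gs', h1, h2, h3⟩ := ih (gs.erase (S k)) hgs'
      (fun j hj => by
        have hjm := hmem j (Finset.mem_insert_of_mem hj)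
        have hjk : j ≠ k := fun h => hk (h ▸ hj)
        have hne' : S j ≠ S k := by
          intro he
          obtain ⟨s, hs⟩ := hne k (Finset.mem_insert_self _ _)
          have := hS j k hjk
          rw [he] at this
          exact Finset.disjoint_left.mp this hs hs
        exact (List.mem_erase_of_ne hne').mpr hjm)
      (fun j hj => hne j (Finset.mem_insert_of_mem hj)) (XOff (S k) X) hX₁
    refine ⟨gs', h1, fun g hg => ?_, ?_⟩
    · obtain ⟨a, b⟩ := h2 g hg
      refine ⟨List.mem_of_mem_erase a, fun j hj => ?_⟩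
      rcases Finset.mem_insert.mp hj with rfl | hj'
      · exact (hg g a).symm
      · exact b j hj'
    · rw [hTT, h3, QFam.QP_insert _ hk, mul_assoc]
      have e1 : XOff (J.biUnion S) (XOff (S k) X) = XOff ((insert k J).biUnion S) X := by
        funext s
        simp only [XOff, Finset.biUnion_insert, Finset.mem_union]
        by_cases h1 : s ∈ S k
        · simp [h1]
        · by_cases h2 : s ∈ J.biUnion S <;> simp [h1, h2]
      rw [e1, gateQ_QP_congr S hS hX₁ hX J]
      · rfl
      · intro j hj s hs
        have hjk : j ≠ k := fun h => hk (h ▸ hj)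
        have : s ∉ S k := fun h => Finset.disjoint_left.mp (hS j k hjk) hs h
        simp [XOff, this]

/-! ### The label bound for a product of gates -/

/-- The splitting of the sites of each block by a gate and a product projector. -/
noncomputable def mkPart (B : BData ι N) (S : ι → Finset (Fin N)) (hi : ∀ k, B.i k ∈ S k)
    (X : Fin N → M2) : Part B := by
  classical
  exact
  { P := fun k => B.W k ∩ S k
    T := fun k => (B.W k \ S k).filter fun s => X s ≠ 1
    L := fun k => (B.W k \ S k).filter fun s => X s = 1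
    hW := by
      intro k
      ext s
      simp only [Finset.mem_union, Finset.mem_inter, Finset.mem_filter, Finset.mem_sdiff]
      by_cases h1 : s ∈ B.W k <;> by_cases h2 : s ∈ S k <;> by_cases h3 : X s = 1 <;> simp [h1, h2, h3]
    hPT := by
      intro k
      rw [Finset.disjoint_left]
      intro s hs hs'
      exact (Finset.mem_sdiff.mp (Finset.mem_filter.mp hs').1).2 (Finset.mem_inter.mp hs).2
    hPL := by
      intro k
      rw [Finset.disjoint_left]
      intro s hs hs'
      exact (Finset.mem_sdiff.mp (Finset.mem_filter.mp hs').1).2 (Finset.mem_inter.mp hs).2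
    hTL := by
      intro k
      rw [Finset.disjoint_left]
      intro s hs hs'
      exact (Finset.mem_filter.mp hs).2 (Finset.mem_filter.mp hs').2
    hi := fun k => Finset.mem_inter.mpr ⟨B.hi k, hi k⟩ }

section Label

variable (B : BData ι N) (S : ι → Finset (Fin N)) (hS : ∀ j k, j ≠ k → Disjoint (S j) (S k))
  (hi : ∀ k, B.i k ∈ S k) (hpriv : ∀ j k, j ≠ k → Disjoint (S k) (B.W j)) (X : Fin N → M2)
  (hX : AllOK X)

/-- The projector data of a family of gates and blocks. -/
noncomputable def mkQData : QData (mkPart B S hi X) where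
  toQFam := gateQ S hS X hX
  hPS := fun k => Finset.inter_subset_right
  hST := by
    intro k
    classical
    rw [Finset.disjoint_left]
    intro s hs hs'
    have h : s ∈ (B.W k \ S k).filter fun s => X s ≠ 1 := by
      have : (mkPart B S hi X).T k = (B.W k \ S k).filter fun s => X s ≠ 1 := by
        unfold mkPart
        congr
      rwa [this] at hs'
    exact (Finset.mem_sdiff.mp (Finset.mem_filter.mp h).1).2 hs
  hSL := by
    intro k
    classical
    rw [Finset.disjoint_left]
    intro s hs hs'
    have h : s ∈ (B.W k \ S k).filter fun s => X s = 1 := by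
      have : (mkPart B S hi X).L k = (B.W k \ S k).filter fun s => X s = 1 := by
        unfold mkPart
        congr
      rwa [this] at hs'
    exact (Finset.mem_sdiff.mp (Finset.mem_filter.mp h).1).2 hs
  hpriv := hpriv

variable {B S hS hi hpriv X hX} in
lemma mkPart_T {k : ι} {s : Fin N} :
    s ∈ (mkPart B S hi X).T k ↔ s ∈ B.W k ∧ s ∉ S k ∧ X s ≠ 1 := by
  classical
  have : (mkPart B S hi X).T k = (B.W k \ S k).filter fun s => X s ≠ 1 := by
    unfold mkPart
    congr
  rw [this, Finset.mem_filter, Finset.mem_sdiff, and_assoc]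

variable {B S hS hi hpriv X hX} in
lemma mkPart_L {k : ι} {s : Fin N} :
    s ∈ (mkPart B S hi X).L k ↔ s ∈ B.W k ∧ s ∉ S k ∧ X s = 1 := by
  classical
  have : (mkPart B S hi X).L k = (B.W k \ S k).filter fun s => X s = 1 := by
    unfold mkPart
    congr
  rw [this, Finset.mem_filter, Finset.mem_sdiff, and_assoc]

include hS hpriv hX in
/-- The label bound for a product of gates. -/
theorem label_TT (gs : List (Finset (Fin N))) (hgs : gs.Pairwise Disjoint) (hmem : ∀ k, S k ∈ gs)
    (J : Finset ι) :
    ‖B.fam.EJ J (TT gs X)‖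
      ≤ ∏ k ∈ J, ((1 / 2) * (1 + |Part.κ B k| * ‖(mkPart B S hi X).cr k‖ ^ 2)) := by
  obtain ⟨gs', h1, h2, h3⟩ := TT_extract S hS J gs hgs (fun k _ => hmem k) (fun k _ => ⟨_, hi k⟩) X hX
  set X' := XOff (J.biUnion S) X with hX'
  have hok' : AllOK X' := XOff_ok hX
  rw [h3]
  have hTdis : ∀ k ∈ J, ∀ j, ∀ s ∈ (mkPart B S hi X).T j, s ∉ S k := by
    intro k _ j s hs hsk
    obtain ⟨hW, hnS, _⟩ := mkPart_T.mp hs
    by_cases hjk : j = k
    · subst hjk; exact hnS hsk
    · exact Finset.disjoint_left.mp (hpriv j k hjk) hsk hW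
  refine (mkQData B S hS hi hpriv X hX).label J (TT gs' X') (TT_herm _ hok') (TT_idem _ hok') ?_ ?_ ?_
  · intro k hk A hA
    have hmemT : TT gs' X' ∈ SA (Finset.univ \ S k) := by
      apply TT_mem_SA
      · intro g hg s hs
        simp only [Finset.mem_sdiff, Finset.mem_univ, true_and]
        exact fun hsk => Finset.disjoint_left.mp ((h2 g hg).2 k hk) hs hsk
      · intro s hs
        have hsk : s ∈ S k := by simpa using hs
        have : s ∈ J.biUnion S := Finset.mem_biUnion.mpr ⟨k, hk, hsk⟩
        simp [hX', XOff, this]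
    exact SA_commute Finset.sdiff_disjoint hmemT hA
  · intro k hk ω'
    have c1 := Pt_commute_Dl ((mkPart B S hi X).L k) ω' gs'
    have c2 : Commute (Pt ((mkPart B S hi X).L k) ω') (tensor X') := by
      apply tensor_commute_sitewise
      intro s
      by_cases hs : s ∈ (mkPart B S hi X).L k
      · have hs1 := (mkPart_L.mp hs).2.2
        have : X' s = 1 := by
          simp only [hX', XOff]
          split_ifs
          · rfl
          · exact hs1
        rw [this]
        exact Commute.one_right _
      · simp only [hs, if_false]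
        exact Commute.one_left _
    rw [TT]
    exact (((c1.mul_right c2).mul_right c1).symm)
  · apply norm_Ptr_TT _ _ _ hok'
    intro s hs
    obtain ⟨j, _, hsj⟩ := Finset.mem_biUnion.mp hs
    have hnot : s ∉ J.biUnion S := by
      intro h
      obtain ⟨k, hk, hsk⟩ := Finset.mem_biUnion.mp h
      exact hTdis k hk j s hsj hsk
    have e : X' s = X s := by simp [hX', XOff, hnot]
    rw [e]
    rcases hX s with h | h
    · exact absurd h (mkPart_T.mp hsj).2.2
    · exact h

end Label

end Vale.Agent.Lib.P368y
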