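import Vale.Agent.Lib.P368y.Surgery

/-!
The bound for a family of blocks with private gates.
-/

open scoped BigOperators Matrix Matrix.Norms.L2Operator

namespace Vale.Agent.Lib.P368y

open Vale.Agent.Lib.P368x

variable {N : ℕ} {ι : Type*} [DecidableEq ι]

namespace Part

variable {B : BData ι N} (R : Part B)

/-- The input state closest to the reflected state. -/
noncomputable def bst (B : BData ι N) (k : ι) : Bool := decide (κ B k < 0)

/-- The block with exact input and only the label left. -/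
noncomputable def nearB : BData ι N where
  W := fun k => insert (B.i k) (R.L k)
  i := B.i
  ψ := fun k => Function.update (B.ψ k) (B.i k) (B.α k (bst B k))
  e := B.e
  α := B.α
  hi := fun k => Finset.mem_insert_self _ _
  disj := by
    intro j k hjk
    refine Finset.disjoint_of_subset_left ?_ (Finset.disjoint_of_subset_right ?_ (B.disj j k hjk))
    · exact Finset.insert_subset (B.hi j) (R.L_sub j)
    · exact Finset.insert_subset (B.hi k) (R.L_sub k)
  hψ := by
    intro k s
    by_cases hs : s = B.i k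
    · subst hs
      simpa using (B.hα k).unit _
    · simpa [Function.update_of_ne hs] using B.hψ k s
  he := B.he
  hα := B.hα

lemma nearB_hn (k : ι) : R.nearB.ψ k (R.nearB.i k) = R.nearB.α k (bst B k) := by
  show Function.update (B.ψ k) (B.i k) (B.α k (bst B k)) (B.i k) = B.α k (bst B k)
  simp

lemma nearB_U (k : ι) : R.nearB.gar.U k = R.L k := by
  show (insert (B.i k) (R.L k)).erase (B.i k) = R.L k
  exact Finset.erase_insert (R.i_notMem_L k)

/-- The sites taken out of the block. -/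
noncomputable def M (k : ι) : Finset (Fin N) := (R.P k).erase (B.i k) ∪ R.T k

lemma i_notMem_M (k : ι) : B.i k ∉ R.M k := by
  intro h
  rcases Finset.mem_union.mp h with h | h
  · exact Finset.notMem_erase _ _ h
  · exact R.i_notMem_T k h

lemma M_sub (k : ι) : R.M k ⊆ B.W k :=
  Finset.union_subset ((Finset.erase_subset _ _).trans (R.P_sub k)) (R.T_sub k)

lemma L_M_disj (k : ι) : Disjoint (R.L k) (R.M k) := by
  rw [M, Finset.disjoint_union_right]
  exact ⟨(Finset.disjoint_of_subset_left (Finset.erase_subset _ _) (R.hPL k)).symm, (R.hTL k).symm⟩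

lemma W_eq_M (k : ι) : B.W k = insert (B.i k) (R.L k) ∪ R.M k := by
  rw [R.hW, M]
  ext s
  simp only [Finset.mem_union, Finset.mem_insert, Finset.mem_erase]
  constructor
  · rintro (h | h | h)
    · by_cases hs : s = B.i k
      · exact Or.inl (Or.inl hs)
      · exact Or.inr (Or.inl ⟨hs, h⟩)
    · exact Or.inr (Or.inr h)
    · exact Or.inl (Or.inr h)
  · rintro ((h | h) | ⟨_, h⟩ | h)
    · exact Or.inl (h ▸ R.hi k)
    · exact Or.inr (Or.inr h)
    · exact Or.inl h
    · exact Or.inr (Or.inl h)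

lemma W_eq_S (k : ι) : B.W k = R.L k ∪ insert (B.i k) (R.M k) := by
  rw [R.W_eq_M k]
  ext s
  simp only [Finset.mem_union, Finset.mem_insert]
  tauto

lemma cr_eq (k : ι) : R.cr k = ∏ s ∈ R.M k, ip (B.ψ k s) (B.e k s) := by
  rw [cr, cP, cT, M, Finset.prod_union]
  exact Finset.disjoint_of_subset_left (Finset.erase_subset _ _) (R.hPT k)

lemma norm_cL_le (k : ι) : ‖R.cL k‖ ≤ 1 :=
  norm_prod_ip_le _ _ _ (fun s _ => B.hψ k s) (fun s _ => B.he k s)

lemma norm_cr_le (k : ι) : ‖R.cr k‖ ≤ 1 := by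
  rw [cr_eq]
  exact norm_prod_ip_le _ _ _ (fun s _ => B.hψ k s) (fun s _ => B.he k s)

lemma f_bst (k : ι) : ‖B.f k (bst B k)‖ ^ 2 = (1 + |κ B k|) / 2 ∧
    ‖B.f k (!bst B k)‖ ^ 2 = (1 - |κ B k|) / 2 := by
  have hs := B.f_sum k
  by_cases h : κ B k < 0
  · have hb : bst B k = true := by simp [bst, h]
    rw [hb, abs_of_neg h, κ]
    constructor
    · linarith
    · simp only [Bool.not_true]
      linarith
  · have hb : bst B k = false := by simp [bst, h]
    rw [hb, abs_of_nonneg (not_lt.mp h), κ]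
    constructor
    · linarith
    · simp only [Bool.not_false]
      linarith

lemma abs_κ_le (k : ι) : |κ B k| ≤ 1 := by
  have hs := B.f_sum k
  have h0 := sq_nonneg ‖B.f k false‖
  have h1 := sq_nonneg ‖B.f k true‖
  rw [abs_le, κ]
  constructor <;> linarith

/-- The pair of the near block is close to the pair of the block. -/
theorem near_close (k : ι) (b : Bool) (η : ℝ) (hη : 0 ≤ η) (hk : 1 - η < |κ B k| * ‖R.cr k‖ ^ 2) :
    ‖B.K k b - R.nearB.K k b * Kt (R.M k) (B.e k)‖ ^ 2 ≤ 4 * η := by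
  set i := B.i k with hi
  set bs := bst B k with hbs
  set L := R.L k with hL
  set Mm := R.M k with hMm
  set ψ'' := Function.update (B.ψ k) i (B.α k bs) with hψ''
  set u := Function.update (B.e k) i (B.α k bs) with hu
  have hiL : i ∉ L := R.i_notMem_L k
  have hiM : i ∉ Mm := R.i_notMem_M k
  have hLM : Disjoint L Mm := R.L_M_disj k
  have hnear : R.nearB.K k b = Kt (insert i L) (B.eb k b) - R.nearB.z k b • Kt (insert i L) ψ'' := rfl
  have hz : R.nearB.z k b = 2 * (ip (B.α k bs) (B.α k b)) * R.cL k := by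
    show 2 * ip (Function.update (B.ψ k) i (B.α k bs) i) (B.α k b)
      * ∏ s ∈ (insert i L).erase i, ip (Function.update (B.ψ k) i (B.α k bs) s) (B.e k s) = _
    rw [Finset.erase_insert hiL, Function.update_self]
    congr 1
    refine Finset.prod_congr rfl fun s hs => ?_
    have : s ≠ i := fun h => hiL (h ▸ hs)
    rw [Function.update_of_ne this]
  have hcr : ∏ s ∈ Mm, ip (B.ψ k s) (B.e k s) = R.cr k := (R.cr_eq k).symm
  have hebM : Kt Mm (B.eb k b) = Kt Mm (B.e k) := by
    apply Kt_congr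
    intro s hs
    have : s ≠ i := fun h => hiM (h ▸ hs)
    rw [BData.eb, Function.update_of_ne this]
  have huM : Kt Mm u = Kt Mm (B.e k) := by
    apply Kt_congr
    intro s hs
    have : s ≠ i := fun h => hiM (h ▸ hs)
    rw [hu, Function.update_of_ne this]
  have hψL : Kt L ψ'' = Kt L (B.ψ k) := by
    apply Kt_congr
    intro s hs
    have : s ≠ i := fun h => hiL (h ▸ hs)
    rw [hψ'', Function.update_of_ne this]
  have e1 : Kt (insert i L) (B.eb k b) * Kt Mm (B.e k) = Kt (B.W k) (B.eb k b) := by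
    have hd : Disjoint (insert i L) Mm := by
      rw [Finset.disjoint_insert_left]
      exact ⟨hiM, hLM⟩
    rw [R.W_eq_M k, Kt_union _ _ hd, hebM]
  have hsite : Commute (site i (ket (B.α k bs))) (Kt L (B.ψ k)) :=
    SA_commute (S := {i}) (T := L) (Finset.disjoint_singleton_left.mpr hiL)
      (site_mem_SA (Finset.mem_singleton_self _) _) (Kt_mem_SA _ _)
  have e2 : Kt (insert i L) ψ'' * Kt Mm (B.e k) = Kt L (B.ψ k) * Kt (insert i Mm) u := by
    rw [Kt_erase (Finset.mem_insert_self i L), Finset.erase_insert hiL, hψL,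
      Kt_erase (Finset.mem_insert_self i Mm) u, Finset.erase_insert hiM, huM, hψ'', hu,
      Function.update_self, Function.update_self, hsite.eq, mul_assoc]
  have e3 : Kt (B.W k) (B.ψ k) = Kt L (B.ψ k) * Kt (insert i Mm) (B.ψ k) := by
    have hd : Disjoint L (insert i Mm) := by
      rw [Finset.disjoint_insert_right]
      exact ⟨hiL, hLM⟩
    rw [R.W_eq_S k, Kt_union _ _ hd]
  have hdiff : B.K k b - R.nearB.K k b * Kt Mm (B.e k)
      = Kt L (B.ψ k) * (R.nearB.z k b • Kt (insert i Mm) u - B.z k b • Kt (insert i Mm) (B.ψ k)) := by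
    rw [hnear, sub_mul, e1, smul_mul_assoc, e2, BData.K, e3, mul_sub, mul_smul_comm, mul_smul_comm]
    abel
  have hKL : ‖Kt L (B.ψ k)‖ ≤ 1 := norm_Kt_le _ _ fun s _ => B.hψ k s
  have hg : ∏ s ∈ insert i Mm, ip (B.ψ k s) (u s) = B.f k bs * R.cr k := by
    rw [Finset.prod_insert hiM, hu, Function.update_self, ← hcr]
    congr 1
    refine Finset.prod_congr rfl fun s hs => ?_
    have : s ≠ i := fun h => hiM (h ▸ hs)
    rw [Function.update_of_ne this]
  have hcB : B.z k b = 2 * B.f k b * (R.cr k * R.cL k) := by rw [BData.z, R.c_eq]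
  obtain ⟨hf1, hf2⟩ := f_bst (B := B) k
  rw [← hbs] at hf1 hf2
  have hk0 := abs_nonneg (κ B k)
  have hk1 := abs_κ_le (B := B) k
  have hx0 : 0 ≤ ‖R.cr k‖ ^ 2 := by positivity
  have hx1 : ‖R.cr k‖ ^ 2 ≤ 1 := pow_le_one₀ (norm_nonneg _) (R.norm_cr_le k)
  have hL0 : 0 ≤ ‖R.cL k‖ ^ 2 := by positivity
  have hL1 : ‖R.cL k‖ ^ 2 ≤ 1 := pow_le_one₀ (norm_nonneg _) (R.norm_cL_le k)
  rw [hdiff]
  have hstep : ∀ A : Op N, ‖Kt L (B.ψ k) * A‖ ^ 2 ≤ ‖A‖ ^ 2 := fun A =>
    pow_le_pow_left₀ (norm_nonneg _) (mul_norm_aux hKL) 2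
  refine (hstep _).trans ?_
  by_cases hb : b = bs
  · -- the reflected input
    have hip : ip (B.α k bs) (B.α k b) = 1 := by
      rw [(B.hα k).cols, if_pos hb.symm]
    have hA : R.nearB.z k b • Kt (insert i Mm) u - B.z k b • Kt (insert i Mm) (B.ψ k)
        = (2 * R.cL k) • (Kt (insert i Mm) u
            - (∏ s ∈ insert i Mm, ip (B.ψ k s) (u s)) • Kt (insert i Mm) (B.ψ k)) := by
      rw [hz, hip, hcB, hg, smul_sub, smul_smul, hb]
      congr 2
      ring_nf
      ring_nf
    rw [hA, norm_smul, mul_pow]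
    have hu1 : ∀ s ∈ insert i Mm, nsq (u s) = 1 := by
      intro s _
      by_cases hs : s = i
      · subst hs
        rw [hu, Function.update_self]
        exact (B.hα k).unit _
      · rw [hu, Function.update_of_ne hs]
        exact B.he k s
    have hp := Kt_proj_norm (insert i Mm) u (B.ψ k) hu1 (fun s _ => B.hψ k s)
    rw [hg, norm_mul, mul_pow, hf1] at hp
    have h2 : ‖(2 * R.cL k : ℂ)‖ ^ 2 = 4 * ‖R.cL k‖ ^ 2 := by
      rw [norm_mul, mul_pow]
      norm_num
    rw [h2, hg]
    have hg1 : 1 - η < (1 + |κ B k|) / 2 * ‖R.cr k‖ ^ 2 := by nlinarith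
    have hq := sq_nonneg ‖Kt (insert i Mm) u - (B.f k bs * R.cr k) • Kt (insert i Mm) (B.ψ k)‖
    nlinarith
  · -- the other input
    have hb' : b = !bs := by
      cases b <;> cases h : bs <;> simp_all
    have hip : ip (B.α k bs) (B.α k b) = 0 := by
      rw [(B.hα k).cols, if_neg (Ne.symm hb)]
    have hA : R.nearB.z k b • Kt (insert i Mm) u - B.z k b • Kt (insert i Mm) (B.ψ k)
        = (- B.z k b) • Kt (insert i Mm) (B.ψ k) := by
      rw [hz, hip]
      simp
    rw [hA, norm_smul, mul_pow, norm_neg]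
    have hKψ : ‖Kt (insert i Mm) (B.ψ k)‖ ≤ 1 := norm_Kt_le _ _ fun s _ => B.hψ k s
    have hKψ2 : ‖Kt (insert i Mm) (B.ψ k)‖ ^ 2 ≤ 1 := pow_le_one₀ (norm_nonneg _) hKψ
    have hzz : ‖B.z k b‖ ^ 2 = 4 * (‖B.f k b‖ ^ 2 * ‖R.cr k‖ ^ 2 * ‖R.cL k‖ ^ 2) := by
      rw [hcB]
      simp only [norm_mul, mul_pow]
      rw [show ‖(2 : ℂ)‖ ^ 2 = 4 by norm_num]
      ring
    rw [hb'] at hzz ⊢
    rw [hf2] at hzz
    have h1 : 1 - |κ B k| < η := by nlinarith
    have h3 : (1 - |κ B k|) / 2 * ‖R.cr k‖ ^ 2 ≤ η / 2 := by nlinarith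
    have h4 : (1 - |κ B k|) / 2 * ‖R.cr k‖ ^ 2 * ‖R.cL k‖ ^ 2 ≤ η / 2 := by
      have h5 : 0 ≤ (1 - |κ B k|) / 2 * ‖R.cr k‖ ^ 2 := by
        apply mul_nonneg _ hx0
        linarith
      nlinarith
    have hz0 : 0 ≤ ‖B.z k (!bs)‖ ^ 2 := by positivity
    nlinarith

end Part

/-- The rate of the bound for private families. -/
noncomputable def νp : ℝ := 1 - 2 / 10 ^ 7

lemma νp_nonneg : 0 ≤ νp := by unfold νp; norm_num

lemma νp_le_one : νp ≤ 1 := by unfold νp; norm_num

lemma pow_half_le {a : ℝ} (ha0 : 0 ≤ a) (ha : a ≤ νp ^ 2) {m n : ℕ} (h : n ≤ 2 * m) :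
    a ^ m ≤ νp ^ n := by
  have h1 : νp ^ (2 * m) ≤ νp ^ n := pow_le_pow_of_le_one νp_nonneg νp_le_one h
  refine le_trans ?_ h1
  rw [pow_mul]
  exact pow_le_pow_left₀ ha0 ha m

section FBT

variable (B : BData ι N) (S : ι → Finset (Fin N)) (hS : ∀ j k, j ≠ k → Disjoint (S j) (S k))
  (hi : ∀ k, B.i k ∈ S k) (hpriv : ∀ j k, j ≠ k → Disjoint (S k) (B.W j)) (X : Fin N → M2)
  (hX : AllOK X)

include hS hi hpriv hX

/-- The bound for a family of blocks with private gates. -/
theorem fbt [Fintype ι] (gs : List (Finset (Fin N))) (hgs : gs.Pairwise Disjoint)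
    (hmem : ∀ k, S k ∈ gs) (J : Finset ι) : ‖B.fam.EJ J (TT gs X)‖ ≤ νp ^ J.card := by
  classical
  set R := mkPart B S hi X with hR
  set η : ℝ := 1 / 10 ^ 6 with hη
  set cN : ι → Prop := fun k => 1 - η < |Part.κ B k| * ‖R.cr k‖ ^ 2 with hcN
  set JN := J.filter cN with hJN
  set JL := J.filter fun k => ¬ cN k with hJL
  have hcard : J.card = JN.card + JL.card := by
    rw [hJN, hJL, Finset.card_filter_add_card_filter_not]
  have hNrm := B.fam_nrm
  -- the label part
  have hLb : ‖B.fam.EJ JL (TT gs X)‖ ≤ (1 - η / 2) ^ JL.card := by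
    refine (label_TT B S hS hi hpriv X hX gs hgs hmem JL).trans ?_
    rw [← Finset.prod_const]
    apply Finset.prod_le_prod (fun _ _ => by positivity)
    intro k hk
    have hk' : ¬ cN k := (Finset.mem_filter.mp hk).2
    rw [hcN, not_lt] at hk'
    calc (1 / 2) * (1 + |Part.κ B k| * ‖R.cr k‖ ^ 2) ≤ (1 / 2) * (1 + (1 - η)) := by
          gcongr
      _ = _ := by ring
  -- the near part
  have hNb : ‖B.fam.EJ JN (TT gs X)‖ ≤ (999 / 1000 : ℝ) ^ JN.card := by
    have hS2 : ∀ g ∈ gs, ∀ k, B.i k ∈ g → g = S k := by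
      intro g hg k hk
      by_contra hne
      haveI : Std.Symm (Disjoint : Finset (Fin N) → Finset (Fin N) → Prop) := ⟨fun _ _ h => h.symm⟩
      exact Finset.disjoint_left.mp (hgs.forall hg (hmem k) hne) hk (hi k)
    have hL_S : ∀ j k, Disjoint (S k) (R.L j) := by
      intro j k
      rw [Finset.disjoint_left]
      intro s hs hs'
      obtain ⟨h1, h2, _⟩ := mkPart_L.mp hs'
      by_cases hjk : j = k
      · subst hjk
        exact h2 hs
      · exact Finset.disjoint_left.mp (hpriv j k hjk) hs h1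
    have hT : ∀ J' ⊆ JN, ‖R.nearB.fam.EJ J' (TT gs X)‖ ≤ (199 / 200 : ℝ) ^ J'.card := by
      intro J' _
      refine near_bound (bs := Part.bst B) R.nearB_hn gs hgs X hX ?_ ?_ J'
      · intro k s hs
        rw [R.nearB_U] at hs
        exact (mkPart_L.mp hs).2.2
      · intro g hg k hk
        have hg' : g = S k := hS2 g hg k hk
        subst hg'
        refine ⟨fun j => ?_, fun j hj h => ?_⟩
        · rw [R.nearB_U]
          exact hL_S j k
        · exact Finset.disjoint_left.mp (hpriv j k hj) h (B.hi j)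
    have := surgery B.fam R.nearB.fam (fun k => Kt (R.M k) (B.e k)) hNrm R.nearB.fam_nrm
      (fun k => Finset.insert_subset (B.hi k) (R.L_sub k))
      (fun k => SA_mono (R.M_sub k) (Kt_mem_SA _ _))
      (fun k => norm_Kt_le _ _ fun s _ => B.he k s) (TT gs X) (199 / 200) (1 / 500)
      (by norm_num) (by norm_num) JN
      (by
        intro k hk b
        have hk' : cN k := (Finset.mem_filter.mp hk).2
        have h1 := R.near_close k b η (by rw [hη]; norm_num) hk'
        refine abs_le_of_sq_le_sq' ?_ (by norm_num) |>.2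
        refine h1.trans ?_
        rw [hη]
        norm_num) hT
    refine this.trans (le_of_eq ?_)
    norm_num
  have hP := Fam.norm_EJ_mono hNrm (Finset.filter_subset cN J) (TT gs X)
  have hC := Fam.norm_EJ_mono hNrm (Finset.filter_subset (fun k => ¬ cN k) J) (TT gs X)
  rw [← hJN] at hP
  rw [← hJL] at hC
  by_cases hac : J.card ≤ 2 * JN.card
  · refine hP.trans (hNb.trans ?_)
    apply pow_half_le (by norm_num) _ hac
    unfold νp
    norm_num
  · have hcn : J.card ≤ 2 * JL.card := by omega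
    refine hC.trans (hLb.trans ?_)
    apply pow_half_le (by rw [hη]; norm_num) _ hcn
    unfold νp
    rw [hη]
    norm_num

end FBT

end Vale.Agent.Lib.P368y
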