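import Vale.Agent.Lib.P368y.Block

/-!
Diagonal gates, the conjugated product projector `TT gs X`, its splitting into gates, sectors.
-/

open scoped BigOperators Matrix Matrix.Norms.L2Operator

namespace Vale.Agent.Lib.P368y

open Vale.Agent.Lib.P368x

variable {N : ℕ}

lemma tensor_commute_sitewise {X Y : Fin N → M2} (h : ∀ s, Commute (X s) (Y s)) :
    Commute (tensor X) (tensor Y) := by
  show tensor X * tensor Y = tensor Y * tensor X
  rw [tensor_mul, tensor_mul]
  congr 1
  funext s
  exact (h s).eq

/-- All-ones projector on `S`. -/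
noncomputable def Pe (S : Finset (Fin N)) : Op N := tensor fun s => if s ∈ S then e11 else 1

/-- Multi-controlled phase gate on `S`. -/
noncomputable def Dg (S : Finset (Fin N)) : Op N := 1 - (2 : ℂ) • Pe S

lemma Pe_herm (S : Finset (Fin N)) : (Pe S)ᴴ = Pe S := by
  apply tensor_herm
  intro s
  by_cases hs : s ∈ S <;> simp [hs, e11_herm]

lemma Pe_idem (S : Finset (Fin N)) : Pe S * Pe S = Pe S := by
  apply tensor_idem
  intro s
  by_cases hs : s ∈ S <;> simp [hs, e11_idem]

lemma norm_Pe_le (S : Finset (Fin N)) : ‖Pe S‖ ≤ 1 := norm_le_one_of_proj' (Pe_herm S) (Pe_idem S)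

lemma Pe_mem_SA (S : Finset (Fin N)) : Pe S ∈ SA S := by
  apply tensor_mem_SA
  intro s hs
  simp [hs]

lemma Dg_mem_SA (S : Finset (Fin N)) : Dg S ∈ SA S :=
  sub_mem (one_mem _) (Subalgebra.smul_mem _ (Pe_mem_SA S) _)

lemma Pe_union (S T : Finset (Fin N)) (h : Disjoint S T) : Pe (S ∪ T) = Pe S * Pe T := by
  rw [Pe, Pe, Pe, tensor_mul]
  congr 1
  funext s
  by_cases hs : s ∈ S
  · have : s ∉ T := Finset.disjoint_left.mp h hs
    simp [hs, this]
  · by_cases ht : s ∈ T <;> simp [hs, ht]

@[simp] lemma Pe_empty : Pe (∅ : Finset (Fin N)) = 1 := by simp [Pe, tensor_one]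

lemma Pe_commute_tensor {S : Finset (Fin N)} {Y : Fin N → M2} (h : ∀ s ∈ S, Commute e11 (Y s)) :
    Commute (Pe S) (tensor Y) := by
  apply tensor_commute_sitewise
  intro s
  by_cases hs : s ∈ S
  · simpa [hs] using h s hs
  · simp [hs]

lemma Dg_commute_tensor {S : Finset (Fin N)} {Y : Fin N → M2} (h : ∀ s ∈ S, Commute e11 (Y s)) :
    Commute (Dg S) (tensor Y) :=
  (Commute.one_left _).sub_left ((Pe_commute_tensor h).smul_left _)

lemma Pe_commute (S T : Finset (Fin N)) : Commute (Pe S) (Pe T) := by
  apply Pe_commute_tensor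
  intro s _
  by_cases ht : s ∈ T <;> simp [ht, Commute.refl]

lemma Dg_commute (S T : Finset (Fin N)) : Commute (Dg S) (Dg T) :=
  (Commute.one_left _).sub_left (((Commute.one_right _).sub_right
    ((Pe_commute S T).smul_right _)).smul_left _)

lemma Dg_herm (S : Finset (Fin N)) : (Dg S)ᴴ = Dg S := by
  simp [Dg, Matrix.conjTranspose_sub, Matrix.conjTranspose_smul, Pe_herm]

lemma Dg_sq (S : Finset (Fin N)) : Dg S * Dg S = 1 := by
  simp only [Dg, mul_sub, sub_mul, mul_one, one_mul, smul_mul_assoc, mul_smul_comm, Pe_idem]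
  ext a b
  simp only [Matrix.sub_apply, Matrix.smul_apply, smul_eq_mul]
  ring

/-- Product of the gates of a list. -/
noncomputable def Dl (gs : List (Finset (Fin N))) : Op N := (gs.map Dg).prod

@[simp] lemma Dl_nil : Dl ([] : List (Finset (Fin N))) = 1 := rfl

@[simp] lemma Dl_cons (g : Finset (Fin N)) (gs : List (Finset (Fin N))) : Dl (g :: gs) = Dg g * Dl gs := by
  simp [Dl]

lemma Dl_commute_Dg (S : Finset (Fin N)) (gs : List (Finset (Fin N))) : Commute (Dg S) (Dl gs) := by
  induction gs with
  | nil => simp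
  | cons g gs ih =>
    rw [Dl_cons]
    exact (Dg_commute S g).mul_right ih

lemma Dl_commute_tensor {gs : List (Finset (Fin N))} {Y : Fin N → M2}
    (h : ∀ g ∈ gs, ∀ s ∈ g, Commute e11 (Y s)) : Commute (Dl gs) (tensor Y) := by
  induction gs with
  | nil => simp
  | cons g gs ih =>
    rw [Dl_cons]
    exact (Dg_commute_tensor (h g (List.mem_cons_self ..))).mul_left
      (ih fun k hk => h k (List.mem_cons_of_mem _ hk))

lemma Dl_herm (gs : List (Finset (Fin N))) : (Dl gs)ᴴ = Dl gs := by
  induction gs with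
  | nil => simp
  | cons g gs ih =>
    rw [Dl_cons, Matrix.conjTranspose_mul, ih, Dg_herm]
    exact (Dl_commute_Dg g gs).symm.eq

lemma Dl_sq (gs : List (Finset (Fin N))) : Dl gs * Dl gs = 1 := by
  induction gs with
  | nil => simp
  | cons g gs ih =>
    rw [Dl_cons]
    calc Dg g * Dl gs * (Dg g * Dl gs) = Dg g * (Dl gs * Dg g) * Dl gs := by simp only [mul_assoc]
      _ = Dg g * (Dg g * Dl gs) * Dl gs := by rw [(Dl_commute_Dg g gs).symm.eq]
      _ = (Dg g * Dg g) * (Dl gs * Dl gs) := by simp only [mul_assoc]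
      _ = 1 := by rw [Dg_sq, ih, one_mul]

lemma norm_Dl_le (gs : List (Finset (Fin N))) : ‖Dl gs‖ ≤ 1 := by
  have h : ‖(Dl gs)ᴴ * Dl gs‖ = ‖Dl gs‖ * ‖Dl gs‖ := Matrix.l2_opNorm_conjTranspose_mul_self _
  rw [Dl_herm, Dl_sq, norm_one] at h
  nlinarith [norm_nonneg (Dl gs)]

lemma Dl_perm {gs gs' : List (Finset (Fin N))} (h : gs.Perm gs') : Dl gs = Dl gs' := by
  induction h with
  | nil => rfl
  | cons x _ ih => rw [Dl_cons, Dl_cons, ih]
  | swap x y l =>
    rw [Dl_cons, Dl_cons, Dl_cons, Dl_cons, ← mul_assoc, ← mul_assoc, (Dg_commute x y).eq]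
  | trans _ _ h1 h2 => rw [h1, h2]

lemma Dl_mem_SA {gs : List (Finset (Fin N))} {T : Finset (Fin N)} (h : ∀ g ∈ gs, g ⊆ T) :
    Dl gs ∈ SA T := by
  induction gs with
  | nil => exact one_mem _
  | cons g gs ih =>
    rw [Dl_cons]
    exact mul_mem (SA_mono (h g (List.mem_cons_self ..)) (Dg_mem_SA g))
      (ih fun k hk => h k (List.mem_cons_of_mem _ hk))

/-- The conjugated product operator. -/
noncomputable def TT (gs : List (Finset (Fin N))) (X : Fin N → M2) : Op N :=
  Dl gs * tensor X * Dl gs

lemma TT_perm {gs gs' : List (Finset (Fin N))} (h : gs.Perm gs') (X : Fin N → M2) :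
    TT gs X = TT gs' X := by
  rw [TT, TT, Dl_perm h]

def AllOK (X : Fin N → M2) : Prop := ∀ s, SiteOK (X s)

lemma tensor_herm_ok {X : Fin N → M2} (hX : AllOK X) : (tensor X)ᴴ = tensor X :=
  tensor_herm fun s => (hX s).herm

lemma tensor_idem_ok {X : Fin N → M2} (hX : AllOK X) : tensor X * tensor X = tensor X :=
  tensor_idem fun s => (hX s).idem

lemma norm_tensor_ok {X : Fin N → M2} (hX : AllOK X) : ‖tensor X‖ ≤ 1 :=
  norm_tensor_le_one X fun s => (hX s).norm_le

lemma TT_herm (gs : List (Finset (Fin N))) {X : Fin N → M2} (hX : AllOK X) : (TT gs X)ᴴ = TT gs X := by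
  rw [TT, Matrix.conjTranspose_mul, Matrix.conjTranspose_mul, Dl_herm, tensor_herm_ok hX, mul_assoc]

lemma TT_idem (gs : List (Finset (Fin N))) {X : Fin N → M2} (hX : AllOK X) :
    TT gs X * TT gs X = TT gs X := by
  rw [TT]
  calc Dl gs * tensor X * Dl gs * (Dl gs * tensor X * Dl gs)
      = Dl gs * tensor X * (Dl gs * Dl gs) * tensor X * Dl gs := by simp only [mul_assoc]
    _ = Dl gs * (tensor X * tensor X) * Dl gs := by rw [Dl_sq, mul_one]; simp only [mul_assoc]
    _ = _ := by rw [tensor_idem_ok hX]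

lemma norm_TT_le (gs : List (Finset (Fin N))) {X : Fin N → M2} (hX : AllOK X) : ‖TT gs X‖ ≤ 1 :=
  norm_le_one_of_proj' (TT_herm gs hX) (TT_idem gs hX)

lemma TT_mem_SA {gs : List (Finset (Fin N))} {X : Fin N → M2} {T : Finset (Fin N)}
    (h : ∀ g ∈ gs, g ⊆ T) (hX : ∀ s, s ∉ T → X s = 1) : TT gs X ∈ SA T :=
  mul_mem (mul_mem (Dl_mem_SA h) (tensor_mem_SA hX)) (Dl_mem_SA h)

/-- `X` restricted to `g`. -/
def XOn (g : Finset (Fin N)) (X : Fin N → M2) : Fin N → M2 := fun s => if s ∈ g then X s else 1

/-- `X` with `g` removed. -/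
def XOff (g : Finset (Fin N)) (X : Fin N → M2) : Fin N → M2 := fun s => if s ∈ g then 1 else X s

lemma XOn_ok {g : Finset (Fin N)} {X : Fin N → M2} (hX : AllOK X) : AllOK (XOn g X) := by
  intro s
  by_cases hs : s ∈ g
  · simpa [XOn, hs] using hX s
  · simp only [XOn, hs, if_false]; exact Or.inl rfl

lemma XOff_ok {g : Finset (Fin N)} {X : Fin N → M2} (hX : AllOK X) : AllOK (XOff g X) := by
  intro s
  by_cases hs : s ∈ g
  · simp only [XOff, hs, if_true]; exact Or.inl rfl
  · simpa [XOff, hs] using hX s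

lemma tensor_split (g : Finset (Fin N)) (X : Fin N → M2) :
    tensor X = tensor (XOn g X) * tensor (XOff g X) := by
  rw [tensor_mul]
  congr 1
  funext s
  by_cases hs : s ∈ g <;> simp [XOn, XOff, hs]

lemma tensor_XOn_mem (g : Finset (Fin N)) (X : Fin N → M2) : tensor (XOn g X) ∈ SA g := by
  apply tensor_mem_SA
  intro s hs
  simp [XOn, hs]

/-- The gate operator. -/
noncomputable def Qg (g : Finset (Fin N)) (X : Fin N → M2) : Op N :=
  Dg g * tensor (XOn g X) * Dg g

lemma Qg_eq_TT (g : Finset (Fin N)) (X : Fin N → M2) : Qg g X = TT [g] (XOn g X) := by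
  simp [Qg, TT]

lemma Qg_herm (g : Finset (Fin N)) {X : Fin N → M2} (hX : AllOK X) : (Qg g X)ᴴ = Qg g X := by
  rw [Qg_eq_TT]; exact TT_herm _ (XOn_ok hX)

lemma Qg_idem (g : Finset (Fin N)) {X : Fin N → M2} (hX : AllOK X) : Qg g X * Qg g X = Qg g X := by
  rw [Qg_eq_TT]; exact TT_idem _ (XOn_ok hX)

lemma norm_Qg_le (g : Finset (Fin N)) {X : Fin N → M2} (hX : AllOK X) : ‖Qg g X‖ ≤ 1 :=
  norm_le_one_of_proj' (Qg_herm g hX) (Qg_idem g hX)

lemma Qg_mem_SA (g : Finset (Fin N)) (X : Fin N → M2) : Qg g X ∈ SA g :=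
  mul_mem (mul_mem (Dg_mem_SA g) (tensor_XOn_mem g X)) (Dg_mem_SA g)

/-- The first gate of a list splits off. -/
lemma TT_cons (g : Finset (Fin N)) (gs : List (Finset (Fin N))) (X : Fin N → M2)
    (hd : ∀ h ∈ gs, Disjoint g h) : TT (g :: gs) X = Qg g X * TT gs (XOff g X) := by
  have c1 : Commute (Dg g) (tensor (XOff g X)) := by
    refine SA_commute (S := g) (T := Finset.univ \ g) Finset.disjoint_sdiff (Dg_mem_SA g) ?_
    apply tensor_mem_SA
    intro s hs
    have : s ∈ g := by simpa using hs
    simp [XOff, this]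
  have c2 : Commute (Dl gs) (tensor (XOn g X)) := by
    refine (SA_commute (S := g) (T := Finset.univ \ g) Finset.disjoint_sdiff
      (tensor_XOn_mem g X) ?_).symm
    apply Dl_mem_SA
    intro h hh s hs
    simp only [Finset.mem_sdiff, Finset.mem_univ, true_and]
    exact fun hg => (Finset.disjoint_left.mp (hd h hh)) hg hs
  have c3 := Dl_commute_Dg g gs
  rw [TT, Dl_cons, tensor_split g X, Qg, TT]
  calc Dg g * Dl gs * (tensor (XOn g X) * tensor (XOff g X)) * (Dg g * Dl gs)
      = Dg g * (Dl gs * tensor (XOn g X)) * (tensor (XOff g X) * Dg g) * Dl gs := by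
        simp only [mul_assoc]
    _ = Dg g * (tensor (XOn g X) * Dl gs) * (Dg g * tensor (XOff g X)) * Dl gs := by
        rw [c2.eq, c1.eq]
    _ = Dg g * tensor (XOn g X) * (Dl gs * Dg g) * tensor (XOff g X) * Dl gs := by
        simp only [mul_assoc]
    _ = Dg g * tensor (XOn g X) * (Dg g * Dl gs) * tensor (XOff g X) * Dl gs := by
        rw [c3.symm.eq]
    _ = _ := by simp only [mul_assoc]

/-- The sitewise diagonal projectors. -/
lemma commute_e11_e00 : Commute e11 e00 := by
  show e11 * e00 = e00 * e11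
  rw [e11_mul_e00, e00_mul_e11]

/-- Gates with the site `s` forced to `false`: those containing `s` switch off. -/
def secZero (s : Fin N) (gs : List (Finset (Fin N))) : List (Finset (Fin N)) :=
  gs.filter fun g => s ∉ g

/-- Gates with the site `s` forced to `true`: `s` is erased from each gate. -/
def secOne (s : Fin N) (gs : List (Finset (Fin N))) : List (Finset (Fin N)) :=
  gs.map fun g => g.erase s

lemma Pe_erase {s : Fin N} {g : Finset (Fin N)} (hs : s ∈ g) : Pe g = site s e11 * Pe (g.erase s) := by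
  rw [site, Pe, Pe, tensor_mul]
  congr 1
  funext t
  by_cases ht : t = s
  · subst ht; simp [hs]
  · simp [ht, Finset.mem_erase]

lemma P0_add_P1 (s : Fin N) : site s e00 + site s e11 = 1 := by
  rw [← site_add, e00_add_e11, site_one]

lemma P0_mul_P1 (s : Fin N) : site s e00 * site s e11 = 0 := by
  rw [← site_mul, e00_mul_e11]
  have := site_smul s 0 (1 : M2)
  simpa using this

lemma P1_mul_P0 (s : Fin N) : site s e11 * site s e00 = 0 := by
  rw [← site_mul, e11_mul_e00]
  have := site_smul s 0 (1 : M2)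
  simpa using this

lemma P0_idem (s : Fin N) : site s e00 * site s e00 = site s e00 := by rw [← site_mul, e00_idem]
lemma P1_idem (s : Fin N) : site s e11 * site s e11 = site s e11 := by rw [← site_mul, e11_idem]

lemma P0_herm (s : Fin N) : (site s e00)ᴴ = site s e00 := by rw [site_conjTranspose, e00_herm]

lemma site_commute_Dg (s : Fin N) (A : M2) (hA : Commute e11 A) (g : Finset (Fin N)) :
    Commute (site s A) (Dg g) := by
  refine (Dg_commute_tensor ?_).symm
  intro t _
  by_cases ht : t = s
  · subst ht; simpa using hA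
  · simp [ht]

lemma site_commute_Dl (s : Fin N) (A : M2) (hA : Commute e11 A) (gs : List (Finset (Fin N))) :
    Commute (site s A) (Dl gs) := by
  refine (Dl_commute_tensor ?_).symm
  intro g _ t _
  by_cases ht : t = s
  · subst ht; simpa using hA
  · simp [ht]

lemma Dl_sector (s : Fin N) (gs : List (Finset (Fin N))) :
    Dl gs = site s e00 * Dl (secZero s gs) + site s e11 * Dl (secOne s gs) := by
  induction gs with
  | nil =>
    simp only [secZero, secOne, List.filter_nil, List.map_nil, Dl_nil, mul_one]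
    exact (P0_add_P1 s).symm
  | cons g gs ih =>
    have hcomm : Commute (site s e11) (Dg (g.erase s)) :=
      site_commute_Dg s e11 (Commute.refl _) _
    have hcomm0 : Commute (site s e00) (Dg (g.erase s)) :=
      site_commute_Dg s e00 commute_e11_e00 _
    by_cases hs : s ∈ g
    · have e1 : secZero s (g :: gs) = secZero s gs := by simp [secZero, hs]
      have e2 : secOne s (g :: gs) = g.erase s :: secOne s gs := by simp [secOne]
      have e3 : Dg g = site s e00 + site s e11 * Dg (g.erase s) := by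
        rw [Dg, Pe_erase hs, Dg, mul_sub, mul_one, mul_smul_comm, ← P0_add_P1 s]
        abel
      rw [e1, e2, Dl_cons, Dl_cons, e3, ih]
      simp only [mul_add, add_mul]
      have a1 : site s e00 * (site s e00 * Dl (secZero s gs)) = site s e00 * Dl (secZero s gs) := by
        rw [← mul_assoc, P0_idem]
      have a2 : site s e00 * (site s e11 * Dl (secOne s gs)) = 0 := by
        rw [← mul_assoc, P0_mul_P1, zero_mul]
      have a3 : site s e11 * Dg (g.erase s) * (site s e00 * Dl (secZero s gs)) = 0 := by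
        rw [mul_assoc, ← mul_assoc (Dg _), hcomm0.symm.eq, mul_assoc, ← mul_assoc, P1_mul_P0,
          zero_mul]
      have a4 : site s e11 * Dg (g.erase s) * (site s e11 * Dl (secOne s gs))
          = site s e11 * (Dg (g.erase s) * Dl (secOne s gs)) := by
        rw [mul_assoc, ← mul_assoc (Dg _), hcomm.symm.eq, mul_assoc, ← mul_assoc, P1_idem]
      rw [a1, a2, a3, a4]
      simp
    · have e1 : secZero s (g :: gs) = g :: secZero s gs := by simp [secZero, hs]
      have e2 : secOne s (g :: gs) = g.erase s :: secOne s gs := by simp [secOne]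
      have e4 : g.erase s = g := Finset.erase_eq_of_notMem hs
      rw [e1, e2, e4, Dl_cons, Dl_cons, Dl_cons, ih]
      have c0 : Commute (Dg g) (site s e00) := (site_commute_Dg s e00 commute_e11_e00 g).symm
      have c1 : Commute (Dg g) (site s e11) := (site_commute_Dg s e11 (Commute.refl _) g).symm
      rw [mul_add, ← mul_assoc, ← mul_assoc, c0.eq, c1.eq]
      simp only [mul_assoc]

/-- Sector decomposition of `TT` at an untested site. -/
lemma TT_sector (s : Fin N) (gs : List (Finset (Fin N))) (X : Fin N → M2) (hX : X s = 1) :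
    TT gs X = site s e00 * TT (secZero s gs) X + (1 - site s e00) * TT (secOne s gs) X := by
  have h1 : (1 : Op N) - site s e00 = site s e11 := by rw [← P0_add_P1 s]; abel
  rw [h1]
  set A := Dl (secZero s gs) with hA
  set B := Dl (secOne s gs) with hB
  have hX0 : Commute (site s e00) (tensor X) := by
    apply tensor_commute
    intro t
    by_cases ht : t = s
    · right; subst ht; exact hX
    · left; simp [ht]
  have hX1 : Commute (site s e11) (tensor X) := by
    apply tensor_commute
    intro t
    by_cases ht : t = s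
    · right; subst ht; exact hX
    · left; simp [ht]
  have cA0 : Commute (site s e00) A := site_commute_Dl s e00 commute_e11_e00 _
  have cB1 : Commute (site s e11) B := site_commute_Dl s e11 (Commute.refl _) _
  have cA1 : Commute (site s e11) A := site_commute_Dl s e11 (Commute.refl _) _
  have cB0 : Commute (site s e00) B := site_commute_Dl s e00 commute_e11_e00 _
  rw [TT, Dl_sector s gs, TT, TT, ← hA, ← hB]
  set P := site s e00 with hP
  set Q := site s e11 with hQ
  set Y := tensor X with hY
  have hPQ : P * Q = 0 := P0_mul_P1 s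
  have hQP : Q * P = 0 := P1_mul_P0 s
  have hPP : P * P = P := P0_idem s
  have hQQ : Q * Q = Q := P1_idem s
  have t1 : (P * A) * Y * (P * A) = P * (A * Y * A) := by
    calc (P * A) * Y * (P * A) = P * A * Y * P * A := by simp only [mul_assoc]
      _ = P * (P * (A * Y)) * A := by
        have : A * Y * P = P * (A * Y) := ((cA0.mul_right hX0).eq).symm
        rw [mul_assoc P A Y, mul_assoc P (A * Y) P, this]
      _ = _ := by rw [← mul_assoc P P, hPP]; simp only [mul_assoc]
  have t2 : (Q * B) * Y * (Q * B) = Q * (B * Y * B) := by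
    calc (Q * B) * Y * (Q * B) = Q * B * Y * Q * B := by simp only [mul_assoc]
      _ = Q * (Q * (B * Y)) * B := by
        have : B * Y * Q = Q * (B * Y) := ((cB1.mul_right hX1).eq).symm
        rw [mul_assoc Q B Y, mul_assoc Q (B * Y) Q, this]
      _ = _ := by rw [← mul_assoc Q Q, hQQ]; simp only [mul_assoc]
  have t3 : (P * A) * Y * (Q * B) = 0 := by
    calc (P * A) * Y * (Q * B) = P * (A * Y * Q) * B := by simp only [mul_assoc]
      _ = P * (Q * (A * Y)) * B := by
        have : A * Y * Q = Q * (A * Y) := ((cA1.mul_right hX1).eq).symm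
        rw [this]
      _ = (P * Q) * (A * Y) * B := by simp only [mul_assoc]
      _ = 0 := by rw [hPQ]; simp
  have t4 : (Q * B) * Y * (P * A) = 0 := by
    calc (Q * B) * Y * (P * A) = Q * (B * Y * P) * A := by simp only [mul_assoc]
      _ = Q * (P * (B * Y)) * A := by
        have : B * Y * P = P * (B * Y) := ((cB0.mul_right hX0).eq).symm
        rw [this]
      _ = (Q * P) * (B * Y) * A := by simp only [mul_assoc]
      _ = 0 := by rw [hQP]; simp
  simp only [add_mul, mul_add]
  rw [t1, t2, t3, t4]
  simp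

lemma notMem_secZero {s : Fin N} {gs : List (Finset (Fin N))} {g : Finset (Fin N)}
    (hg : g ∈ secZero s gs) : s ∉ g := by
  simp only [secZero, List.mem_filter, decide_eq_true_eq] at hg
  exact hg.2

lemma notMem_secOne {s : Fin N} {gs : List (Finset (Fin N))} {g : Finset (Fin N)}
    (hg : g ∈ secOne s gs) : s ∉ g := by
  simp only [secOne, List.mem_map] at hg
  obtain ⟨h, _, rfl⟩ := hg
  exact Finset.notMem_erase _ _

/-- The operator `TT gs X` acts trivially on sites in no gate with `X s = 1`. -/
lemma TT_commute_site {gs : List (Finset (Fin N))} {X : Fin N → M2} {s : Fin N}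
    (h : ∀ g ∈ gs, s ∉ g) (hX : X s = 1) (A : M2) : Commute (site s A) (TT gs X) := by
  refine SA_commute (S := {s}) (T := Finset.univ \ {s}) Finset.disjoint_sdiff
    (site_mem_SA (Finset.mem_singleton_self s) A) ?_
  apply TT_mem_SA
  · intro g hg t ht
    simp only [Finset.mem_sdiff, Finset.mem_univ, true_and, Finset.mem_singleton]
    rintro rfl
    exact h g hg ht
  · intro t ht
    have : t = s := by simpa using ht
    rw [this, hX]

lemma secZero_pairwise {s : Fin N} {gs : List (Finset (Fin N))}
    (h : gs.Pairwise Disjoint) : (secZero s gs).Pairwise Disjoint :=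
  List.Pairwise.filter _ h

lemma secOne_pairwise {s : Fin N} {gs : List (Finset (Fin N))}
    (h : gs.Pairwise Disjoint) : (secOne s gs).Pairwise Disjoint := by
  rw [secOne, List.pairwise_map]
  refine h.imp ?_
  intro a b hab
  exact Finset.disjoint_of_subset_left (Finset.erase_subset _ _)
    (Finset.disjoint_of_subset_right (Finset.erase_subset _ _) hab)

end Vale.Agent.Lib.P368y
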