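import Vale.Agent.Lib.P368y.Core

/-!
Blocks whose inputs share a gate, or have at most one input in each gate.
-/

open scoped BigOperators Matrix Matrix.Norms.L2Operator

namespace Vale.Agent.Lib.P368y

open Vale.Agent.Lib.P368x

variable {N : ℕ} {ι : Type*} [DecidableEq ι]

section One

variable (B : BData ι N)

/-- The core bound when each gate contains at most one input. -/
theorem core_one [Fintype ι] (n : ℕ) : ∀ (gs : List (Finset (Fin N))) (X : Fin N → M2)
    (_ : gs.Pairwise Disjoint) (_ : AllOK X)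
    (_ : ∀ g ∈ gs, ∀ j k, B.i j ∈ g → B.i k ∈ g → j = k)
    (_ : (Finset.univ.filter fun k => ∀ g ∈ gs, B.i k ∉ g).card = n)
    (m : ℕ) (_ : 2 * M₀ * m ≤ Fintype.card ι),
    ‖B.fam.EJ Finset.univ (TT gs X)‖ ≤ νc ^ m := by
  classical
  induction n with
  | zero =>
    intro gs X hgs hX hone hcard m hm
    have hall : ∀ k, ∃ g ∈ gs, B.i k ∈ g := by
      intro k
      by_contra hc
      push_neg at hc
      have : k ∈ Finset.univ.filter fun k => ∀ g ∈ gs, B.i k ∉ g := by
        simp only [Finset.mem_filter, Finset.mem_univ, true_and]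
        exact hc
      rw [Finset.card_eq_zero.mp hcard] at this
      exact Finset.notMem_empty _ this
    choose S hS1 hS2 using hall
    have hSd : ∀ j k, j ≠ k → Disjoint (S j) (S k) := by
      intro j k hjk
      have hne : S j ≠ S k := by
        intro he
        exact hjk (hone (S k) (hS1 k) j k (he ▸ hS2 j) (hS2 k))
      haveI : Std.Symm (Disjoint : Finset (Fin N) → Finset (Fin N) → Prop) := ⟨fun _ _ h => h.symm⟩
      exact hgs.forall (hS1 j) (hS1 k) hne
    exact core B S hSd hS2 X hX gs hgs hS1 m hm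
  | succ n ih =>
    intro gs X hgs hX hone hcard m hm
    have hne : (Finset.univ.filter fun k => ∀ g ∈ gs, B.i k ∉ g).Nonempty := by
      rw [← Finset.card_pos, hcard]
      omega
    obtain ⟨k₀, hk₀⟩ := hne
    have hk₀' : ∀ g ∈ gs, B.i k₀ ∉ g := by simpa using hk₀
    set i₀ := B.i k₀ with hi₀
    set X' := Function.update X i₀ (pauliZ * X i₀ * pauliZ) with hX'
    rw [← TT_singleton i₀ gs X]
    have hoff : ∀ s, s ≠ i₀ → X' s = X s := fun s hs => Function.update_of_ne hs _ _
    refine ih ({i₀} :: gs) X' ?_ ?_ ?_ ?_ m hm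
    · rw [List.pairwise_cons]
      refine ⟨fun g hg => Finset.disjoint_singleton_left.mpr (hk₀' g hg), hgs⟩
    · intro s
      by_cases hs : s = i₀
      · subst hs
        simp only [hX', Function.update_self]
        exact siteOK_conjZ (hX _)
      · rw [hoff s hs]; exact hX s
    · intro g hg j k hj hk
      rcases List.mem_cons.mp hg with rfl | hg'
      · exact B.i_inj ((Finset.mem_singleton.mp hj).trans (Finset.mem_singleton.mp hk).symm)
      · exact hone g hg' j k hj hk
    · have hsub : (Finset.univ.filter fun k => ∀ g ∈ {i₀} :: gs, B.i k ∉ g)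
          = (Finset.univ.filter fun k => ∀ g ∈ gs, B.i k ∉ g).erase k₀ := by
        ext k
        simp only [Finset.mem_filter, Finset.mem_univ, true_and, List.mem_cons, forall_eq_or_imp,
          Finset.mem_erase, Finset.mem_singleton]
        constructor
        · rintro ⟨h1, h2⟩
          exact ⟨fun h => h1 (h ▸ rfl), h2⟩
        · rintro ⟨h1, h2⟩
          exact ⟨fun h => h1 (B.i_inj h), h2⟩
      rw [hsub, Finset.card_erase_of_mem hk₀, hcard]
      rfl

/-- The projectors at the inputs. -/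
noncomputable def BData.inQ : QFam ι N where
  S := fun k => {B.i k}
  Q := fun k => site (B.i k) e11
  hQmem := fun k => site_mem_SA (Finset.mem_singleton_self _) _
  hQh := fun k => by rw [site_conjTranspose, e11_herm]
  hQ2 := fun k => by rw [← site_mul, e11_idem]
  hSd := fun j k h => Finset.disjoint_singleton.mpr fun e => h (B.i_inj e)

lemma Ab_input (k : ι) : ‖Ab (B.K k) (site (B.i k) e11)‖ ≤ 1 / 2 := by
  rw [Ab_apply, B.sum_site k e11]
  have h : e11 false false + e11 true true = 1 := by simp [e11]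
  rw [h, one_smul, norm_smul, norm_half]
  have := norm_Pr_le (B.W k)
  linarith

lemma norm_AJ_inQ (J : Finset ι) : ‖B.fam.AJ J (B.inQ.QP J)‖ ≤ (1 / 2 : ℝ) ^ J.card := by
  refine (norm_AJ_QP B.fam_nrm B.inQ (fun j k hjk => ?_) J).trans ?_
  · exact Finset.disjoint_singleton_left.mpr fun h =>
      Finset.disjoint_left.mp (B.disj j k hjk) (B.hi j) h
  · rw [← Finset.prod_const]
    exact Finset.prod_le_prod (fun _ _ => norm_nonneg _) fun k _ => Ab_input B k

/-- A peeled operator is small. -/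
lemma peel_small_left (J : Finset ι) (Y : Op N) (hY : ‖Y‖ ≤ 1) :
    ‖B.fam.EJ J (B.inQ.QP J * Y)‖ ≤ (3 / 4 : ℝ) ^ J.card := by
  have h := peel_left B.fam_nrm J (B.inQ.QP_herm J) (B.inQ.QP_idem J) Y
  have h2 := norm_AJ_inQ B J
  refine abs_le_of_sq_le_sq' (h.trans ?_) (by positivity) |>.2
  have h3 : ‖Y‖ ^ 2 ≤ 1 := pow_le_one₀ (norm_nonneg _) hY
  calc _ ≤ (1 / 2 : ℝ) ^ J.card * 1 := by gcongr
    _ = (1 / 2 : ℝ) ^ J.card := mul_one _
    _ ≤ ((3 / 4 : ℝ) ^ 2) ^ J.card := pow_le_pow_left₀ (by norm_num) (by norm_num) _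
    _ = _ := by rw [← pow_mul, ← pow_mul, mul_comm]

lemma peel_small_right (J : Finset ι) (Y : Op N) (hY : ‖Y‖ ≤ 1) :
    ‖B.fam.EJ J (Y * B.inQ.QP J)‖ ≤ (3 / 4 : ℝ) ^ J.card := by
  have h := peel_right B.fam_nrm J (B.inQ.QP_herm J) (B.inQ.QP_idem J) Y
  have h2 := norm_AJ_inQ B J
  refine abs_le_of_sq_le_sq' (h.trans ?_) (by positivity) |>.2
  have h3 : ‖Y‖ ^ 2 ≤ 1 := pow_le_one₀ (norm_nonneg _) hY
  calc _ ≤ (1 / 2 : ℝ) ^ J.card * 1 := by gcongr
    _ = (1 / 2 : ℝ) ^ J.card := mul_one _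
    _ ≤ ((3 / 4 : ℝ) ^ 2) ^ J.card := pow_le_pow_left₀ (by norm_num) (by norm_num) _
    _ = _ := by rw [← pow_mul, ← pow_mul, mul_comm]

lemma QP_mul_Pe (J : Finset ι) (g : Finset (Fin N)) (hg : ∀ k ∈ J, B.i k ∈ g) :
    B.inQ.QP J * Pe g = Pe g := by
  induction J using Finset.induction_on with
  | empty => simp
  | insert k J hk ih =>
    rw [QFam.QP_insert _ hk, mul_assoc, ih fun j hj => hg j (Finset.mem_insert_of_mem hj)]
    show site (B.i k) e11 * Pe g = Pe g
    rw [Pe_erase (hg k (Finset.mem_insert_self _ _)), ← mul_assoc, ← site_mul, e11_idem]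

lemma Pe_mul_QP (J : Finset ι) (g : Finset (Fin N)) (hg : ∀ k ∈ J, B.i k ∈ g) :
    Pe g * B.inQ.QP J = Pe g := by
  have h := congrArg Matrix.conjTranspose (QP_mul_Pe B J g hg)
  rwa [Matrix.conjTranspose_mul, Pe_herm, B.inQ.QP_herm] at h

/-- Deleting a gate containing all the inputs. -/
theorem gate_delete (J : Finset ι) (g : Finset (Fin N)) (hg : ∀ k ∈ J, B.i k ∈ g)
    (gs : List (Finset (Fin N))) (X : Fin N → M2) (hX : AllOK X) :
    ‖B.fam.EJ J (TT (g :: gs) X)‖ ≤ ‖B.fam.EJ J (TT gs X)‖ + 4 * (3 / 4 : ℝ) ^ J.card := by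
  set A := TT gs X with hA
  set D := Dg g with hD
  set P := Pe g with hP
  have hc : Commute D (Dl gs) := Dl_commute_Dg g gs
  have hAn : ‖A‖ ≤ 1 := norm_TT_le gs hX
  have hDn : ‖D‖ ≤ 1 := norm_le_one_of_refl (Dg_herm g) (Dg_sq g)
  have hPn : ‖P‖ ≤ 1 := norm_Pe_le g
  have hT : TT (g :: gs) X = D * A * D := by
    rw [TT, Dl_cons, hA, TT]
    calc D * Dl gs * tensor X * (D * Dl gs) = D * Dl gs * tensor X * (Dl gs * D) := by rw [hc.eq]
      _ = _ := by simp only [mul_assoc]
  have hexp : D * A * D = A - (2 : ℂ) • (B.inQ.QP J * (P * (A * D))) - (2 : ℂ) • ((A * P) * B.inQ.QP J) := by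
    have e1 : B.inQ.QP J * (P * (A * D)) = P * (A * D) := by
      rw [← mul_assoc, QP_mul_Pe B J g hg]
    have e2 : (A * P) * B.inQ.QP J = A * P := by
      rw [mul_assoc, Pe_mul_QP B J g hg]
    rw [e1, e2]
    have e3 : D = 1 - (2 : ℂ) • P := rfl
    calc D * A * D = (1 - (2 : ℂ) • P) * A * D := by rw [← e3]
      _ = A * D - (2 : ℂ) • (P * (A * D)) := by
          simp only [sub_mul, one_mul, smul_mul_assoc, mul_assoc]
      _ = A * (1 - (2 : ℂ) • P) - (2 : ℂ) • (P * (A * D)) := by rw [← e3]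
      _ = _ := by
          simp only [mul_sub, mul_one, mul_smul_comm]
          abel
  rw [hT, hexp, map_sub, map_sub, map_smul, map_smul]
  have t1 := peel_small_left B J (P * (A * D)) ((mul_norm_aux hPn).trans ((mul_norm_aux' hDn).trans hAn))
  have t2 := peel_small_right B J (A * P) ((mul_norm_aux' hPn).trans hAn)
  have n2 : ‖(2 : ℂ)‖ = 2 := by norm_num
  refine (norm_sub_le _ _).trans ?_
  have := norm_sub_le (B.fam.EJ J A) ((2 : ℂ) • B.fam.EJ J (B.inQ.QP J * (P * (A * D))))
  rw [norm_smul, n2] at this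
  rw [norm_smul, n2]
  linarith

end One

end Vale.Agent.Lib.P368y
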