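import Vale.Agent.Lib.P368x.Depth2

/-!
Norm estimates through quadratic forms: Kraus sums, differences of positive operators,
pairs of projectors.
-/

open scoped BigOperators Matrix Matrix.Norms.L2Operator

namespace Vale.Agent.Lib.P368y

open Vale.Agent.Lib.P368x

variable {N : ℕ}

/-- Euclidean length of a vector. -/
noncomputable def vn (x : Str N → ℂ) : ℝ := ‖(WithLp.toLp 2 x : EuclideanSpace ℂ (Str N))‖

lemma vn_nonneg (x : Str N → ℂ) : 0 ≤ vn x := norm_nonneg _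

lemma vn_sq (x : Str N → ℂ) : vn x ^ 2 = ∑ a, ‖x a‖ ^ 2 := by
  unfold vn
  rw [EuclideanSpace.norm_sq_eq]

lemma vn_mulVec (A : Op N) (x : Str N → ℂ) : vn (A *ᵥ x) ≤ ‖A‖ * vn x :=
  Matrix.l2_opNorm_mulVec A (WithLp.toLp 2 x)

/-- `star y ⬝ᵥ x` is the inner product. -/
lemma dot_eq_inner (x y : Str N → ℂ) :
    star y ⬝ᵥ x = inner ℂ (WithLp.toLp 2 y : EuclideanSpace ℂ (Str N)) (WithLp.toLp 2 x) := by
  simp only [EuclideanSpace.inner_eq_star_dotProduct]
  rw [dotProduct_comm]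

lemma dot_norm_le (x y : Str N → ℂ) : ‖star y ⬝ᵥ x‖ ≤ vn y * vn x := by
  rw [dot_eq_inner]
  exact norm_inner_le_norm _ _

lemma dot_self (x : Str N → ℂ) : star x ⬝ᵥ x = ((vn x ^ 2 : ℝ) : ℂ) := by
  rw [vn_sq]
  simp only [dotProduct, Pi.star_apply]
  push_cast
  refine Finset.sum_congr rfl fun a _ => ?_
  rw [Complex.star_def, Complex.conj_mul']

lemma op_norm_le (M : Op N) (c : ℝ) (hc : 0 ≤ c)
    (h : ∀ x y : Str N → ℂ, ‖star y ⬝ᵥ (M *ᵥ x)‖ ≤ c * (vn y * vn x)) : ‖M‖ ≤ c := by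
  rw [← Matrix.l2_opNorm_toEuclideanCLM]
  refine ContinuousLinearMap.opNorm_le_bound _ hc fun x => ?_
  set z : Str N → ℂ := M *ᵥ x.ofLp with hz
  have e1 : ‖Matrix.toEuclideanCLM (n := Str N) (𝕜 := ℂ) M x‖ = vn z := by
    simp [vn, Matrix.toEuclideanCLM, hz]
    rfl
  have e2 : ‖x‖ = vn x.ofLp := by simp [vn]
  rw [e1, e2]
  have h1 := h x.ofLp z
  rw [← hz, dot_self, Complex.norm_real, Real.norm_of_nonneg (by positivity)] at h1
  have h0 := vn_nonneg z
  by_cases hz0 : vn z = 0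
  · rw [hz0]
    exact mul_nonneg hc (vn_nonneg _)
  · have hp : 0 < vn z := lt_of_le_of_ne h0 (Ne.symm hz0)
    have : vn z * vn z ≤ (c * vn x.ofLp) * vn z := by nlinarith
    exact le_of_mul_le_mul_right this hp

lemma comm_adj {P A : Op N} (h : Commute P A) : Commute Pᴴ Aᴴ := by
  show Pᴴ * Aᴴ = Aᴴ * Pᴴ
  have := congrArg Matrix.conjTranspose h.eq
  simp only [Matrix.conjTranspose_mul] at this
  exact this.symm

/-- Real quadratic form of an operator. -/
noncomputable def qf (x : Str N → ℂ) (A : Op N) : ℝ := (star x ⬝ᵥ (A *ᵥ x)).re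

lemma qf_add (x : Str N → ℂ) (A B : Op N) : qf x (A + B) = qf x A + qf x B := by
  simp [qf, Matrix.add_mulVec, dotProduct_add]

lemma qf_sub (x : Str N → ℂ) (A B : Op N) : qf x (A - B) = qf x A - qf x B := by
  simp [qf, Matrix.sub_mulVec, dotProduct_sub]

lemma qf_smul (x : Str N → ℂ) (c : ℝ) (A : Op N) : qf x ((c : ℂ) • A) = c * qf x A := by
  simp [qf, Matrix.smul_mulVec, dotProduct_smul, Complex.mul_re]

lemma qf_sum {ι : Type*} (x : Str N → ℂ) (s : Finset ι) (A : ι → Op N) :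
    qf x (∑ i ∈ s, A i) = ∑ i ∈ s, qf x (A i) := by
  classical
  induction s using Finset.induction_on with
  | empty => simp [qf]
  | insert i s hi ih => rw [Finset.sum_insert hi, Finset.sum_insert hi, qf_add, ih]

lemma dot_mulVec_adj (A : Op N) (x y : Str N → ℂ) :
    star y ⬝ᵥ (Aᴴ *ᵥ x) = star (A *ᵥ y) ⬝ᵥ x := by
  rw [Matrix.star_mulVec, Matrix.dotProduct_mulVec]

lemma qf_adj_mul (x : Str N → ℂ) (A : Op N) : qf x (Aᴴ * A) = vn (A *ᵥ x) ^ 2 := by
  unfold qf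
  rw [← Matrix.mulVec_mulVec, dot_mulVec_adj, dot_self, Complex.ofReal_re]

lemma qf_le_norm (x : Str N → ℂ) (A : Op N) : qf x A ≤ ‖A‖ * vn x ^ 2 := by
  have h1 : qf x A ≤ ‖star x ⬝ᵥ (A *ᵥ x)‖ := Complex.re_le_norm _
  have h2 := dot_norm_le (A *ᵥ x) x
  have h3 := vn_mulVec A x
  have h4 := vn_nonneg x
  nlinarith

lemma qf_one (x : Str N → ℂ) : qf x (1 : Op N) = vn x ^ 2 := by
  have := qf_adj_mul x (1 : Op N)
  simpa using this

/-- Kraus bound with varying middle factors. -/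
theorem kraus_le {ι : Type*} (s : Finset ι) (A B X : ι → Op N) (c : ℝ) (hc : 0 ≤ c)
    (hX : ∀ i ∈ s, ‖X i‖ ≤ c) :
    ‖∑ i ∈ s, (A i)ᴴ * X i * B i‖ ≤
      c * (Real.sqrt ‖∑ i ∈ s, (A i)ᴴ * A i‖ * Real.sqrt ‖∑ i ∈ s, (B i)ᴴ * B i‖) := by
  apply op_norm_le _ _ (by positivity)
  intro x y
  have e : star y ⬝ᵥ ((∑ i ∈ s, (A i)ᴴ * X i * B i) *ᵥ x)
      = ∑ i ∈ s, star (A i *ᵥ y) ⬝ᵥ (X i *ᵥ (B i *ᵥ x)) := by
    rw [Matrix.sum_mulVec, dotProduct_sum]
    refine Finset.sum_congr rfl fun i _ => ?_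
    rw [mul_assoc, ← Matrix.mulVec_mulVec, dot_mulVec_adj, Matrix.mulVec_mulVec]
  rw [e]
  have t1 : ‖∑ i ∈ s, star (A i *ᵥ y) ⬝ᵥ (X i *ᵥ (B i *ᵥ x))‖
      ≤ ∑ i ∈ s, c * (vn (A i *ᵥ y) * vn (B i *ᵥ x)) := by
    refine (norm_sum_le _ _).trans (Finset.sum_le_sum fun i hi => ?_)
    have h1 := dot_norm_le (X i *ᵥ (B i *ᵥ x)) (A i *ᵥ y)
    have h2 := vn_mulVec (X i) (B i *ᵥ x)
    have h3 := hX i hi
    have h4 := vn_nonneg (B i *ᵥ x)
    have h5 := vn_nonneg (A i *ᵥ y)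
    have h6 : ‖X i‖ * vn (B i *ᵥ x) ≤ c * vn (B i *ᵥ x) := by gcongr
    calc _ ≤ vn (A i *ᵥ y) * vn (X i *ᵥ (B i *ᵥ x)) := h1
      _ ≤ vn (A i *ᵥ y) * (c * vn (B i *ᵥ x)) := by gcongr; exact h2.trans h6
      _ = _ := by ring
  refine t1.trans ?_
  rw [← Finset.mul_sum, mul_assoc c]
  refine mul_le_mul_of_nonneg_left ?_ hc
  have cs := Real.sum_mul_le_sqrt_mul_sqrt s (fun i => vn (A i *ᵥ y)) (fun i => vn (B i *ᵥ x))
  refine cs.trans ?_
  set Sa := ‖∑ i ∈ s, (A i)ᴴ * A i‖ with hSa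
  set Sb := ‖∑ i ∈ s, (B i)ᴴ * B i‖ with hSb
  have a1 : ∑ i ∈ s, vn (A i *ᵥ y) ^ 2 ≤ Sa * vn y ^ 2 := by
    have := qf_le_norm y (∑ i ∈ s, (A i)ᴴ * A i)
    rw [qf_sum] at this
    simpa only [qf_adj_mul] using this
  have a2 : ∑ i ∈ s, vn (B i *ᵥ x) ^ 2 ≤ Sb * vn x ^ 2 := by
    have := qf_le_norm x (∑ i ∈ s, (B i)ᴴ * B i)
    rw [qf_sum] at this
    simpa only [qf_adj_mul] using this
  have h0a : 0 ≤ Sa := norm_nonneg _
  have h0b : 0 ≤ Sb := norm_nonneg _
  have b1 : Real.sqrt (∑ i ∈ s, vn (A i *ᵥ y) ^ 2) ≤ Real.sqrt Sa * vn y := by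
    refine (Real.sqrt_le_sqrt a1).trans ?_
    rw [Real.sqrt_mul h0a, Real.sqrt_sq (vn_nonneg _)]
  have b2 : Real.sqrt (∑ i ∈ s, vn (B i *ᵥ x) ^ 2) ≤ Real.sqrt Sb * vn x := by
    refine (Real.sqrt_le_sqrt a2).trans ?_
    rw [Real.sqrt_mul h0b, Real.sqrt_sq (vn_nonneg _)]
  have b3 : 0 ≤ Real.sqrt Sa * vn y := mul_nonneg (Real.sqrt_nonneg _) (vn_nonneg _)
  have := mul_le_mul b1 b2 (Real.sqrt_nonneg _) b3
  refine this.trans (le_of_eq ?_)
  ring

/-- The symmetric case of the Kraus bound. -/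
theorem kraus_same {ι : Type*} (s : Finset ι) (K X : ι → Op N) (c : ℝ) (hc : 0 ≤ c)
    (hX : ∀ i ∈ s, ‖X i‖ ≤ c) :
    ‖∑ i ∈ s, (K i)ᴴ * X i * K i‖ ≤ c * ‖∑ i ∈ s, (K i)ᴴ * K i‖ := by
  have := kraus_le s K K X c hc hX
  rwa [Real.mul_self_sqrt (norm_nonneg _)] at this

/-- A Hermitian operator with bounded quadratic form is bounded. -/
lemma herm_norm_le (H : Op N) (hH : Hᴴ = H) (c : ℝ) (hc : 0 ≤ c)
    (h : ∀ x : Str N → ℂ, |qf x H| ≤ c * vn x ^ 2) : ‖H‖ ≤ c := by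
  apply op_norm_le _ _ hc
  -- it suffices to treat `y = H x`
  have key : ∀ x y : Str N → ℂ, (star y ⬝ᵥ (H *ᵥ x)).re * 2 ≤ c * (vn x ^ 2 + vn y ^ 2) := by
    intro x y
    have p : vn (x + y) ^ 2 + vn (x - y) ^ 2 = 2 * (vn x ^ 2 + vn y ^ 2) := by
      simp only [vn_sq, Pi.add_apply, Pi.sub_apply]
      rw [← Finset.sum_add_distrib, ← Finset.sum_add_distrib, Finset.mul_sum]
      refine Finset.sum_congr rfl fun a _ => ?_
      have := parallelogram_law_with_norm ℝ (x a) (y a)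
      nlinarith
    have h1 := h (x + y)
    have h2 := h (x - y)
    have sym : (star x ⬝ᵥ (H *ᵥ y)).re = (star y ⬝ᵥ (H *ᵥ x)).re := by
      have e : star x ⬝ᵥ (H *ᵥ y) = star (star y ⬝ᵥ (H *ᵥ x)) := by
        rw [Matrix.star_dotProduct, ← dot_mulVec_adj, hH]
      rw [e]
      simp
    have e : qf (x + y) H - qf (x - y) H = 4 * (star y ⬝ᵥ (H *ᵥ x)).re := by
      simp only [qf, Matrix.mulVec_add, Matrix.mulVec_sub, star_add, star_sub, add_dotProduct,
        sub_dotProduct, dotProduct_add, dotProduct_sub, Complex.add_re, Complex.sub_re]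
      rw [sym]
      ring
    have a1 := (le_abs_self _).trans h1
    have a2 := (neg_le_abs _).trans h2
    nlinarith
  intro x y
  -- reduce by the phase and the scale
  have hz : ‖star y ⬝ᵥ (H *ᵥ x)‖ ≤ c * (vn y * vn x) := by
    set w := star y ⬝ᵥ (H *ᵥ x) with hw
    by_cases hw0 : w = 0
    · rw [hw0, norm_zero]
      exact mul_nonneg hc (mul_nonneg (vn_nonneg _) (vn_nonneg _))
    -- rotate `y` so that the product is real
    set u : ℂ := w / ‖w‖ with hu
    have hwn : (‖w‖ : ℂ) ≠ 0 := by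
      simpa using hw0
    have hun : ‖u‖ = 1 := by
      simp [hu, hw0]
    have scale : ∀ t : ℝ, 0 < t → ‖w‖ * 2 ≤ c * (t * vn x ^ 2 + (1 / t) * vn y ^ 2) := by
      intro t ht
      set s := Real.sqrt t with hs
      have hs0 : 0 < s := Real.sqrt_pos.mpr ht
      have hss : s * s = t := Real.mul_self_sqrt ht.le
      set x' : Str N → ℂ := (s : ℂ) • x with hx'
      set y' : Str N → ℂ := ((u * ((1 / s : ℝ) : ℂ))) • y with hy'
      have k := key x' y'
      have n1 : vn x' ^ 2 = t * vn x ^ 2 := by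
        simp only [vn_sq, hx', Pi.smul_apply, smul_eq_mul, norm_mul, mul_pow, Complex.norm_real,
          Real.norm_eq_abs, sq_abs]
        rw [← Finset.mul_sum]
        rw [sq s, hss]
      have n2 : vn y' ^ 2 = (1 / t) * vn y ^ 2 := by
        simp only [vn_sq, hy', Pi.smul_apply, smul_eq_mul, norm_mul, mul_pow, Complex.norm_real,
          Real.norm_eq_abs, sq_abs, hun, one_mul]
        rw [← Finset.mul_sum]
        congr 1
        field_simp
        rw [← hss]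
        ring
      have n3 : (star y' ⬝ᵥ (H *ᵥ x')).re = ‖w‖ := by
        have : star y' ⬝ᵥ (H *ᵥ x') = (star u) * w := by
          simp only [hy', hx', Matrix.mulVec_smul, star_smul, smul_dotProduct, dotProduct_smul,
            smul_eq_mul]
          rw [← hw]
          have hs' : ((s : ℝ) : ℂ) ≠ 0 := by exact_mod_cast hs0.ne'
          simp only [star_mul', Complex.star_def, Complex.conj_ofReal]
          push_cast
          field_simp
        rw [this, hu]
        simp only [Complex.star_def, map_div₀, Complex.conj_ofReal]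
        have : (starRingEnd ℂ) w / (‖w‖ : ℂ) * w = ((‖w‖ : ℝ) : ℂ) := by
          rw [div_mul_eq_mul_div, Complex.conj_mul']
          field_simp
        rw [this, Complex.ofReal_re]
      rw [n3, n1, n2] at k
      linarith
    by_cases hx0 : vn x = 0
    · by_cases hy0 : vn y = 0
      · have := scale 1 one_pos
        rw [hx0, hy0] at this
        have hh : ‖w‖ = 0 := by nlinarith [norm_nonneg w]
        rw [hh]
        exact mul_nonneg hc (mul_nonneg (vn_nonneg _) (vn_nonneg _))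
      · exfalso
        apply hw0
        have hp : 0 < vn y := lt_of_le_of_ne (vn_nonneg _) (Ne.symm hy0)
        have : ‖w‖ ≤ 0 := by
          refine le_of_forall_pos_le_add fun ε hε => ?_
          have s1 := scale ((c + 1) * vn y ^ 2 / ε + 1) (by positivity)
          rw [hx0] at s1
          simp only [ne_eq, OfNat.ofNat_ne_zero, not_false_eq_true, zero_pow, mul_zero, zero_add] at s1
          have s2 : c * (1 / ((c + 1) * vn y ^ 2 / ε + 1) * vn y ^ 2) ≤ ε := by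
            have hp2 : 0 < vn y ^ 2 := by positivity
            rw [mul_comm (1 / _), ← mul_assoc, mul_one_div, div_le_iff₀ (by positivity)]
            have : (c + 1) * vn y ^ 2 / ε * ε = (c + 1) * vn y ^ 2 := by field_simp
            nlinarith
          linarith
        simpa using this
    · have hp : 0 < vn x := lt_of_le_of_ne (vn_nonneg _) (Ne.symm hx0)
      by_cases hy0 : vn y = 0
      · exfalso
        apply hw0
        have : ‖w‖ ≤ 0 := by
          refine le_of_forall_pos_le_add fun ε hε => ?_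
          have hp2 : 0 < vn x ^ 2 := by positivity
          have s1 := scale (ε / ((c + 1) * vn x ^ 2)) (by positivity)
          rw [hy0] at s1
          simp only [ne_eq, OfNat.ofNat_ne_zero, not_false_eq_true, zero_pow, mul_zero, add_zero] at s1
          have s2 : c * (ε / ((c + 1) * vn x ^ 2) * vn x ^ 2) ≤ ε := by
            have : ε / ((c + 1) * vn x ^ 2) * vn x ^ 2 = ε / (c + 1) := by field_simp
            rw [this, mul_div_assoc', div_le_iff₀ (by positivity)]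
            nlinarith
          linarith
        simpa using this
      · have hq : 0 < vn y := lt_of_le_of_ne (vn_nonneg _) (Ne.symm hy0)
        have s1 := scale (vn y / vn x) (by positivity)
        have e1 : vn y / vn x * vn x ^ 2 = vn y * vn x := by field_simp
        have e2 : 1 / (vn y / vn x) * vn y ^ 2 = vn y * vn x := by field_simp
        rw [e1, e2] at s1
        linarith
  exact hz

/-- Difference of two positive operators. -/
theorem psd_diff (A B : Op N) :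
    ‖Aᴴ * A - Bᴴ * B‖ ≤ max (‖A‖ ^ 2) (‖B‖ ^ 2) := by
  set c := max (‖A‖ ^ 2) (‖B‖ ^ 2) with hc
  have hc0 : 0 ≤ c := le_max_of_le_left (by positivity)
  apply herm_norm_le _ _ _ hc0
  · intro x
    rw [qf_sub, qf_adj_mul, qf_adj_mul]
    have h1 := vn_mulVec A x
    have h2 := vn_mulVec B x
    have h3 : vn (A *ᵥ x) ^ 2 ≤ ‖A‖ ^ 2 * vn x ^ 2 := by
      rw [← mul_pow]
      exact pow_le_pow_left₀ (vn_nonneg _) h1 2
    have h4 : vn (B *ᵥ x) ^ 2 ≤ ‖B‖ ^ 2 * vn x ^ 2 := by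
      rw [← mul_pow]
      exact pow_le_pow_left₀ (vn_nonneg _) h2 2
    have h5 : ‖A‖ ^ 2 * vn x ^ 2 ≤ c * vn x ^ 2 := by
      gcongr
      exact le_max_left _ _
    have h6 : ‖B‖ ^ 2 * vn x ^ 2 ≤ c * vn x ^ 2 := by
      gcongr
      exact le_max_right _ _
    rw [abs_le]
    constructor
    · have := sq_nonneg (vn (A *ᵥ x))
      linarith
    · have := sq_nonneg (vn (B *ᵥ x))
      linarith
  · simp [Matrix.conjTranspose_sub, Matrix.conjTranspose_mul]

/-- Two orthogonal sectors. -/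
theorem sector_le (P A B : Op N) (hP : Pᴴ = P) (hP2 : P * P = P) (hA : Commute P A)
    (hB : Commute P B) : ‖P * A + (1 - P) * B‖ ≤ max ‖A‖ ‖B‖ := by
  set c := max ‖A‖ ‖B‖ with hc
  have hc0 : 0 ≤ c := le_max_of_le_left (norm_nonneg _)
  rw [← Matrix.l2_opNorm_toEuclideanCLM]
  refine ContinuousLinearMap.opNorm_le_bound _ hc0 fun v => ?_
  set x : Str N → ℂ := v.ofLp with hx
  set X : Op N := P * A + (1 - P) * B with hX
  have e1 : ‖Matrix.toEuclideanCLM (n := Str N) (𝕜 := ℂ) X v‖ = vn (X *ᵥ x) := by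
    simp [vn, Matrix.toEuclideanCLM, hx]
    rfl
  have e2 : ‖v‖ = vn x := by simp [vn, hx]
  rw [e1, e2]
  set Q : Op N := 1 - P with hQ
  have hQh : Qᴴ = Q := by simp [hQ, hP]
  have hQ2 : Q * Q = Q := by
    simp only [hQ, mul_sub, sub_mul, mul_one, one_mul, hP2]
    abel
  have hPQ : P * Q = 0 := by simp [hQ, mul_sub, hP2]
  have hQP : Q * P = 0 := by simp [hQ, sub_mul, hP2]
  have hQA : Commute Q B := (Commute.one_left _).sub_left hB
  have hXX : Xᴴ * X = Aᴴ * P * A + Bᴴ * Q * B := by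
    simp only [hX, Matrix.conjTranspose_add, Matrix.conjTranspose_mul, hP, hQh, add_mul, mul_add]
    have a1 : Aᴴ * P * (P * A) = Aᴴ * P * A := by
      rw [mul_assoc, ← mul_assoc P P, hP2, mul_assoc]
    have a2 : Bᴴ * Q * (Q * B) = Bᴴ * Q * B := by
      rw [mul_assoc, ← mul_assoc Q Q, hQ2, mul_assoc]
    have a3 : Aᴴ * P * (Q * B) = 0 := by
      rw [mul_assoc, ← mul_assoc P Q, hPQ]; simp
    have a4 : Bᴴ * Q * (P * A) = 0 := by
      rw [mul_assoc, ← mul_assoc Q P, hQP]; simp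
    rw [a1, a2, a3, a4]
    simp
  have hqf : vn (X *ᵥ x) ^ 2 = vn (A *ᵥ (P *ᵥ x)) ^ 2 + vn (B *ᵥ (Q *ᵥ x)) ^ 2 := by
    have f1 : qf x (Aᴴ * P * A) = vn (A *ᵥ (P *ᵥ x)) ^ 2 := by
      have : Aᴴ * P * A = (A * P)ᴴ * (A * P) := by
        rw [Matrix.conjTranspose_mul, hP]
        calc Aᴴ * P * A = Aᴴ * (P * P) * A := by rw [hP2]
          _ = P * Aᴴ * A * P := by
            have hcA : Commute P Aᴴ := by
              have := comm_adj hA
              rw [hP] at this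
              exact this
            calc Aᴴ * (P * P) * A = (Aᴴ * P) * (P * A) := by simp only [mul_assoc]
              _ = (P * Aᴴ) * (A * P) := by rw [hcA.eq, hA.eq]
              _ = _ := by simp only [mul_assoc]
          _ = _ := by simp only [mul_assoc]
      rw [this, qf_adj_mul, Matrix.mulVec_mulVec]
    have f2 : qf x (Bᴴ * Q * B) = vn (B *ᵥ (Q *ᵥ x)) ^ 2 := by
      have : Bᴴ * Q * B = (B * Q)ᴴ * (B * Q) := by
        rw [Matrix.conjTranspose_mul, hQh]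
        calc Bᴴ * Q * B = Bᴴ * (Q * Q) * B := by rw [hQ2]
          _ = Q * Bᴴ * B * Q := by
            have hcB : Commute Q Bᴴ := by
              have := comm_adj hQA
              rw [hQh] at this
              exact this
            calc Bᴴ * (Q * Q) * B = (Bᴴ * Q) * (Q * B) := by simp only [mul_assoc]
              _ = (Q * Bᴴ) * (B * Q) := by rw [hcB.eq, hQA.eq]
              _ = _ := by simp only [mul_assoc]
          _ = _ := by simp only [mul_assoc]
      rw [this, qf_adj_mul, Matrix.mulVec_mulVec]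
    rw [← qf_adj_mul, hXX, qf_add, f1, f2]
  have hsum : vn (P *ᵥ x) ^ 2 + vn (Q *ᵥ x) ^ 2 = vn x ^ 2 := by
    have f1 : qf x (Pᴴ * P) = vn (P *ᵥ x) ^ 2 := qf_adj_mul x P
    have f2 : qf x (Qᴴ * Q) = vn (Q *ᵥ x) ^ 2 := qf_adj_mul x Q
    rw [hP, hP2] at f1
    rw [hQh, hQ2] at f2
    rw [← f1, ← f2, hQ, qf_sub, qf_one]
    ring
  have b1 : vn (A *ᵥ (P *ᵥ x)) ≤ c * vn (P *ᵥ x) :=
    (vn_mulVec _ _).trans (mul_le_mul_of_nonneg_right (le_max_left _ _) (vn_nonneg _))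
  have b2 : vn (B *ᵥ (Q *ᵥ x)) ≤ c * vn (Q *ᵥ x) :=
    (vn_mulVec _ _).trans (mul_le_mul_of_nonneg_right (le_max_right _ _) (vn_nonneg _))
  have b3 : vn (A *ᵥ (P *ᵥ x)) ^ 2 ≤ c ^ 2 * vn (P *ᵥ x) ^ 2 := by
    rw [← mul_pow]; exact pow_le_pow_left₀ (vn_nonneg _) b1 2
  have b4 : vn (B *ᵥ (Q *ᵥ x)) ^ 2 ≤ c ^ 2 * vn (Q *ᵥ x) ^ 2 := by
    rw [← mul_pow]; exact pow_le_pow_left₀ (vn_nonneg _) b2 2
  have : vn (X *ᵥ x) ^ 2 ≤ (c * vn x) ^ 2 := by
    rw [hqf, mul_pow, ← hsum]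
    nlinarith
  exact abs_le_of_sq_le_sq' this (mul_nonneg hc0 (vn_nonneg _)) |>.2

end Vale.Agent.Lib.P368y
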