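import Vale.Agent.Lib.P368y.Blk

/-!
Basis kets on a set of sites, expansion of product kets, the trace over a set of sites in the basis.
-/

open scoped BigOperators Matrix Matrix.Norms.L2Operator

namespace Vale.Agent.Lib.P368y

open Vale.Agent.Lib.P368x

variable {N : ℕ}

/-- Sum over strings supported in `insert i I`. -/
lemma sum_SI_insert' {β : Type*} [AddCommMonoid β] (I : Finset (Fin N)) (i : Fin N) (hi : i ∉ I)
    (f : Str N → β) :
    ∑ v ∈ SI (insert i I), f v = ∑ w ∈ SI I, (f w + f (Function.update w i true)) := by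
  classical
  rw [← Finset.sum_filter_add_sum_filter_not (SI (insert i I)) (fun v => v i = false) f,
    Finset.sum_add_distrib]
  congr 1
  · apply Finset.sum_congr _ fun _ _ => rfl
    ext v
    simp only [SI, Finset.mem_filter, Finset.mem_univ, true_and, Finset.mem_insert, not_or]
    constructor
    · rintro ⟨h1, h2⟩ j hj
      by_cases hji : j = i
      · rw [hji, h2]
      · exact h1 j ⟨hji, hj⟩
    · intro h
      exact ⟨fun j hj => h j hj.2, h i hi⟩
  · refine Finset.sum_nbij' (fun v => Function.update v i false) (fun w => Function.update w i true)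
      ?_ ?_ ?_ ?_ ?_
    · intro v hv
      simp only [SI, Finset.mem_filter, Finset.mem_univ, true_and, Finset.mem_insert, not_or] at hv ⊢
      intro j hj
      by_cases hji : j = i
      · subst hji; simp
      · rw [Function.update_of_ne hji]
        exact hv.1 j ⟨hji, hj⟩
    · intro w hw
      simp only [SI, Finset.mem_filter, Finset.mem_univ, true_and, Finset.mem_insert, not_or] at hw ⊢
      refine ⟨fun j hj => ?_, by simp⟩
      rw [Function.update_of_ne hj.1]
      exact hw j hj.2
    · intro v hv
      simp only [Finset.mem_filter, Bool.not_eq_false] at hv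
      funext j
      by_cases hji : j = i
      · subst hji; simp [hv.2]
      · simp [hji]
    · intro w hw
      simp only [SI, Finset.mem_filter, Finset.mem_univ, true_and] at hw
      have hwi := hw i hi
      funext j
      by_cases hji : j = i
      · subst hji; simp [hwi]
      · simp [hji]
    · intro v hv
      simp only [Finset.mem_filter, Bool.not_eq_false] at hv
      congr 1
      funext j
      by_cases hji : j = i
      · subst hji; simp [hv.2]
      · simp [hji]

lemma SI_empty : SI (∅ : Finset (Fin N)) = {zeroStr N} := by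
  ext w
  simp only [SI, Finset.notMem_empty, not_false_eq_true, forall_const, Finset.mem_filter,
    Finset.mem_univ, true_and, Finset.mem_singleton]
  constructor
  · intro h; funext j; exact h j
  · rintro rfl j; rfl

lemma mem_SI {T : Finset (Fin N)} {t : Str N} : t ∈ SI T ↔ ∀ j, j ∉ T → t j = false := by
  simp [SI]

/-- Strings in `SI T` agreeing on `T` are equal. -/
lemma SI_ext {T : Finset (Fin N)} {t t' : Str N} (h : t ∈ SI T) (h' : t' ∈ SI T)
    (he : ∀ s ∈ T, t s = t' s) : t = t' := by
  funext j
  by_cases hj : j ∈ T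
  · exact he j hj
  · rw [mem_SI.mp h j hj, mem_SI.mp h' j hj]

/-- Sum of a product over strings. -/
lemma sum_SI_prod {R : Type*} [CommSemiring R] (T : Finset (Fin N)) (F : Fin N → Bool → R) :
    ∑ t ∈ SI T, ∏ s ∈ T, F s (t s) = ∏ s ∈ T, (F s false + F s true) := by
  induction T using Finset.induction_on with
  | empty => simp [SI_empty]
  | insert i T hi ih =>
    rw [sum_SI_insert' T i hi, Finset.prod_insert hi, ← ih, Finset.mul_sum]
    refine Finset.sum_congr rfl fun w hw => ?_
    have hwi : w i = false := mem_SI.mp hw i hi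
    rw [Finset.prod_insert hi, Finset.prod_insert hi]
    have e : ∏ s ∈ T, F s (Function.update w i true s) = ∏ s ∈ T, F s (w s) := by
      refine Finset.prod_congr rfl fun s hs => ?_
      have : s ≠ i := fun h => hi (h ▸ hs)
      rw [Function.update_of_ne this]
    rw [e, hwi]
    simp only [Function.update_self]
    ring

/-- Basis vector of `ℂ²`. -/
noncomputable def bv (b : Bool) : Bool → ℂ := fun a => if a = b then 1 else 0

lemma bv_unit (b : Bool) : nsq (bv b) = 1 := by
  cases b <;> simp [nsq, bv]

lemma ip_bv_left (b : Bool) (v : Bool → ℂ) : ip (bv b) v = v b := by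
  cases b <;> simp [ip, bv]

lemma ip_bv_right (u : Bool → ℂ) (b : Bool) : ip u (bv b) = star (u b) := by
  cases b <;> simp [ip, bv]

/-- The sitewise diagonal projector. -/
noncomputable def dP (b : Bool) : M2 := if b then e11 else e00

lemma dP_herm (b : Bool) : (dP b)ᴴ = dP b := by
  cases b <;> simp [dP, e00_herm, e11_herm]

lemma dP_idem (b : Bool) : dP b * dP b = dP b := by
  cases b <;> simp [dP, e00_idem, e11_idem]

lemma dP_norm (b : Bool) : ‖dP b‖ ≤ 1 := by
  cases b
  · simpa [dP] using proj1_e00.norm_le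
  · simpa [dP] using proj1_e11.norm_le

lemma dP_commute (b : Bool) : Commute e11 (dP b) := by
  cases b
  · simpa [dP] using commute_e11_e00
  · simpa [dP] using Commute.refl e11

lemma ket_bv_mul (b : Bool) : ket (bv b) * (ket (bv b))ᴴ = dP b := by
  ext x y
  cases b <;> cases x <;> cases y <;> simp [ket, bv, dP, e00, e11, Matrix.mul_apply, Fintype.sum_bool]

lemma dP_sandwich (b : Bool) (X : M2) : dP b * X * dP b = X b b • dP b := by
  ext x y
  cases b <;> cases x <;> cases y <;> simp [dP, e00, e11, Matrix.mul_apply, Fintype.sum_bool]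

/-- The basis ket on the sites `T`: `|t_s⟩⟨0|`, identity elsewhere. -/
noncomputable def et (T : Finset (Fin N)) (t : Str N) : Op N := Kt T fun s => bv (t s)

lemma et_mem (T : Finset (Fin N)) (t : Str N) : et T t ∈ SA T := Kt_mem_SA _ _

lemma et_norm (T : Finset (Fin N)) (t : Str N) : ‖et T t‖ ≤ 1 :=
  norm_Kt_le _ _ fun _ _ => bv_unit _

lemma et_adj_mul (T : Finset (Fin N)) (t : Str N) : (et T t)ᴴ * et T t = Pr T :=
  Kt_adj_mul_unit _ _ fun _ _ => bv_unit _

lemma et_orth {T : Finset (Fin N)} {t t' : Str N} (h : t ∈ SI T) (h' : t' ∈ SI T) (hne : t ≠ t') :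
    (et T t)ᴴ * et T t' = 0 := by
  rw [et, et, Kt_adj_mul]
  have : ∃ s ∈ T, t s ≠ t' s := by
    by_contra hc
    push_neg at hc
    exact hne (SI_ext h h' hc)
  obtain ⟨s, hs, hne⟩ := this
  rw [Finset.prod_eq_zero hs, zero_smul]
  rw [ip_bv_left]
  simp [bv, hne]

/-- The projector `|t⟩⟨t|` on `T`. -/
noncomputable def Pt (T : Finset (Fin N)) (t : Str N) : Op N :=
  tensor fun s => if s ∈ T then dP (t s) else 1

lemma et_mul_adj (T : Finset (Fin N)) (t : Str N) : et T t * (et T t)ᴴ = Pt T t := by
  rw [et, Kt, tensor_conjTranspose, tensor_mul, Pt]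
  congr 1
  funext s
  by_cases hs : s ∈ T
  · simp [hs, ket_bv_mul]
  · simp [hs]

lemma Pt_adj_et (T : Finset (Fin N)) (t : Str N) : Pt T t * et T t = et T t := by
  rw [← et_mul_adj, mul_assoc, et_adj_mul, et, Kt, Pr, tensor_mul]
  congr 1
  funext s
  by_cases hs : s ∈ T
  · simp [hs, ket_mul_e00]
  · simp [hs]

lemma Pt_commute_Dl (T : Finset (Fin N)) (t : Str N) (gs : List (Finset (Fin N))) :
    Commute (Pt T t) (Dl gs) := by
  refine (Dl_commute_tensor ?_).symm
  intro g _ s _
  by_cases hs : s ∈ T
  · simpa [hs] using dP_commute (t s)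
  · simp [hs]

lemma et_insert {T : Finset (Fin N)} {s : Fin N} (hs : s ∉ T) (t : Str N) :
    et (insert s T) t = site s (ket (bv (t s))) * et T t := by
  rw [Finset.insert_eq, et, Kt_union _ _ (Finset.disjoint_singleton_left.mpr hs), Kt_singleton]
  rfl

lemma et_update {T : Finset (Fin N)} {s : Fin N} (hs : s ∉ T) (t : Str N) (b : Bool) :
    et T (Function.update t s b) = et T t := by
  apply Kt_congr
  intro r hr
  have : r ≠ s := fun h => hs (h ▸ hr)
  rw [Function.update_of_ne this]

lemma ket_expand (v : Bool → ℂ) : ket v = v false • ket (bv false) + v true • ket (bv true) := by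
  ext x y
  cases x <;> cases y <;> simp [ket, bv]

/-- Expansion of a product ket in the basis. -/
lemma Kt_expand (T : Finset (Fin N)) (v : Fin N → Bool → ℂ) :
    Kt T v = ∑ t ∈ SI T, (∏ s ∈ T, v s (t s)) • et T t := by
  induction T using Finset.induction_on with
  | empty =>
    simp [SI_empty, et]
  | insert i T hi ih =>
    rw [sum_SI_insert' T i hi, Finset.insert_eq, Kt_union _ _ (Finset.disjoint_singleton_left.mpr hi),
      Kt_singleton, ih, ← Finset.insert_eq, ket_expand, site_add, site_smul, site_smul, add_mul,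
      Finset.mul_sum, Finset.mul_sum, ← Finset.sum_add_distrib]
    refine Finset.sum_congr rfl fun w hw => ?_
    have hwi : w i = false := mem_SI.mp hw i hi
    have e : ∏ s ∈ T, v s (Function.update w i true s) = ∏ s ∈ T, v s (w s) := by
      refine Finset.prod_congr rfl fun s hs => ?_
      have : s ≠ i := fun h => hi (h ▸ hs)
      rw [Function.update_of_ne this]
    rw [Finset.prod_insert hi, Finset.prod_insert hi, e, et_insert hi, et_insert hi, hwi, et_update hi]
    simp only [Function.update_self, smul_mul_assoc, mul_smul_comm, smul_smul]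
    congr 2 <;> ring

/-- Completeness of the basis kets. -/
lemma et_complete (T : Finset (Fin N)) : ∑ t ∈ SI T, et T t * (et T t)ᴴ = 1 := by
  induction T using Finset.induction_on with
  | empty => simp [SI_empty, et]
  | insert i T hi ih =>
    rw [sum_SI_insert' T i hi, ← ih]
    refine Finset.sum_congr rfl fun w hw => ?_
    have hwi : w i = false := mem_SI.mp hw i hi
    rw [et_mul_adj, et_mul_adj, et_mul_adj]
    rw [Pt, Pt, Pt]
    have e0 : (tensor fun s => if s ∈ insert i T then dP (w s) else 1)
        = site i e00 * tensor fun s => if s ∈ T then dP (w s) else 1 := by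
      rw [site, tensor_mul]
      congr 1
      funext s
      by_cases hs : s = i
      · subst hs; simp [hi, hwi, dP]
      · simp [hs, Finset.mem_insert]
    have e1 : (tensor fun s => if s ∈ insert i T then dP (Function.update w i true s) else 1)
        = site i e11 * tensor fun s => if s ∈ T then dP (w s) else 1 := by
      rw [site, tensor_mul]
      congr 1
      funext s
      by_cases hs : s = i
      · subst hs; simp [hi, dP]
      · simp [hs, Finset.mem_insert, Function.update_of_ne hs]
    rw [e0, e1, ← add_mul, P0_add_P1, one_mul]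

/-- Conjugate product vector. -/
noncomputable def cj (v : Fin N → Bool → ℂ) : Fin N → Bool → ℂ := fun s a => star (v s a)

/-- Expansion of the flipped ket. -/
lemma Kt_cj_adj (T : Finset (Fin N)) (v : Fin N → Bool → ℂ) :
    (Kt T (cj v))ᴴ = ∑ t ∈ SI T, (∏ s ∈ T, v s (t s)) • (et T t)ᴴ := by
  rw [Kt_expand T (cj v), Matrix.conjTranspose_sum]
  refine Finset.sum_congr rfl fun t _ => ?_
  rw [Matrix.conjTranspose_smul, star_prod]
  simp [cj]

/-- The map `M ↦ ∑ e_t M e_t`. -/
noncomputable def LL (T : Finset (Fin N)) (M : Op N) : Op N := ∑ t ∈ SI T, et T t * M * et T t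

/-- The trace over a set of sites in the basis. -/
noncomputable def Ptr (T : Finset (Fin N)) (A : Op N) : Op N := ∑ t ∈ SI T, (et T t)ᴴ * A * et T t

lemma flip_id {T : Finset (Fin N)} {M : Op N} (hM : Pr T * M = M) (v : Fin N → Bool → ℂ) :
    (Kt T (cj v))ᴴ * LL T M = M * Kt T v := by
  have h1 : ∀ t, (Kt T (cj v))ᴴ * et T t = (∏ s ∈ T, v s (t s)) • Pr T := by
    intro t
    rw [et, Kt_adj_mul]
    congr 1
    refine Finset.prod_congr rfl fun s _ => ?_
    rw [ip_bv_right]
    simp [cj]
  rw [LL, Finset.mul_sum, Kt_expand T v, Finset.mul_sum]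
  refine Finset.sum_congr rfl fun t _ => ?_
  rw [← mul_assoc, ← mul_assoc, h1, smul_mul_assoc, smul_mul_assoc, hM, mul_smul_comm]

/-- Gram operator of the family `LL T (M c)`. -/
lemma gram_LL {γ : Type*} (T : Finset (Fin N)) (C : Finset γ) (M : γ → Op N)
    (hM : ∀ c ∈ C, Pr T * M c = M c) :
    ∑ c ∈ C, (LL T (M c))ᴴ * LL T (M c) = Ptr T (∑ c ∈ C, (M c)ᴴ * M c) := by
  have one : ∀ c ∈ C, (LL T (M c))ᴴ * LL T (M c) = Ptr T ((M c)ᴴ * M c) := by
    intro c hc
    have h1 : (M c)ᴴ * Pr T = (M c)ᴴ := by
      have := congrArg Matrix.conjTranspose (hM c hc)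
      rwa [Matrix.conjTranspose_mul, Pr_herm] at this
    rw [LL, Matrix.conjTranspose_sum, Finset.sum_mul, Ptr]
    refine Finset.sum_congr rfl fun t ht => ?_
    rw [Finset.mul_sum, Finset.sum_eq_single t]
    · simp only [Matrix.conjTranspose_mul]
      calc (et T t)ᴴ * ((M c)ᴴ * (et T t)ᴴ) * (et T t * M c * et T t)
          = (et T t)ᴴ * (M c)ᴴ * ((et T t)ᴴ * et T t) * M c * et T t := by simp only [mul_assoc]
        _ = (et T t)ᴴ * ((M c)ᴴ * Pr T) * M c * et T t := by
            rw [et_adj_mul]; simp only [mul_assoc]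
        _ = _ := by rw [h1]; simp only [mul_assoc]
    · intro t' ht' hne
      simp only [Matrix.conjTranspose_mul]
      calc (et T t)ᴴ * ((M c)ᴴ * (et T t)ᴴ) * (et T t' * M c * et T t')
          = (et T t)ᴴ * (M c)ᴴ * ((et T t)ᴴ * et T t') * M c * et T t' := by simp only [mul_assoc]
        _ = 0 := by rw [et_orth ht ht' hne.symm]; simp
    · intro h; exact absurd ht h
  rw [Finset.sum_congr rfl one]
  simp only [Ptr, Finset.mul_sum, Finset.sum_mul]
  rw [Finset.sum_comm]

@[simp] lemma Ptr_empty (A : Op N) : Ptr ∅ A = A := by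
  simp [Ptr, SI_empty, et]

/-- Partial trace on one more site. -/
noncomputable def ptr1 (s : Fin N) (A : Op N) : Op N :=
  (site s (ket (bv false)))ᴴ * A * site s (ket (bv false))
    + (site s (ket (bv true)))ᴴ * A * site s (ket (bv true))

lemma ptr1_sum {γ : Type*} (s : Fin N) (C : Finset γ) (A : γ → Op N) :
    ptr1 s (∑ c ∈ C, A c) = ∑ c ∈ C, ptr1 s (A c) := by
  simp only [ptr1, Finset.mul_sum, Finset.sum_mul, Finset.sum_add_distrib]

lemma Ptr_insert {T : Finset (Fin N)} {s : Fin N} (hs : s ∉ T) (A : Op N) :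
    Ptr (insert s T) A = ptr1 s (Ptr T A) := by
  rw [Ptr, sum_SI_insert' T s hs, Ptr, ptr1_sum]
  refine Finset.sum_congr rfl fun w hw => ?_
  have hws : w s = false := mem_SI.mp hw s hs
  have hc : ∀ b, Commute (site s (ket (bv b))) (et T w) := fun b =>
    SA_commute (S := {s}) (T := T) (Finset.disjoint_singleton_left.mpr hs)
      (site_mem_SA (Finset.mem_singleton_self s) _) (et_mem T w)
  have e0 : et (insert s T) w = et T w * site s (ket (bv false)) := by
    rw [et_insert hs, hws, (hc false).eq]
  have e1 : et (insert s T) (Function.update w s true) = et T w * site s (ket (bv true)) := by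
    rw [et_insert hs, et_update hs, Function.update_self, (hc true).eq]
  rw [e0, e1, ptr1, Matrix.conjTranspose_mul, Matrix.conjTranspose_mul]
  simp only [mul_assoc]

lemma Ptr_union {T₁ T₂ : Finset (Fin N)} (h : Disjoint T₁ T₂) (A : Op N) :
    Ptr (T₁ ∪ T₂) A = Ptr T₁ (Ptr T₂ A) := by
  classical
  induction T₁ using Finset.induction_on with
  | empty => simp
  | insert s T hs ih =>
    have h' : Disjoint T T₂ := Finset.disjoint_of_subset_left (Finset.subset_insert _ _) h
    have hs2 : s ∉ T₂ := fun hh => Finset.disjoint_left.mp h (Finset.mem_insert_self _ _) hh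
    rw [Finset.insert_union, Ptr_insert (by simp [hs, hs2]), ih h', Ptr_insert hs]

lemma Ptr_sandwich {T : Finset (Fin N)} {E : Op N} (h1 : ∀ t, Commute E (et T t))
    (h2 : ∀ t, Commute E (et T t)ᴴ) (A : Op N) : Ptr T (Eᴴ * A * E) = Eᴴ * Ptr T A * E := by
  have h1' : ∀ t, Commute Eᴴ (et T t)ᴴ := fun t => by
    have := comm_adj (h1 t)
    exact this
  rw [Ptr, Ptr, Finset.mul_sum, Finset.sum_mul]
  refine Finset.sum_congr rfl fun t _ => ?_
  calc (et T t)ᴴ * (Eᴴ * A * E) * et T t = ((et T t)ᴴ * Eᴴ) * A * (E * et T t) := by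
        simp only [mul_assoc]
    _ = (Eᴴ * (et T t)ᴴ) * A * (et T t * E) := by rw [(h1' t).eq.symm, (h1 t).eq]
    _ = _ := by simp only [mul_assoc]

/-- Partial trace of a conjugated product projector, tested on `T`. -/
theorem norm_Ptr_TT (T : Finset (Fin N)) (gs : List (Finset (Fin N))) (X : Fin N → M2)
    (hok : AllOK X) (hT : ∀ s ∈ T, Proj1 (X s)) : ‖Ptr T (TT gs X)‖ ≤ 1 := by
  set x : Fin N → Bool → ℝ := fun s b => ‖X s b b‖ with hx
  have hterm : ∀ t, ‖(et T t)ᴴ * TT gs X * et T t‖ ≤ ∏ s ∈ T, x s (t s) := by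
    intro t
    have h1 : (et T t)ᴴ * TT gs X * et T t
        = (et T t)ᴴ * (Dl gs * (Pt T t * tensor X * Pt T t) * Dl gs) * et T t := by
      have hPh : (Pt T t)ᴴ = Pt T t := by
        rw [← et_mul_adj, Matrix.conjTranspose_mul, Matrix.conjTranspose_conjTranspose]
      have hh : (et T t)ᴴ * Pt T t = (et T t)ᴴ := by
        have := congrArg Matrix.conjTranspose (Pt_adj_et T t)
        rwa [Matrix.conjTranspose_mul, hPh] at this
      have c := Pt_commute_Dl T t gs
      calc (et T t)ᴴ * TT gs X * et T t
          = ((et T t)ᴴ * Pt T t) * TT gs X * (Pt T t * et T t) := by rw [hh, Pt_adj_et]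
        _ = (et T t)ᴴ * (Pt T t * Dl gs) * tensor X * (Dl gs * Pt T t) * et T t := by
            rw [TT]; simp only [mul_assoc]
        _ = (et T t)ᴴ * (Dl gs * Pt T t) * tensor X * (Pt T t * Dl gs) * et T t := by
            rw [c.eq]
        _ = _ := by simp only [mul_assoc]
    rw [h1]
    have h2 : Pt T t * tensor X * Pt T t = (∏ s ∈ T, X s (t s) (t s)) •
        tensor fun s => if s ∈ T then dP (t s) else X s := by
      rw [← tensor_smul_on, Pt, tensor_mul, tensor_mul]
      congr 1
      funext s
      by_cases hs : s ∈ T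
      · simp only [hs, if_true]
        exact dP_sandwich _ _
      · simp [hs]
    have h3 : ‖tensor fun s => if s ∈ T then dP (t s) else X s‖ ≤ 1 := by
      apply norm_tensor_le_one
      intro s
      by_cases hs : s ∈ T
      · simpa [hs] using dP_norm (t s)
      · simpa [hs] using (hok s).norm_le
    have h4 : ‖Pt T t * tensor X * Pt T t‖ ≤ ∏ s ∈ T, x s (t s) := by
      rw [h2, norm_smul, norm_prod]
      have h5 : 0 ≤ ∏ s ∈ T, ‖X s (t s) (t s)‖ := Finset.prod_nonneg fun _ _ => norm_nonneg _
      calc _ ≤ (∏ s ∈ T, ‖X s (t s) (t s)‖) * 1 := mul_le_mul_of_nonneg_left h3 h5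
        _ = _ := by rw [mul_one]
    have hE : ‖(et T t)ᴴ‖ ≤ 1 := by rw [norm_adj]; exact et_norm T t
    refine (mul3_norm_le _ hE (et_norm T t)).trans ?_
    exact (mul3_norm_le _ (norm_Dl_le gs) (norm_Dl_le gs)).trans h4
  rw [Ptr]
  refine (norm_sum_le _ _).trans ?_
  refine (Finset.sum_le_sum fun t _ => hterm t).trans ?_
  rw [sum_SI_prod]
  apply le_of_eq
  apply Finset.prod_eq_one
  intro s hs
  obtain ⟨u, hu, hX⟩ := hT s hs
  simp only [hx, hX, Matrix.vecMulVec_apply, Pi.star_apply, norm_mul, norm_star]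
  unfold nsq at hu
  nlinarith

end Vale.Agent.Lib.P368y
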