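import Vale.Agent.Lib.P368y.Label1

/-!
A block with its sites split into private sites, tested sites, and label sites: fixing the label.
-/

open scoped BigOperators Matrix Matrix.Norms.L2Operator

namespace Vale.Agent.Lib.P368y

open Vale.Agent.Lib.P368x

variable {N : ℕ} {ι : Type*} [DecidableEq ι]

/-- Off-diagonal terms vanish for an operator commuting with the basis projectors. -/
lemma diag_sum (T : Finset (Fin N)) (Z : Op N) (hZ : ∀ t ∈ SI T, Commute Z (et T t * (et T t)ᴴ))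
    (F : Str N → Op N) :
    (∑ t ∈ SI T, et T t * F t)ᴴ * Z * (∑ t ∈ SI T, et T t * F t)
      = ∑ t ∈ SI T, (F t)ᴴ * ((et T t)ᴴ * Z * et T t) * F t := by
  rw [Matrix.conjTranspose_sum, Finset.sum_mul, Finset.sum_mul]
  refine Finset.sum_congr rfl fun t ht => ?_
  rw [Finset.mul_sum, Finset.sum_eq_single t]
  · rw [Matrix.conjTranspose_mul]
    simp only [mul_assoc]
  · intro t' ht' hne
    have e : (et T t' * (et T t')ᴴ) * et T t' = et T t' := by
      rw [et_mul_adj, Pt_adj_et]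
    calc (et T t * F t)ᴴ * Z * (et T t' * F t')
        = (F t)ᴴ * (et T t)ᴴ * Z * ((et T t' * (et T t')ᴴ) * et T t') * F t' := by
          rw [e, Matrix.conjTranspose_mul]; simp only [mul_assoc]
      _ = (F t)ᴴ * (et T t)ᴴ * (Z * (et T t' * (et T t')ᴴ)) * et T t' * F t' := by
          simp only [mul_assoc]
      _ = (F t)ᴴ * ((et T t)ᴴ * et T t') * (et T t')ᴴ * Z * et T t' * F t' := by
          rw [(hZ t' ht').eq]; simp only [mul_assoc]
      _ = 0 := by rw [et_orth ht ht' hne.symm]; simp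
  · intro h; exact absurd ht h

/-- Operator norm of a row. -/
lemma norm_sum_mul_adj (T : Finset (Fin N)) (A : Str N → Op N) :
    ‖∑ t ∈ SI T, A t * (et T t)ᴴ‖ ^ 2 ≤ ∑ t ∈ SI T, ‖A t‖ ^ 2 := by
  set c := Real.sqrt (∑ t ∈ SI T, ‖A t‖ ^ 2) with hc
  have hc0 : 0 ≤ c := Real.sqrt_nonneg _
  have hS : 0 ≤ ∑ t ∈ SI T, ‖A t‖ ^ 2 := Finset.sum_nonneg fun _ _ => by positivity
  have hb : ‖∑ t ∈ SI T, A t * (et T t)ᴴ‖ ≤ c := by
    apply op_norm_le _ _ hc0
    intro x y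
    have e : star y ⬝ᵥ ((∑ t ∈ SI T, A t * (et T t)ᴴ) *ᵥ x)
        = ∑ t ∈ SI T, star y ⬝ᵥ (A t *ᵥ ((et T t)ᴴ *ᵥ x)) := by
      rw [Matrix.sum_mulVec, dotProduct_sum]
      refine Finset.sum_congr rfl fun t _ => ?_
      rw [Matrix.mulVec_mulVec]
    rw [e]
    have t1 : ‖∑ t ∈ SI T, star y ⬝ᵥ (A t *ᵥ ((et T t)ᴴ *ᵥ x))‖
        ≤ ∑ t ∈ SI T, vn y * (‖A t‖ * vn ((et T t)ᴴ *ᵥ x)) := by
      refine (norm_sum_le _ _).trans (Finset.sum_le_sum fun t _ => ?_)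
      refine (dot_norm_le _ _).trans ?_
      exact mul_le_mul_of_nonneg_left (vn_mulVec _ _) (vn_nonneg _)
    refine t1.trans ?_
    rw [← Finset.mul_sum]
    have cs := Real.sum_mul_le_sqrt_mul_sqrt (SI T) (fun t => ‖A t‖) (fun t => vn ((et T t)ᴴ *ᵥ x))
    have hv : ∑ t ∈ SI T, vn ((et T t)ᴴ *ᵥ x) ^ 2 = vn x ^ 2 := by
      have h1 : ∀ t ∈ SI T, vn ((et T t)ᴴ *ᵥ x) ^ 2 = qf x (et T t * (et T t)ᴴ) := by
        intro t _
        have := qf_adj_mul x (et T t)ᴴ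
        rw [Matrix.conjTranspose_conjTranspose] at this
        exact this.symm
      rw [Finset.sum_congr rfl h1, ← qf_sum, et_complete, qf_one]
    rw [hv, Real.sqrt_sq (vn_nonneg _)] at cs
    calc vn y * ∑ t ∈ SI T, ‖A t‖ * vn ((et T t)ᴴ *ᵥ x) ≤ vn y * (c * vn x) :=
          mul_le_mul_of_nonneg_left cs (vn_nonneg _)
      _ = _ := by ring
  calc _ ≤ c ^ 2 := pow_le_pow_left₀ (norm_nonneg _) hb 2
    _ = _ := Real.sq_sqrt hS

lemma norm_sub_sq (a b : ℂ) : ‖a - b‖ ^ 2 = ‖a‖ ^ 2 + ‖b‖ ^ 2 - 2 * (star a * b).re := by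
  simp only [Complex.sq_norm, Complex.normSq_apply, Complex.sub_re, Complex.sub_im, Complex.mul_re,
    Complex.star_def, Complex.conj_re, Complex.conj_im]
  ring

/-- A splitting of the sites of each block. -/
structure Part (B : BData ι N) where
  P : ι → Finset (Fin N)
  T : ι → Finset (Fin N)
  L : ι → Finset (Fin N)
  hW : ∀ k, B.W k = P k ∪ (T k ∪ L k)
  hPT : ∀ k, Disjoint (P k) (T k)
  hPL : ∀ k, Disjoint (P k) (L k)
  hTL : ∀ k, Disjoint (T k) (L k)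
  hi : ∀ k, B.i k ∈ P k

namespace Part

variable {B : BData ι N} (R : Part B)

lemma P_sub (k : ι) : R.P k ⊆ B.W k := by
  rw [R.hW]; exact Finset.subset_union_left

lemma T_sub (k : ι) : R.T k ⊆ B.W k := by
  rw [R.hW]; exact Finset.subset_union_left.trans Finset.subset_union_right

lemma L_sub (k : ι) : R.L k ⊆ B.W k := by
  rw [R.hW]; exact Finset.subset_union_right.trans Finset.subset_union_right

lemma i_notMem_T (k : ι) : B.i k ∉ R.T k := fun h =>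
  Finset.disjoint_left.mp (R.hPT k) (R.hi k) h

lemma i_notMem_L (k : ι) : B.i k ∉ R.L k := fun h =>
  Finset.disjoint_left.mp (R.hPL k) (R.hi k) h

/-- Overlap on the private sites except the input. -/
noncomputable def cP (k : ι) : ℂ := ∏ s ∈ (R.P k).erase (B.i k), ip (B.ψ k s) (B.e k s)

/-- Overlap on the tested sites. -/
noncomputable def cT (k : ι) : ℂ := ∏ s ∈ R.T k, ip (B.ψ k s) (B.e k s)

/-- Overlap on the label sites. -/
noncomputable def cL (k : ι) : ℂ := ∏ s ∈ R.L k, ip (B.ψ k s) (B.e k s)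

/-- Overlap on the private and tested sites. -/
noncomputable def cr (k : ι) : ℂ := R.cP k * R.cT k

lemma c_eq (k : ι) : B.c k = R.cr k * R.cL k := by
  have e : (B.W k).erase (B.i k) = (R.P k).erase (B.i k) ∪ (R.T k ∪ R.L k) := by
    rw [R.hW]
    ext s
    simp only [Finset.mem_erase, Finset.mem_union]
    constructor
    · rintro ⟨h1, h2 | h2⟩
      · exact Or.inl ⟨h1, h2⟩
      · exact Or.inr h2
    · rintro (⟨h1, h2⟩ | h2)
      · exact ⟨h1, Or.inl h2⟩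
      · refine ⟨?_, Or.inr h2⟩
        rintro rfl
        rcases h2 with h2 | h2
        · exact R.i_notMem_T k h2
        · exact R.i_notMem_L k h2
  have d1 : Disjoint ((R.P k).erase (B.i k)) (R.T k ∪ R.L k) := by
    rw [Finset.disjoint_union_right]
    exact ⟨Finset.disjoint_of_subset_left (Finset.erase_subset _ _) (R.hPT k),
      Finset.disjoint_of_subset_left (Finset.erase_subset _ _) (R.hPL k)⟩
  rw [BData.c, e, Finset.prod_union d1, Finset.prod_union (R.hTL k), cr, cP, cT, cL, mul_assoc]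

/-- Amplitude of the product state on the label. -/
noncomputable def gL (k : ι) (ω : Str N) : ℂ := ∏ s ∈ R.L k, B.e k s (ω s)

/-- Amplitude of the reflected state on the label. -/
noncomputable def pL (k : ι) (ω : Str N) : ℂ := ∏ s ∈ R.L k, B.ψ k s (ω s)

noncomputable def G1 (k : ι) (ω : Str N) (b : Bool) : Op N := R.gL k ω • Kt (R.P k) (B.eb k b)

noncomputable def G2 (k : ι) (ω : Str N) (b : Bool) : Op N :=
  (-(B.z k b * R.pL k ω)) • Kt (R.P k) (B.ψ k)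

/-- The pair with fixed label. -/
noncomputable def KF (k : ι) (ω : Str N) (b : Bool) : Op N :=
  R.G1 k ω b * Kt (R.T k) (B.e k) + R.G2 k ω b * Kt (R.T k) (B.ψ k)

/-- The flipped pair with fixed label. -/
noncomputable def YF (k : ι) (ω : Str N) (b : Bool) : Op N :=
  R.G1 k ω b * (Kt (R.T k) (cj (B.e k)))ᴴ + R.G2 k ω b * (Kt (R.T k) (cj (B.ψ k)))ᴴ

lemma G1_mem (k : ι) (ω : Str N) (b : Bool) : R.G1 k ω b ∈ SA (R.P k) :=
  Subalgebra.smul_mem _ (Kt_mem_SA _ _) _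

lemma G2_mem (k : ι) (ω : Str N) (b : Bool) : R.G2 k ω b ∈ SA (R.P k) :=
  Subalgebra.smul_mem _ (Kt_mem_SA _ _) _

lemma KF_mem (k : ι) (ω : Str N) (b : Bool) : R.KF k ω b ∈ SA (R.P k ∪ R.T k) :=
  add_mem
    (mul_mem (SA_mono Finset.subset_union_left (R.G1_mem k ω b))
      (SA_mono Finset.subset_union_right (Kt_mem_SA _ _)))
    (mul_mem (SA_mono Finset.subset_union_left (R.G2_mem k ω b))
      (SA_mono Finset.subset_union_right (Kt_mem_SA _ _)))

lemma YF_mem (k : ι) (ω : Str N) (b : Bool) : R.YF k ω b ∈ SA (R.P k ∪ R.T k) :=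
  add_mem
    (mul_mem (SA_mono Finset.subset_union_left (R.G1_mem k ω b))
      (SA_mono Finset.subset_union_right (SA_adj (Kt_mem_SA _ _))))
    (mul_mem (SA_mono Finset.subset_union_left (R.G2_mem k ω b))
      (SA_mono Finset.subset_union_right (SA_adj (Kt_mem_SA _ _))))

/-- Splitting a product ket over the parts. -/
lemma Kt_parts (k : ι) (v : Fin N → Bool → ℂ) :
    Kt (B.W k) v = Kt (R.P k) v * (Kt (R.T k) v * Kt (R.L k) v) := by
  rw [R.hW, Kt_union _ _ (by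
    rw [Finset.disjoint_union_right]
    exact ⟨R.hPT k, R.hPL k⟩), Kt_union _ _ (R.hTL k)]

lemma eb_on_T (k : ι) (b : Bool) : Kt (R.T k) (B.eb k b) = Kt (R.T k) (B.e k) := by
  apply Kt_congr
  intro s hs
  have : s ≠ B.i k := fun h => R.i_notMem_T k (h ▸ hs)
  rw [BData.eb, Function.update_of_ne this]

lemma eb_on_L (k : ι) (b : Bool) : Kt (R.L k) (B.eb k b) = Kt (R.L k) (B.e k) := by
  apply Kt_congr
  intro s hs
  have : s ≠ B.i k := fun h => R.i_notMem_L k (h ▸ hs)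
  rw [BData.eb, Function.update_of_ne this]

/-- The block operator as a sum over labels. -/
lemma K_expand (k : ι) (b : Bool) :
    B.K k b = ∑ ω ∈ SI (R.L k), et (R.L k) ω * R.KF k ω b := by
  have c1 : ∀ ω (u : Fin N → Bool → ℂ), Commute (et (R.L k) ω) (Kt (R.P k) u) := fun ω u =>
    SA_commute (R.hPL k).symm (et_mem _ _) (Kt_mem_SA _ _)
  have c2 : ∀ ω (u : Fin N → Bool → ℂ), Commute (et (R.L k) ω) (Kt (R.T k) u) := fun ω u =>
    SA_commute (R.hTL k).symm (et_mem _ _) (Kt_mem_SA _ _)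
  have e1 : ∀ (u v : Fin N → Bool → ℂ) (ω : Str N),
      Kt (R.P k) u * (Kt (R.T k) v * et (R.L k) ω) = et (R.L k) ω * (Kt (R.P k) u * Kt (R.T k) v) := by
    intro u v ω
    rw [(c2 ω v).symm.eq, ← mul_assoc, (c1 ω u).symm.eq, mul_assoc]
  rw [BData.K, R.Kt_parts k (B.eb k b), R.Kt_parts k (B.ψ k), R.eb_on_T, R.eb_on_L,
    Kt_expand (R.L k) (B.e k), Kt_expand (R.L k) (B.ψ k)]
  simp only [Finset.mul_sum, Finset.smul_sum, ← Finset.sum_sub_distrib]
  refine Finset.sum_congr rfl fun ω _ => ?_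
  simp only [mul_smul_comm]
  rw [e1, e1, KF, G1, G2]
  simp only [smul_mul_assoc, mul_add, mul_smul_comm, neg_smul, mul_neg, smul_neg, smul_smul, neg_mul]
  rw [gL, pL, mul_comm (B.z k b)]
  abel

/-- The signed Kraus map as a sum over labels. -/
lemma Eb_expand (k : ι) (Z : Op N)
    (hZ : ∀ ω ∈ SI (R.L k), Commute Z (et (R.L k) ω * (et (R.L k) ω)ᴴ)) :
    Eb (B.K k) Z = ∑ ω ∈ SI (R.L k), Eb (R.KF k ω) ((et (R.L k) ω)ᴴ * Z * et (R.L k) ω) := by
  simp only [Eb_apply]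
  rw [R.K_expand k false, R.K_expand k true, diag_sum _ _ hZ, diag_sum _ _ hZ, ← Finset.sum_sub_distrib,
    Finset.smul_sum]

/-- The amplitudes of the product state on the tested sites. -/
noncomputable def v1 (k : ι) (t : Str N) : ℂ := ∏ s ∈ R.T k, B.e k s (t s)

noncomputable def v2 (k : ι) (t : Str N) : ℂ := ∏ s ∈ R.T k, B.ψ k s (t s)

lemma sum_norm_prod (T : Finset (Fin N)) (v : Fin N → Bool → ℂ) (hv : ∀ s, nsq (v s) = 1) :
    ∑ t ∈ SI T, ‖∏ s ∈ T, v s (t s)‖ ^ 2 = 1 := by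
  have e : ∀ t ∈ SI T, ‖∏ s ∈ T, v s (t s)‖ ^ 2 = ∏ s ∈ T, (fun s b => ‖v s b‖ ^ 2) s (t s) := by
    intro t _
    rw [norm_prod, ← Finset.prod_pow]
  rw [Finset.sum_congr rfl e]
  refine (sum_SI_prod T (fun s b => ‖v s b‖ ^ 2)).trans ?_
  apply Finset.prod_eq_one
  intro s _
  exact hv s

lemma sum_star_prod (T : Finset (Fin N)) (u v : Fin N → Bool → ℂ) :
    ∑ t ∈ SI T, star (∏ s ∈ T, u s (t s)) * ∏ s ∈ T, v s (t s) = ∏ s ∈ T, ip (u s) (v s) := by
  have e : ∀ t ∈ SI T, star (∏ s ∈ T, u s (t s)) * ∏ s ∈ T, v s (t s)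
      = ∏ s ∈ T, (fun s b => star (u s b) * v s b) s (t s) := by
    intro t _
    rw [star_prod, ← Finset.prod_mul_distrib]
  rw [Finset.sum_congr rfl e]
  exact sum_SI_prod T (fun s b => star (u s b) * v s b)

/-- Overlap on the private sites. -/
lemma prod_eb_psi (k : ι) (b : Bool) :
    ∏ s ∈ R.P k, ip (B.eb k b s) (B.ψ k s) = star (B.f k b) * star (R.cP k) := by
  rw [← Finset.mul_prod_erase _ _ (R.hi k)]
  congr 1
  · simp [BData.eb, BData.f, star_ip]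
  · rw [cP, star_prod]
    refine Finset.prod_congr rfl fun s hs => ?_
    rw [BData.eb, Function.update_of_ne (Finset.ne_of_mem_erase hs), star_ip]

/-- The quantity bounding the squared norm of the flipped pair. -/
noncomputable def Dl' (k : ι) (ω : Str N) : ℝ :=
  4 * ‖R.cL k‖ ^ 2 * ‖R.pL k ω‖ ^ 2 - 4 * (star (R.gL k ω) * R.cL k * R.pL k ω).re

/-- The input bias. -/
noncomputable def κ (B : BData ι N) (k : ι) : ℝ := ‖B.f k false‖ ^ 2 - ‖B.f k true‖ ^ 2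

/-- Upper bound for the squared norm of the flipped pair, both inputs. -/
noncomputable def pm (k : ι) (ω : Str N) : ℝ :=
  ‖R.gL k ω‖ ^ 2 + ‖R.cr k‖ ^ 2 * (R.Dl' k ω / 2 + |κ B k| * |R.Dl' k ω| / 2)

lemma YF_norm_val (k : ι) (ω : Str N) (b : Bool) :
    ‖R.YF k ω b‖ ^ 2 ≤ ‖R.gL k ω‖ ^ 2 + ‖B.f k b‖ ^ 2 * ‖R.cr k‖ ^ 2 * R.Dl' k ω := by
  set g := R.gL k ω with hg
  set p := R.pL k ω with hp
  set z := B.z k b with hz
  set gP := ∏ s ∈ R.P k, ip (B.eb k b s) (B.ψ k s) with hgP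
  -- the row form
  have hY : R.YF k ω b = ∑ t ∈ SI (R.T k),
      ((R.v1 k t * g) • Kt (R.P k) (B.eb k b) + (R.v2 k t * (-(z * p))) • Kt (R.P k) (B.ψ k))
        * (et (R.T k) t)ᴴ := by
    rw [YF, Kt_cj_adj, Kt_cj_adj, G1, G2, Finset.mul_sum, Finset.mul_sum, ← Finset.sum_add_distrib]
    refine Finset.sum_congr rfl fun t _ => ?_
    simp only [add_mul, smul_mul_assoc, mul_smul_comm, smul_smul]
    rfl
  rw [hY]
  refine (norm_sum_mul_adj _ _).trans ?_
  have hterm : ∀ t ∈ SI (R.T k),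
      ‖(R.v1 k t * g) • Kt (R.P k) (B.eb k b) + (R.v2 k t * (-(z * p))) • Kt (R.P k) (B.ψ k)‖ ^ 2
        ≤ ‖R.v1 k t‖ ^ 2 * ‖g‖ ^ 2 + ‖R.v2 k t‖ ^ 2 * ‖z * p‖ ^ 2
          + 2 * ((star g * (-(z * p)) * gP) * (star (R.v1 k t) * R.v2 k t)).re := by
    intro t _
    refine (norm_comb_sq_le _ _ _ (fun s _ => B.eb_unit k b s) (fun s _ => B.hψ k s) _ _).trans
      (le_of_eq ?_)
    rw [norm_mul, norm_mul, norm_neg, mul_pow, mul_pow, star_mul']
    congr 2
    rw [hgP]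
    ring_nf
  refine (Finset.sum_le_sum hterm).trans (le_of_eq ?_)
  rw [Finset.sum_add_distrib, Finset.sum_add_distrib, ← Finset.sum_mul, ← Finset.sum_mul,
    ← Finset.mul_sum]
  have s1 : ∑ t ∈ SI (R.T k), ‖R.v1 k t‖ ^ 2 = 1 := sum_norm_prod _ _ (B.he k)
  have s2 : ∑ t ∈ SI (R.T k), ‖R.v2 k t‖ ^ 2 = 1 := sum_norm_prod _ _ (B.hψ k)
  have s3 : ∑ t ∈ SI (R.T k), star (R.v1 k t) * R.v2 k t = star (R.cT k) := by
    rw [cT, star_prod_ip]
    exact sum_star_prod _ _ _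
  have s4 : ∑ t ∈ SI (R.T k), ((star g * (-(z * p)) * gP) * (star (R.v1 k t) * R.v2 k t)).re
      = ((star g * (-(z * p)) * gP) * star (R.cT k)).re := by
    rw [← s3, Finset.mul_sum, Complex.re_sum]
  rw [s1, s2, s4, one_mul, one_mul]
  -- the scalar identity
  have hzz : z = 2 * B.f k b * (R.cr k * R.cL k) := by rw [hz, BData.z, R.c_eq]
  have hgP' : gP = star (B.f k b) * star (R.cP k) := R.prod_eb_psi k b
  have hnz : ‖z * p‖ ^ 2 = 4 * ‖B.f k b‖ ^ 2 * ‖R.cr k‖ ^ 2 * ‖R.cL k‖ ^ 2 * ‖p‖ ^ 2 := by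
    rw [hzz]
    simp only [norm_mul, mul_pow]
    rw [show ‖(2 : ℂ)‖ ^ 2 = 4 by norm_num]
    ring
  have hff : B.f k b * star (B.f k b) = ((‖B.f k b‖ ^ 2 : ℝ) : ℂ) := by
    simp [Complex.mul_conj']
  have hcc : R.cr k * star (R.cr k) = ((‖R.cr k‖ ^ 2 : ℝ) : ℂ) := by
    simp [Complex.mul_conj']
  have hcr : star (R.cr k) = star (R.cP k) * star (R.cT k) := by
    rw [cr, star_mul']
  have hre : ((star g * (-(z * p)) * gP) * star (R.cT k)).re
      = - 2 * (‖B.f k b‖ ^ 2 * ‖R.cr k‖ ^ 2) * (star g * R.cL k * p).re := by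
    have : (star g * (-(z * p)) * gP) * star (R.cT k)
        = ((-2 * (‖B.f k b‖ ^ 2 * ‖R.cr k‖ ^ 2) : ℝ) : ℂ) * (star g * R.cL k * p) := by
      rw [hzz, hgP']
      push_cast
      have h1 : ((‖B.f k b‖ : ℂ)) ^ 2 = B.f k b * star (B.f k b) := by
        rw [hff]; push_cast; rfl
      have h2 : ((‖R.cr k‖ : ℂ)) ^ 2 = R.cr k * star (R.cr k) := by
        rw [hcc]; push_cast; rfl
      rw [h1, h2, hcr]
      ring
    rw [this, Complex.re_ofReal_mul]
  rw [hre, hnz, Dl']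
  ring

lemma f_bound (k : ι) (b : Bool) (D : ℝ) :
    ‖B.f k b‖ ^ 2 * D ≤ D / 2 + |κ B k| * |D| / 2 := by
  have hs := B.f_sum k
  have hab : κ B k * D ≤ |κ B k| * |D| := by
    rw [← abs_mul]; exact le_abs_self _
  have hab' : -(κ B k * D) ≤ |κ B k| * |D| := by
    rw [← abs_mul]; exact neg_le_abs _
  cases b
  · have : ‖B.f k false‖ ^ 2 = (1 + κ B k) / 2 := by rw [κ]; linarith
    rw [this]
    linarith
  · have : ‖B.f k true‖ ^ 2 = (1 - κ B k) / 2 := by rw [κ]; linarith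
    rw [this]
    linarith

lemma YF_norm (k : ι) (ω : Str N) (b : Bool) : ‖R.YF k ω b‖ ^ 2 ≤ R.pm k ω := by
  refine (R.YF_norm_val k ω b).trans ?_
  rw [pm]
  have h := f_bound (B := B) k b (R.Dl' k ω)
  have h0 : 0 ≤ ‖R.cr k‖ ^ 2 := by positivity
  have := mul_le_mul_of_nonneg_left h h0
  nlinarith

lemma pm_nonneg (k : ι) (ω : Str N) : 0 ≤ R.pm k ω :=
  (sq_nonneg _).trans (R.YF_norm k ω false)

/-- The sum over labels. -/
theorem pm_sum (k : ι) : ∑ ω ∈ SI (R.L k), R.pm k ω ≤ 1 + |κ B k| * ‖R.cr k‖ ^ 2 := by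
  have s1 : ∑ ω ∈ SI (R.L k), ‖R.gL k ω‖ ^ 2 = 1 := sum_norm_prod _ _ (B.he k)
  have s2 : ∑ ω ∈ SI (R.L k), ‖R.pL k ω‖ ^ 2 = 1 := sum_norm_prod _ _ (B.hψ k)
  have s3 : ∑ ω ∈ SI (R.L k), star (R.gL k ω) * R.pL k ω = star (R.cL k) := by
    rw [cL, star_prod_ip]
    exact sum_star_prod _ _ _
  have s4 : ∑ ω ∈ SI (R.L k), R.Dl' k ω = 0 := by
    simp only [Dl']
    rw [Finset.sum_sub_distrib, ← Finset.mul_sum, s2, ← Finset.mul_sum, ← Complex.re_sum]
    have e : ∑ ω ∈ SI (R.L k), star (R.gL k ω) * R.cL k * R.pL k ω = R.cL k * star (R.cL k) := by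
      rw [← s3, Finset.mul_sum]
      refine Finset.sum_congr rfl fun ω _ => ?_
      ring
    rw [e]
    have : R.cL k * star (R.cL k) = ((‖R.cL k‖ ^ 2 : ℝ) : ℂ) := by
      simp [Complex.mul_conj']
    rw [this, Complex.ofReal_re]
    ring
  have hDl : ∀ ω, - ‖R.gL k ω‖ ^ 2 ≤ R.Dl' k ω := by
    intro ω
    have h := norm_sub_sq (R.gL k ω) (2 * R.cL k * R.pL k ω)
    have h1 : ‖2 * R.cL k * R.pL k ω‖ ^ 2 = 4 * ‖R.cL k‖ ^ 2 * ‖R.pL k ω‖ ^ 2 := by
      simp only [norm_mul, mul_pow]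
      norm_num
    have h2 : (star (R.gL k ω) * (2 * R.cL k * R.pL k ω)).re
        = 2 * (star (R.gL k ω) * R.cL k * R.pL k ω).re := by
      have : star (R.gL k ω) * (2 * R.cL k * R.pL k ω)
          = ((2 : ℝ) : ℂ) * (star (R.gL k ω) * R.cL k * R.pL k ω) := by
        push_cast; ring
      rw [this, Complex.re_ofReal_mul]
    rw [h1, h2] at h
    have h3 := sq_nonneg ‖R.gL k ω - 2 * R.cL k * R.pL k ω‖
    rw [Dl']
    linarith
  have habs : ∀ ω, |R.Dl' k ω| ≤ R.Dl' k ω + 2 * ‖R.gL k ω‖ ^ 2 := by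
    intro ω
    have h := hDl ω
    have h0 := sq_nonneg ‖R.gL k ω‖
    rw [abs_le]
    constructor <;> linarith
  have s5 : ∑ ω ∈ SI (R.L k), |R.Dl' k ω| ≤ 2 := by
    refine (Finset.sum_le_sum fun ω _ => habs ω).trans (le_of_eq ?_)
    rw [Finset.sum_add_distrib, s4, ← Finset.mul_sum, s1]
    norm_num
  simp only [pm]
  rw [Finset.sum_add_distrib, s1, ← Finset.mul_sum, Finset.sum_add_distrib, ← Finset.sum_div, s4]
  have e : ∑ ω ∈ SI (R.L k), |κ B k| * |R.Dl' k ω| / 2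
      = |κ B k| * (∑ ω ∈ SI (R.L k), |R.Dl' k ω|) / 2 := by
    rw [Finset.mul_sum, Finset.sum_div]
  rw [e]
  have h0 := abs_nonneg (κ B k)
  have h1 : |κ B k| * (∑ ω ∈ SI (R.L k), |R.Dl' k ω|) / 2 ≤ |κ B k| := by
    have := mul_le_mul_of_nonneg_left s5 h0
    linarith
  have h2 : 0 ≤ ‖R.cr k‖ ^ 2 := by positivity
  have := mul_le_mul_of_nonneg_left h1 h2
  simp only [zero_div, zero_add]
  linarith

/-- Flip identity for the fixed-label pair. -/
lemma flip_KF (k : ι) (ω : Str N) (b : Bool) {M : Op N} (h1 : ∀ A ∈ SA (R.P k), Commute M A)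
    (h2 : Pr (R.T k) * M = M) : M * R.KF k ω b = R.YF k ω b * LL (R.T k) M := by
  rw [KF, YF, mul_add, add_mul]
  congr 1
  · rw [← mul_assoc, (h1 _ (R.G1_mem k ω b)).eq, mul_assoc, ← flip_id h2, mul_assoc]
  · rw [← mul_assoc, (h1 _ (R.G2_mem k ω b)).eq, mul_assoc, ← flip_id h2, mul_assoc]

/-- Norm of the map with the flipped pair on a projector. -/
lemma X_norm (k : ι) (ω : Str N) {Q : Op N} (hh : Qᴴ = Q) (h2 : Q * Q = Q) :
    ‖Eb (R.YF k ω) Q‖ ≤ (1 / 2) * R.pm k ω := by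
  have e : ∀ b, (R.YF k ω b)ᴴ * Q * R.YF k ω b = (Q * R.YF k ω b)ᴴ * (Q * R.YF k ω b) := by
    intro b
    rw [Matrix.conjTranspose_mul, hh]
    calc (R.YF k ω b)ᴴ * Q * R.YF k ω b = (R.YF k ω b)ᴴ * (Q * Q) * R.YF k ω b := by rw [h2]
      _ = _ := by simp only [mul_assoc]
  rw [Eb_apply, e, e, norm_smul, norm_half]
  have h3 := psd_diff (Q * R.YF k ω false) (Q * R.YF k ω true)
  have hQ : ‖Q‖ ≤ 1 := norm_le_one_of_proj' hh h2
  have h4 : ∀ b, ‖Q * R.YF k ω b‖ ^ 2 ≤ R.pm k ω := by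
    intro b
    refine le_trans ?_ (R.YF_norm k ω b)
    exact pow_le_pow_left₀ (norm_nonneg _) (mul_norm_aux hQ) 2
  have h5 : max (‖Q * R.YF k ω false‖ ^ 2) (‖Q * R.YF k ω true‖ ^ 2) ≤ R.pm k ω :=
    max_le (h4 false) (h4 true)
  linarith

/-- The family with fixed labels. -/
noncomputable def famF (ω : ι → Str N) : Fam ι N where
  W := fun k => R.P k ∪ R.T k
  K := fun k b => R.KF k (ω k) b
  disj := by
    intro j k hjk
    refine Finset.disjoint_of_subset_left ?_ (Finset.disjoint_of_subset_right ?_ (B.disj j k hjk))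
    · exact Finset.union_subset (R.P_sub j) (R.T_sub j)
    · exact Finset.union_subset (R.P_sub k) (R.T_sub k)
  mem := fun k b => R.KF_mem k (ω k) b

end Part

end Vale.Agent.Lib.P368y
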