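import Vale.Agent.Lib.P368y.Label2

/-!
Fixing the labels: the bound for reflection blocks with private projectors.
-/

open scoped BigOperators Matrix Matrix.Norms.L2Operator

namespace Vale.Agent.Lib.P368y

open Vale.Agent.Lib.P368x

variable {N : ℕ} {ι : Type*} [DecidableEq ι]

/-- Moving a pair through a family of operators. -/
lemma Eb_flip {γ : Type*} (C : Finset γ) (K Y : Bool → Op N) (M M' : γ → Op N)
    (h : ∀ c ∈ C, ∀ b, M c * K b = Y b * M' c) (Z : Op N) :
    Eb K (∑ c ∈ C, (M c)ᴴ * Z * M c) = ∑ c ∈ C, (M' c)ᴴ * (Eb Y Z) * M' c := by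
  have one : ∀ c ∈ C, ∀ b,
      (K b)ᴴ * ((M c)ᴴ * Z * M c) * K b = (M' c)ᴴ * ((Y b)ᴴ * Z * Y b) * M' c := by
    intro c hc b
    calc (K b)ᴴ * ((M c)ᴴ * Z * M c) * K b = (M c * K b)ᴴ * Z * (M c * K b) := by
          rw [Matrix.conjTranspose_mul]; simp only [mul_assoc]
      _ = (Y b * M' c)ᴴ * Z * (Y b * M' c) := by rw [h c hc b]
      _ = _ := by rw [Matrix.conjTranspose_mul]; simp only [mul_assoc]
  simp only [Eb_apply, Finset.mul_sum, Finset.sum_mul, ← Finset.sum_sub_distrib, Finset.smul_sum]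
  refine Finset.sum_congr rfl fun c hc => ?_
  rw [one c hc false, one c hc true]
  simp only [mul_sub, sub_mul, mul_smul_comm, smul_mul_assoc]

lemma LL_commute {T : Finset (Fin N)} {M A : Op N} (h : Commute M A) (he : ∀ t, Commute (et T t) A) :
    Commute (LL T M) A := by
  rw [LL]
  exact Commute.sum_left _ _ _ fun t _ => ((he t).mul_left h).mul_left (he t)

lemma LL_Pr {T T' : Finset (Fin N)} {M : Op N} (hd : Disjoint T' T) (h : Pr T' * M = M) :
    Pr T' * LL T M = LL T M := by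
  rw [LL, Finset.mul_sum]
  refine Finset.sum_congr rfl fun t _ => ?_
  have c : Commute (Pr T') (et T t) := SA_commute hd (Pr_mem_SA _) (et_mem _ _)
  calc Pr T' * (et T t * M * et T t) = (Pr T' * et T t) * M * et T t := by simp only [mul_assoc]
    _ = et T t * (Pr T' * M) * et T t := by rw [c.eq]; simp only [mul_assoc]
    _ = _ := by rw [h]

lemma Pr_mul_et_adj {T' T : Finset (Fin N)} (h : T' ⊆ T) (t : Str N) :
    Pr T' * (et T t)ᴴ = (et T t)ᴴ := by
  rw [et, Kt, Pr, tensor_conjTranspose, tensor_mul]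
  congr 1
  funext s
  by_cases hs : s ∈ T'
  · have hs' : s ∈ T := h hs
    simp [hs, hs', e00_mul_ket_adj]
  · simp [hs]

/-- Commuting Hermitian idempotents with pairwise disjoint supports. -/
structure QFam (ι : Type*) (N : ℕ) where
  S : ι → Finset (Fin N)
  Q : ι → Op N
  hQmem : ∀ k, Q k ∈ SA (S k)
  hQh : ∀ k, (Q k)ᴴ = Q k
  hQ2 : ∀ k, Q k * Q k = Q k
  hSd : ∀ j k, j ≠ k → Disjoint (S j) (S k)

namespace QFam

variable (D : QFam ι N)

lemma Q_pairwise (J : Finset ι) : (J : Set ι).Pairwise (Function.onFun Commute D.Q) := by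
  intro j _ k _ hjk
  exact SA_commute (D.hSd j k hjk) (D.hQmem j) (D.hQmem k)

/-- The product of the projectors. -/
noncomputable def QP (J : Finset ι) : Op N := J.noncommProd D.Q (D.Q_pairwise J)

@[simp] lemma QP_empty : D.QP ∅ = 1 := rfl

lemma QP_insert {J : Finset ι} {k : ι} (hk : k ∉ J) : D.QP (insert k J) = D.Q k * D.QP J := by
  rw [QP, Finset.noncommProd_insert_of_notMem _ _ _ _ hk]
  rfl

lemma QP_mem (J : Finset ι) : D.QP J ∈ SA (J.biUnion D.S) := by
  induction J using Finset.induction_on with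
  | empty => simpa using SA_one _
  | insert k J hk ih =>
    rw [QP_insert D hk, Finset.biUnion_insert]
    exact mul_mem (SA_mono Finset.subset_union_left (D.hQmem k))
      (SA_mono Finset.subset_union_right ih)

lemma QP_commute {J : Finset ι} {U : Finset (Fin N)} (h : ∀ k ∈ J, Disjoint (D.S k) U) {A : Op N}
    (hA : A ∈ SA U) : Commute (D.QP J) A := by
  refine SA_commute ?_ (D.QP_mem J) hA
  rw [Finset.disjoint_biUnion_left]
  exact h

lemma QP_commute_of {J : Finset ι} {A : Op N} (h : ∀ k ∈ J, ∀ C ∈ SA (D.S k), Commute A C) :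
    Commute A (D.QP J) := by
  induction J using Finset.induction_on with
  | empty => simp
  | insert k J hk ih =>
    rw [QP_insert D hk]
    exact (h k (Finset.mem_insert_self _ _) _ (D.hQmem k)).mul_right
      (ih fun j hj => h j (Finset.mem_insert_of_mem hj))

lemma QP_herm (J : Finset ι) : (D.QP J)ᴴ = D.QP J := by
  induction J using Finset.induction_on with
  | empty => simp
  | insert k J hk ih =>
    have hc : Commute (D.Q k) (D.QP J) := D.QP_commute_of fun j hj C hC => by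
      have hne : k ≠ j := fun h => hk (h ▸ hj)
      exact SA_commute (D.hSd k j hne) (D.hQmem k) hC
    rw [QP_insert D hk, Matrix.conjTranspose_mul, ih, D.hQh, hc.symm.eq]

lemma QP_idem (J : Finset ι) : D.QP J * D.QP J = D.QP J := by
  induction J using Finset.induction_on with
  | empty => simp
  | insert k J hk ih =>
    have hc : Commute (D.Q k) (D.QP J) := D.QP_commute_of fun j hj C hC => by
      have hne : k ≠ j := fun h => hk (h ▸ hj)
      exact SA_commute (D.hSd k j hne) (D.hQmem k) hC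
    rw [QP_insert D hk]
    calc D.Q k * D.QP J * (D.Q k * D.QP J) = D.Q k * (D.QP J * D.Q k) * D.QP J := by
          simp only [mul_assoc]
      _ = D.Q k * (D.Q k * D.QP J) * D.QP J := by rw [hc.symm.eq]
      _ = (D.Q k * D.Q k) * (D.QP J * D.QP J) := by simp only [mul_assoc]
      _ = _ := by rw [ih, D.hQ2]

end QFam

/-- The projectors attached to the blocks. -/
structure QData {B : BData ι N} (R : Part B) extends QFam ι N where
  hPS : ∀ k, R.P k ⊆ S k
  hST : ∀ k, Disjoint (S k) (R.T k)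
  hSL : ∀ k, Disjoint (S k) (R.L k)
  hpriv : ∀ j k, j ≠ k → Disjoint (S k) (B.W j)

namespace QData

variable {B : BData ι N} {R : Part B} (D : QData R)

lemma disj_P (j k : ι) (h : j ≠ k) : Disjoint (R.P j ∪ R.T j) (R.P k ∪ R.T k) :=
  Finset.disjoint_of_subset_left (Finset.union_subset (R.P_sub j) (R.T_sub j))
    (Finset.disjoint_of_subset_right (Finset.union_subset (R.P_sub k) (R.T_sub k)) (B.disj j k h))

lemma S_disj_PT (j k : ι) (h : j ≠ k) : Disjoint (D.S j) (R.P k ∪ R.T k) :=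
  Finset.disjoint_of_subset_right (Finset.union_subset (R.P_sub k) (R.T_sub k)) (D.hpriv k j h.symm)

/-- The signed map of the flipped pair applied to the projector is supported on the block. -/
lemma Eb_YF_mem (k : ι) (ω : Str N) : Eb (R.YF k ω) (D.Q k) ∈ SA (D.S k ∪ R.T k) := by
  have hY : ∀ b, R.YF k ω b ∈ SA (D.S k ∪ R.T k) := fun b =>
    SA_mono (Finset.union_subset_union_left (D.hPS k)) (R.YF_mem k ω b)
  have hQ : D.Q k ∈ SA (D.S k ∪ R.T k) := SA_mono Finset.subset_union_left (D.hQmem k)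
  rw [Eb_apply]
  exact Subalgebra.smul_mem _ (sub_mem (mul_mem (mul_mem (SA_adj (hY _)) hQ) (hY _))
    (mul_mem (mul_mem (SA_adj (hY _)) hQ) (hY _))) _

lemma biUnion_T_disj {J : Finset ι} {k : ι} (hk : k ∉ J) :
    Disjoint (J.biUnion R.T) (R.T k) := by
  rw [Finset.disjoint_biUnion_left]
  intro j hj
  have hjk : j ≠ k := fun h => hk (h ▸ hj)
  exact Finset.disjoint_of_subset_left (R.T_sub j)
    (Finset.disjoint_of_subset_right (R.T_sub k) (B.disj j k hjk))

/-- The main bound with the label fixed. -/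
theorem rew_bound (ω : ι → Str N) {γ : Type*} (C : Finset γ) (J : Finset ι) (M : γ → Op N) (Ξ : Op N)
    (h1 : ∀ k ∈ J, ∀ c ∈ C, ∀ A ∈ SA (R.P k), Commute (M c) A)
    (h2 : ∀ k ∈ J, ∀ c ∈ C, Pr (R.T k) * M c = M c)
    (h3 : ∀ k ∈ J, ∀ b, Commute Ξ (R.YF k (ω k) b) ∧ Commute Ξ (R.YF k (ω k) b)ᴴ) :
    ‖(R.famF ω).EJ J (∑ c ∈ C, (M c)ᴴ * (D.toQFam.QP J * Ξ) * M c)‖
      ≤ (∏ k ∈ J, ((1 / 2) * R.pm k (ω k))) * ‖Ξ‖ * ‖Ptr (J.biUnion R.T) (∑ c ∈ C, (M c)ᴴ * M c)‖ := by
  induction J using Finset.induction_on generalizing M Ξ with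
  | empty =>
    simp only [Fam.EJ_empty, Module.End.one_apply, QFam.QP_empty, one_mul, Finset.prod_empty,
      Finset.biUnion_empty, Ptr_empty]
    exact kraus_same C M (fun _ => Ξ) ‖Ξ‖ (norm_nonneg _) fun _ _ => le_rfl
  | insert k J hk ih =>
    have hkJ : k ∈ insert k J := Finset.mem_insert_self _ _
    have hJs : ∀ {j}, j ∈ J → j ∈ insert k J := fun h => Finset.mem_insert_of_mem h
    have hne : ∀ {j}, j ∈ J → j ≠ k := fun {j} h e => hk (e ▸ h)
    set M' : γ → Op N := fun c => LL (R.T k) (M c) with hM'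
    set Ξ' : Op N := Eb (R.YF k (ω k)) (D.Q k) * Ξ with hΞ'
    -- the flip
    have hflip : ∀ c ∈ C, ∀ b, M c * R.KF k (ω k) b = R.YF k (ω k) b * M' c := fun c hc b =>
      R.flip_KF k (ω k) b (h1 k hkJ c hc) (h2 k hkJ c hc)
    -- rewriting the argument
    have hQPc : ∀ b, Commute (D.toQFam.QP J) (R.YF k (ω k) b) ∧ Commute (D.toQFam.QP J) (R.YF k (ω k) b)ᴴ := by
      intro b
      have hd : ∀ j ∈ J, Disjoint (D.S j) (R.P k ∪ R.T k) := fun j hj => D.S_disj_PT j k (hne hj)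
      exact ⟨D.toQFam.QP_commute hd (R.YF_mem k _ b), D.toQFam.QP_commute hd (SA_adj (R.YF_mem k _ b))⟩
    have hQc : Commute (D.Q k) (D.toQFam.QP J) := by
      refine D.toQFam.QP_commute_of fun j hj C hC => ?_
      exact SA_commute (D.hSd k j (hne hj).symm) (D.hQmem k) hC
    have hEb : Eb (R.YF k (ω k)) (D.toQFam.QP (insert k J) * Ξ) = D.toQFam.QP J * Ξ' := by
      rw [QFam.QP_insert _ hk, hQc.eq, mul_assoc, Eb_mul_left fun b => (hQPc b).2,
        Eb_mul_right fun b => (h3 k hkJ b).1]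
    have hstep : Eb (R.KF k (ω k)) (∑ c ∈ C, (M c)ᴴ * (D.toQFam.QP (insert k J) * Ξ) * M c)
        = ∑ c ∈ C, (M' c)ᴴ * (D.toQFam.QP J * Ξ') * M' c := by
      rw [Eb_flip C _ _ M M' hflip, hEb]
    have hdJ : ∀ j ∈ J, Disjoint (R.T k) (R.P j) := fun j hj =>
      Finset.disjoint_of_subset_left (R.T_sub k)
        (Finset.disjoint_of_subset_right (R.P_sub j) (B.disj k j (hne hj).symm))
    have hdJ' : ∀ j ∈ J, Disjoint (R.T j) (R.T k) := fun j hj =>
      Finset.disjoint_of_subset_left (R.T_sub j)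
        (Finset.disjoint_of_subset_right (R.T_sub k) (B.disj j k (hne hj)))
    -- the induction hypothesis
    have IH := ih M' Ξ'
      (fun j hj c hc A hA => LL_commute (h1 j (hJs hj) c hc A hA)
        fun t => SA_commute (hdJ j hj) (et_mem _ _) hA)
      (fun j hj c hc => LL_Pr (hdJ' j hj) (h2 j (hJs hj) c hc))
      (fun j hj b => by
        have hd : Disjoint (D.S k ∪ R.T k) (R.P j ∪ R.T j) := by
          rw [Finset.disjoint_union_left]
          refine ⟨D.S_disj_PT k j (hne hj).symm, ?_⟩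
          exact Finset.disjoint_of_subset_left (R.T_sub k)
            (Finset.disjoint_of_subset_right (Finset.union_subset (R.P_sub j) (R.T_sub j))
              (B.disj k j (hne hj).symm))
        have hm := D.Eb_YF_mem k (ω k)
        exact ⟨(SA_commute hd hm (R.YF_mem j _ b)).mul_left (h3 j (hJs hj) b).1,
          (SA_commute hd hm (SA_adj (R.YF_mem j _ b))).mul_left (h3 j (hJs hj) b).2⟩)
    -- the norms
    have hX : ‖Ξ'‖ ≤ (1 / 2) * R.pm k (ω k) * ‖Ξ‖ := by
      refine (norm_mul_le _ _).trans ?_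
      exact mul_le_mul_of_nonneg_right (R.X_norm k _ (D.hQh k) (D.hQ2 k)) (norm_nonneg _)
    have hgram : ∑ c ∈ C, (M' c)ᴴ * M' c = Ptr (R.T k) (∑ c ∈ C, (M c)ᴴ * M c) :=
      gram_LL _ C M (h2 k hkJ)
    have hPtr : Ptr (J.biUnion R.T) (∑ c ∈ C, (M' c)ᴴ * M' c)
        = Ptr ((insert k J).biUnion R.T) (∑ c ∈ C, (M c)ᴴ * M c) := by
      rw [hgram, ← Ptr_union (biUnion_T_disj hk), Finset.biUnion_insert, Finset.union_comm]
    rw [Fam.EJ_insert_apply' _ hk]
    have e0 : Eb ((R.famF ω).K k) = Eb (R.KF k (ω k)) := rfl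
    rw [e0, hstep]
    refine IH.trans ?_
    rw [hPtr, Finset.prod_insert hk]
    have h0 : 0 ≤ ∏ j ∈ J, ((1 / 2) * R.pm j (ω j)) :=
      Finset.prod_nonneg fun j _ => mul_nonneg (by norm_num) (R.pm_nonneg j _)
    have h4 := norm_nonneg (Ptr ((insert k J).biUnion R.T) (∑ c ∈ C, (M c)ᴴ * M c))
    calc (∏ j ∈ J, ((1 / 2) * R.pm j (ω j))) * ‖Ξ'‖ * _
        ≤ (∏ j ∈ J, ((1 / 2) * R.pm j (ω j))) * ((1 / 2) * R.pm k (ω k) * ‖Ξ‖) * _ := by
          gcongr
      _ = _ := by ring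

lemma norm_one_le : ‖(1 : Op N)‖ ≤ 1 :=
  norm_le_one_of_proj' (by simp) (by simp)

/-- The bound with all labels fixed. -/
theorem all_fixed (ω : ι → Str N) (J : Finset ι) (Θ : Op N) (hh : Θᴴ = Θ) (h2 : Θ * Θ = Θ)
    (hc : ∀ k ∈ J, ∀ A ∈ SA (D.S k), Commute Θ A) (hP : ‖Ptr (J.biUnion R.T) Θ‖ ≤ 1) :
    ‖(R.famF ω).EJ J (D.toQFam.QP J * Θ)‖ ≤ ∏ k ∈ J, ((1 / 2) * R.pm k (ω k)) := by
  set Tb := J.biUnion R.T with hTb
  set M : Str N → Op N := fun c => (et Tb c)ᴴ * Θ with hM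
  have hdS : ∀ k ∈ J, Disjoint (D.S k) Tb := by
    intro k _
    rw [hTb, Finset.disjoint_biUnion_right]
    intro j _
    by_cases hjk : j = k
    · subst hjk; exact D.hST j
    · exact Finset.disjoint_of_subset_right (R.T_sub j) (D.hpriv j k hjk)
  have hgram : ∑ c ∈ SI Tb, (M c)ᴴ * M c = Θ := by
    have e : ∀ c ∈ SI Tb, (M c)ᴴ * M c = Θ * (et Tb c * (et Tb c)ᴴ) * Θ := by
      intro c _
      simp only [hM, Matrix.conjTranspose_mul, Matrix.conjTranspose_conjTranspose, hh]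
      simp only [mul_assoc]
    rw [Finset.sum_congr rfl e, ← Finset.sum_mul, ← Finset.mul_sum, et_complete, mul_one, h2]
  have hQPT : ∑ c ∈ SI Tb, (M c)ᴴ * (D.toQFam.QP J * 1) * M c = D.toQFam.QP J * Θ := by
    have hcQ : Commute Θ (D.toQFam.QP J) := D.toQFam.QP_commute_of hc
    have e : ∀ c ∈ SI Tb, (M c)ᴴ * (D.toQFam.QP J * 1) * M c
        = Θ * (D.toQFam.QP J * (et Tb c * (et Tb c)ᴴ)) * Θ := by
      intro c _
      have hc1 : Commute (D.toQFam.QP J) (et Tb c) := D.toQFam.QP_commute hdS (et_mem _ _)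
      simp only [hM, Matrix.conjTranspose_mul, Matrix.conjTranspose_conjTranspose, hh, mul_one]
      calc Θ * et Tb c * D.toQFam.QP J * ((et Tb c)ᴴ * Θ)
          = Θ * (et Tb c * D.toQFam.QP J) * (et Tb c)ᴴ * Θ := by simp only [mul_assoc]
        _ = Θ * (D.toQFam.QP J * et Tb c) * (et Tb c)ᴴ * Θ := by rw [hc1.eq]
        _ = _ := by simp only [mul_assoc]
    rw [Finset.sum_congr rfl e, ← Finset.sum_mul, ← Finset.mul_sum, ← Finset.mul_sum, et_complete,
      mul_one, hcQ.eq, mul_assoc, h2]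
  have H := D.rew_bound ω (SI Tb) J M 1
    (fun k hk c _ A hA => by
      have hd : Disjoint Tb (R.P k) := by
        rw [hTb, Finset.disjoint_biUnion_left]
        intro j _
        by_cases hjk : j = k
        · subst hjk; exact (R.hPT j).symm
        · exact Finset.disjoint_of_subset_left (R.T_sub j)
            (Finset.disjoint_of_subset_right (R.P_sub k) (B.disj j k hjk))
      exact (SA_commute hd (SA_adj (et_mem _ _)) hA).mul_left (hc k hk A (SA_mono (D.hPS k) hA)))
    (fun k hk c _ => by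
      simp only [hM]
      rw [← mul_assoc, Pr_mul_et_adj]
      exact Finset.subset_biUnion_of_mem _ hk)
    (fun k _ b => ⟨Commute.one_left _, Commute.one_left _⟩)
  rw [hQPT, hgram, ← hTb] at H
  have h0 : 0 ≤ ∏ k ∈ J, ((1 / 2) * R.pm k (ω k)) :=
    Finset.prod_nonneg fun j _ => mul_nonneg (by norm_num) (R.pm_nonneg j _)
  refine H.trans ?_
  calc _ ≤ (∏ k ∈ J, ((1 / 2) * R.pm k (ω k))) * 1 * 1 := by
        gcongr
        exact norm_one_le
    _ = _ := by ring

lemma Pt_mem (T : Finset (Fin N)) (t : Str N) : Pt T t ∈ SA T := by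
  rw [← et_mul_adj]
  exact mul_mem (et_mem _ _) (SA_adj (et_mem _ _))

lemma et_adj_Pt (T : Finset (Fin N)) (t : Str N) : (et T t)ᴴ * Pt T t = (et T t)ᴴ := by
  have hPh : (Pt T t)ᴴ = Pt T t := by
    rw [← et_mul_adj, Matrix.conjTranspose_mul, Matrix.conjTranspose_conjTranspose]
  have := congrArg Matrix.conjTranspose (Pt_adj_et T t)
  rwa [Matrix.conjTranspose_mul, hPh] at this

omit D in
lemma famF_EJ_update (ω : ι → Str N) {J : Finset ι} {k : ι} (hk : k ∉ J) (ω' : Str N) :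
    (R.famF (Function.update ω k ω')).EJ J = (R.famF ω).EJ J := by
  apply Fam.EJ_congr
  intro j hj
  funext b
  have hjk : j ≠ k := fun h => hk (h ▸ hj)
  show R.KF j (Function.update ω k ω' j) b = R.KF j (ω j) b
  rw [Function.update_of_ne hjk]

/-- The label sum: induction on the free blocks. -/
theorem mixed (J₂ : Finset ι) : ∀ (J₁ : Finset ι) (_ : Disjoint J₁ J₂) (ω : ι → Str N) (Θ : Op N)
    (_ : Θᴴ = Θ) (_ : Θ * Θ = Θ) (_ : ∀ k ∈ J₁ ∪ J₂, ∀ A ∈ SA (D.S k), Commute Θ A)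
    (_ : ∀ k ∈ J₂, ∀ ω', Commute Θ (Pt (R.L k) ω'))
    (_ : ‖Ptr ((J₁ ∪ J₂).biUnion R.T) Θ‖ ≤ 1),
    ‖B.fam.EJ J₂ ((R.famF ω).EJ J₁ (D.toQFam.QP (J₁ ∪ J₂) * Θ))‖
      ≤ (∏ k ∈ J₂, ((1 / 2) * (1 + |Part.κ B k| * ‖R.cr k‖ ^ 2)))
        * ∏ k ∈ J₁, ((1 / 2) * R.pm k (ω k)) := by
  induction J₂ using Finset.induction_on with
  | empty =>
    intro J₁ _ ω Θ hh h2 hc _ hP
    simp only [Finset.union_empty] at hc hP ⊢
    simp only [Fam.EJ_empty, Module.End.one_apply, Finset.prod_empty, one_mul]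
    exact D.all_fixed ω J₁ Θ hh h2 hc hP
  | insert k J₂ hk ih =>
    intro J₁ hd ω Θ hh h2 hc hL hP
    have hkJ₁ : k ∉ J₁ := fun h => (Finset.disjoint_left.mp hd h) (Finset.mem_insert_self _ _)
    have hd' : Disjoint (insert k J₁) J₂ := by
      rw [Finset.disjoint_insert_left]
      exact ⟨hk, Finset.disjoint_of_subset_right (Finset.subset_insert _ _) hd⟩
    have hU : J₁ ∪ insert k J₂ = insert k J₁ ∪ J₂ := by
      rw [Finset.union_insert, Finset.insert_union]
    have hkU : k ∈ insert k J₁ ∪ J₂ := Finset.mem_union_left _ (Finset.mem_insert_self _ _)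
    set JJ := insert k J₁ ∪ J₂ with hJJ
    rw [hU] at hc hP ⊢
    set A := (R.famF ω).EJ J₁ (D.toQFam.QP JJ * Θ) with hA
    -- commutation with the label
    have hLk : ∀ j ∈ J₁, Disjoint (R.L k) ((R.famF ω).W j) := by
      intro j hj
      have hjk : k ≠ j := fun h => hkJ₁ (h ▸ hj)
      exact Finset.disjoint_of_subset_left (R.L_sub k)
        (Finset.disjoint_of_subset_right (Finset.union_subset (R.P_sub j) (R.T_sub j))
          (B.disj k j hjk))
    have hSL : ∀ j, Disjoint (D.S j) (R.L k) := by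
      intro j
      by_cases hjk : j = k
      · subst hjk; exact D.hSL j
      · exact Finset.disjoint_of_subset_right (R.L_sub k) (D.hpriv k j (Ne.symm hjk))
    have hPtc : ∀ ω', Commute (D.toQFam.QP JJ) (Pt (R.L k) ω') := fun ω' =>
      D.toQFam.QP_commute (fun j _ => hSL j) (Pt_mem _ _)
    have hcomm : ∀ ω' ∈ SI (R.L k), Commute A (et (R.L k) ω' * (et (R.L k) ω')ᴴ) := by
      intro ω' _
      rw [et_mul_adj]
      refine (Fam.EJ_commute_op _ (Fam.off_of_SA _ hLk (Pt_mem _ _)) ?_).symm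
      exact ((hPtc ω').mul_left (hL k (Finset.mem_insert_self _ _) ω')).symm
    have hexp := R.Eb_expand k A hcomm
    -- the conjugated operator
    set Θ' : Str N → Op N := fun ω' => (et (R.L k) ω')ᴴ * Θ * et (R.L k) ω' with hΘ'
    have hconj : ∀ ω', (et (R.L k) ω')ᴴ * A * et (R.L k) ω'
        = (R.famF ω).EJ J₁ (D.toQFam.QP JJ * Θ' ω') := by
      intro ω'
      have o1 : (R.famF ω).Off J₁ (et (R.L k) ω') := Fam.off_of_SA _ hLk (et_mem _ _)
      have o2 : (R.famF ω).Off J₁ (et (R.L k) ω')ᴴ := Fam.off_of_SA _ hLk (SA_adj (et_mem _ _))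
      rw [hA, ← Fam.EJ_mul_left _ o2, ← Fam.EJ_mul_right _ o1]
      congr 1
      have c1 : Commute (D.toQFam.QP JJ) (et (R.L k) ω')ᴴ :=
        D.toQFam.QP_commute (fun j _ => hSL j) (SA_adj (et_mem _ _))
      rw [hΘ']
      simp only
      calc (et (R.L k) ω')ᴴ * (D.toQFam.QP JJ * Θ) * et (R.L k) ω'
          = ((et (R.L k) ω')ᴴ * D.toQFam.QP JJ) * Θ * et (R.L k) ω' := by simp only [mul_assoc]
        _ = (D.toQFam.QP JJ * (et (R.L k) ω')ᴴ) * Θ * et (R.L k) ω' := by rw [c1.eq]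
        _ = _ := by simp only [mul_assoc]
    have hEJ : ∀ ω', Eb (R.KF k ω') ((R.famF ω).EJ J₁ (D.toQFam.QP JJ * Θ' ω'))
        = (R.famF (Function.update ω k ω')).EJ (insert k J₁) (D.toQFam.QP JJ * Θ' ω') := by
      intro ω'
      have e0 : (R.famF (Function.update ω k ω')).K k = R.KF k ω' := by
        funext b
        show R.KF k (Function.update ω k ω' k) b = _
        rw [Function.update_self]
      rw [Fam.EJ_insert_apply _ hkJ₁, e0, famF_EJ_update ω hkJ₁ ω']
    have hsum : B.fam.EJ (insert k J₂) A = ∑ ω' ∈ SI (R.L k), B.fam.EJ J₂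
        ((R.famF (Function.update ω k ω')).EJ (insert k J₁) (D.toQFam.QP JJ * Θ' ω')) := by
      rw [Fam.EJ_insert_apply' _ hk]
      have e0 : Eb (B.fam.K k) = Eb (B.K k) := rfl
      rw [e0, hexp, map_sum]
      refine Finset.sum_congr rfl fun ω' _ => ?_
      rw [hconj, hEJ]
    -- each term
    have hterm : ∀ ω' ∈ SI (R.L k), ‖B.fam.EJ J₂
        ((R.famF (Function.update ω k ω')).EJ (insert k J₁) (D.toQFam.QP JJ * Θ' ω'))‖
        ≤ (∏ j ∈ J₂, ((1 / 2) * (1 + |Part.κ B j| * ‖R.cr j‖ ^ 2)))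
          * (((1 / 2) * R.pm k ω') * ∏ j ∈ J₁, ((1 / 2) * R.pm j (ω j))) := by
      intro ω' _
      have hJ2L : ∀ j ∈ J₂, Disjoint (R.L k) (R.L j) := fun j hj => by
        have hkj : k ≠ j := fun h => hk (h ▸ hj)
        exact Finset.disjoint_of_subset_left (R.L_sub k)
          (Finset.disjoint_of_subset_right (R.L_sub j) (B.disj k j hkj))
      have hLT : Disjoint (R.L k) (JJ.biUnion R.T) := by
        rw [Finset.disjoint_biUnion_right]
        intro j _
        by_cases hjk : j = k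
        · subst hjk; exact (R.hTL j).symm
        · exact Finset.disjoint_of_subset_left (R.L_sub k)
            (Finset.disjoint_of_subset_right (R.T_sub j) (B.disj k j (Ne.symm hjk)))
      have := ih (insert k J₁) hd' (Function.update ω k ω') (Θ' ω')
        (by
          simp only [hΘ', Matrix.conjTranspose_mul, Matrix.conjTranspose_conjTranspose, hh]
          simp only [mul_assoc])
        (by
          simp only [hΘ']
          have c1 := hL k (Finset.mem_insert_self _ _) ω'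
          calc (et (R.L k) ω')ᴴ * Θ * et (R.L k) ω' * ((et (R.L k) ω')ᴴ * Θ * et (R.L k) ω')
              = (et (R.L k) ω')ᴴ * (Θ * (et (R.L k) ω' * (et (R.L k) ω')ᴴ)) * Θ * et (R.L k) ω' := by
                simp only [mul_assoc]
            _ = ((et (R.L k) ω')ᴴ * Pt (R.L k) ω') * (Θ * Θ) * et (R.L k) ω' := by
                rw [et_mul_adj, c1.eq]; simp only [mul_assoc]
            _ = _ := by rw [et_adj_Pt, h2])
        (fun j hj C hC => by
          simp only [hΘ']
          have c1 : Commute (et (R.L k) ω') C :=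
            (SA_commute (hSL j) hC (et_mem _ _)).symm
          have c2 : Commute (et (R.L k) ω')ᴴ C :=
            (SA_commute (hSL j) hC (SA_adj (et_mem _ _))).symm
          exact (c2.mul_left (hc j hj C hC)).mul_left c1)
        (fun j hj ω'' => by
          simp only [hΘ']
          have c1 : Commute (et (R.L k) ω') (Pt (R.L j) ω'') :=
            SA_commute (hJ2L j hj) (et_mem _ _) (Pt_mem _ _)
          have c2 : Commute (et (R.L k) ω')ᴴ (Pt (R.L j) ω'') :=
            SA_commute (hJ2L j hj) (SA_adj (et_mem _ _)) (Pt_mem _ _)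
          exact (c2.mul_left (hL j (Finset.mem_insert_of_mem hj) ω'')).mul_left c1)
        (by
          simp only [hΘ']
          rw [Ptr_sandwich (fun t => SA_commute hLT (et_mem _ _) (et_mem _ _))
            (fun t => SA_commute hLT (et_mem _ _) (SA_adj (et_mem _ _)))]
          refine (mul3_norm_le _ ?_ (et_norm _ _)).trans hP
          rw [norm_adj]
          exact et_norm _ _)
      rw [Finset.prod_insert hkJ₁, Function.update_self] at this
      have e1 : ∏ j ∈ J₁, ((1 / 2) * R.pm j (Function.update ω k ω' j))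
          = ∏ j ∈ J₁, ((1 / 2) * R.pm j (ω j)) := by
        refine Finset.prod_congr rfl fun j hj => ?_
        have hjk : j ≠ k := fun h => hkJ₁ (h ▸ hj)
        rw [Function.update_of_ne hjk]
      rwa [e1] at this
    rw [hsum]
    refine (norm_sum_le _ _).trans ((Finset.sum_le_sum hterm).trans ?_)
    rw [Finset.prod_insert hk]
    have hP1 : 0 ≤ ∏ j ∈ J₂, ((1 / 2) * (1 + |Part.κ B j| * ‖R.cr j‖ ^ 2)) :=
      Finset.prod_nonneg fun j _ => by positivity
    have hP2 : 0 ≤ ∏ j ∈ J₁, ((1 / 2) * R.pm j (ω j)) :=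
      Finset.prod_nonneg fun j _ => mul_nonneg (by norm_num) (R.pm_nonneg j _)
    have hs := R.pm_sum k
    calc ∑ ω' ∈ SI (R.L k), (∏ j ∈ J₂, ((1 / 2) * (1 + |Part.κ B j| * ‖R.cr j‖ ^ 2)))
          * (((1 / 2) * R.pm k ω') * ∏ j ∈ J₁, ((1 / 2) * R.pm j (ω j)))
        = (∏ j ∈ J₂, ((1 / 2) * (1 + |Part.κ B j| * ‖R.cr j‖ ^ 2)))
          * (((1 / 2) * ∑ ω' ∈ SI (R.L k), R.pm k ω') * ∏ j ∈ J₁, ((1 / 2) * R.pm j (ω j))) := by
          rw [Finset.mul_sum, Finset.sum_mul, Finset.mul_sum]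
      _ ≤ (∏ j ∈ J₂, ((1 / 2) * (1 + |Part.κ B j| * ‖R.cr j‖ ^ 2)))
          * (((1 / 2) * (1 + |Part.κ B k| * ‖R.cr k‖ ^ 2)) * ∏ j ∈ J₁, ((1 / 2) * R.pm j (ω j))) := by
          gcongr
      _ = _ := by ring

/-- The label bound. -/
theorem label (J : Finset ι) (Θ : Op N) (hh : Θᴴ = Θ) (h2 : Θ * Θ = Θ)
    (hc : ∀ k ∈ J, ∀ A ∈ SA (D.S k), Commute Θ A) (hL : ∀ k ∈ J, ∀ ω', Commute Θ (Pt (R.L k) ω'))
    (hP : ‖Ptr (J.biUnion R.T) Θ‖ ≤ 1) :
    ‖B.fam.EJ J (D.toQFam.QP J * Θ)‖ ≤ ∏ k ∈ J, ((1 / 2) * (1 + |Part.κ B k| * ‖R.cr k‖ ^ 2)) := by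
  have := D.mixed J ∅ (Finset.disjoint_empty_left _) (fun _ => zeroStr N) Θ hh h2
    (by simpa using hc) hL (by simpa using hP)
  simpa using this

end QData

end Vale.Agent.Lib.P368y
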