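import Vale.Agent.Lib.P368y.Top1

/-!
Expansion over the gates containing many inputs: a bound for blocks not crossing those gates.
-/

open scoped BigOperators Matrix Matrix.Norms.L2Operator

namespace Vale.Agent.Lib.P368y

open Vale.Agent.Lib.P368x

variable {N : ℕ} {ι : Type*} [DecidableEq ι]

namespace BData

variable (B : BData ι N)

lemma peel_gen_left (J : Finset ι) (Y : Op N) :
    ‖B.fam.EJ J (B.inQ.QP J * Y)‖ ≤ (3 / 4 : ℝ) ^ J.card * ‖Y‖ := by
  have h := peel_left B.fam_nrm J (B.inQ.QP_herm J) (B.inQ.QP_idem J) Y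
  have h2 := norm_AJ_inQ B J
  refine abs_le_of_sq_le_sq' (h.trans ?_) (by positivity) |>.2
  rw [mul_pow]
  have h3 := half_pow_le J.card
  have h4 := sq_nonneg ‖Y‖
  gcongr
  exact h2.trans h3

lemma peel_gen_right (J : Finset ι) (Y : Op N) :
    ‖B.fam.EJ J (Y * B.inQ.QP J)‖ ≤ (3 / 4 : ℝ) ^ J.card * ‖Y‖ := by
  have h := peel_right B.fam_nrm J (B.inQ.QP_herm J) (B.inQ.QP_idem J) Y
  have h2 := norm_AJ_inQ B J
  refine abs_le_of_sq_le_sq' (h.trans ?_) (by positivity) |>.2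
  rw [mul_pow]
  have h3 := half_pow_le J.card
  have h4 := sq_nonneg ‖Y‖
  gcongr
  exact h2.trans h3

lemma inQ_off (J J' : Finset ι) (h : Disjoint J J') : B.fam.Off J' (B.inQ.QP J) := by
  intro k hk b
  have hd : ∀ j ∈ J, Disjoint (B.inQ.S j) (B.W k) := by
    intro j hj
    have hjk : j ≠ k := fun e => Finset.disjoint_left.mp h hj (e ▸ hk)
    exact Finset.disjoint_singleton_left.mpr fun h' =>
      Finset.disjoint_left.mp (B.disj j k hjk) (B.hi j) h'
  exact ⟨B.inQ.QP_commute hd (B.fam.mem k b), B.inQ.QP_commute hd (SA_adj (B.fam.mem k b))⟩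

/-- Expansion of one gate. -/
theorem expand_one (J : Finset ι) (h : Finset (Fin N))
    (hcr : ∀ k ∈ J, B.i k ∉ h → Disjoint (B.W k) h) (A : Op N) :
    ‖B.fam.EJ J (Dg h * A * Dg h)‖ ≤ ‖B.fam.EJ J A‖ +
      4 * ((3 / 4 : ℝ) ^ (J.filter fun k => B.i k ∈ h).card *
        ‖B.fam.EJ (J.filter fun k => B.i k ∉ h) A‖) := by
  set Jh := J.filter fun k => B.i k ∈ h with hJh
  set J' := J.filter fun k => B.i k ∉ h with hJ'
  have hdisj : Disjoint Jh J' := by
    rw [Finset.disjoint_left]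
    intro k hk hk'
    exact (Finset.mem_filter.mp hk').2 (Finset.mem_filter.mp hk).2
  have hun : J = Jh ∪ J' := (Finset.filter_union_filter_not_eq _ J).symm
  set P := Pe h with hP
  set D := Dg h with hD
  have hDn : ‖D‖ ≤ 1 := norm_le_one_of_refl (Dg_herm h) (Dg_sq h)
  have hPn : ‖P‖ ≤ 1 := norm_Pe_le h
  set Q := B.inQ.QP Jh with hQ
  have hQP : Q * P = P := QP_mul_Pe B Jh h fun k hk => (Finset.mem_filter.mp hk).2
  have hPQ : P * Q = P := Pe_mul_QP B Jh h fun k hk => (Finset.mem_filter.mp hk).2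
  have hexp : D * A * D = A - (2 : ℂ) • (Q * (P * (A * D))) - (2 : ℂ) • ((A * P) * Q) := by
    have e1 : Q * (P * (A * D)) = P * (A * D) := by rw [← mul_assoc, hQP]
    have e2 : (A * P) * Q = A * P := by rw [mul_assoc, hPQ]
    rw [e1, e2]
    have e3 : D = 1 - (2 : ℂ) • P := rfl
    calc D * A * D = (1 - (2 : ℂ) • P) * A * D := by rw [← e3]
      _ = A * D - (2 : ℂ) • (P * (A * D)) := by
          simp only [sub_mul, one_mul, smul_mul_assoc, mul_assoc]
      _ = A * (1 - (2 : ℂ) • P) - (2 : ℂ) • (P * (A * D)) := by rw [← e3]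
      _ = _ := by
          simp only [mul_sub, mul_one, mul_smul_comm]
          abel
  -- commutations
  have hQoff : B.fam.Off J' Q := B.inQ_off Jh J' hdisj
  have hhoff : ∀ {C : Op N}, C ∈ SA h → B.fam.Off J' C := fun hC =>
    Fam.off_of_SA _ (fun k hk => (hcr k (Finset.mem_filter.mp hk).1 (Finset.mem_filter.mp hk).2).symm) hC
  have hPoff : B.fam.Off J' P := hhoff (Pe_mem_SA h)
  have hDoff : B.fam.Off J' D := hhoff (Dg_mem_SA h)
  set R := B.fam.EJ J' A with hR
  have hsplit : ∀ Z, B.fam.EJ J Z = B.fam.EJ Jh (B.fam.EJ J' Z) := by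
    intro Z
    conv_lhs => rw [hun, Fam.EJ_union _ hdisj]
    rfl
  have t1 : B.fam.EJ J' (Q * (P * (A * D))) = Q * (P * (R * D)) := by
    rw [Fam.EJ_mul_left _ hQoff, Fam.EJ_mul_left _ hPoff, Fam.EJ_mul_right _ hDoff]
  have t2 : B.fam.EJ J' ((A * P) * Q) = (R * P) * Q := by
    rw [Fam.EJ_mul_right _ hQoff, Fam.EJ_mul_right _ hPoff]
  have n1 : ‖B.fam.EJ J (Q * (P * (A * D)))‖ ≤ (3 / 4 : ℝ) ^ Jh.card * ‖R‖ := by
    rw [hsplit, t1]
    refine (B.peel_gen_left Jh _).trans ?_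
    gcongr
    exact (mul_norm_aux hPn).trans (mul_norm_aux' hDn)
  have n2 : ‖B.fam.EJ J ((A * P) * Q)‖ ≤ (3 / 4 : ℝ) ^ Jh.card * ‖R‖ := by
    rw [hsplit, t2]
    refine (B.peel_gen_right Jh _).trans ?_
    gcongr
    exact mul_norm_aux' hPn
  rw [hexp, map_sub, map_sub, map_smul, map_smul]
  have n22 : ‖(2 : ℂ)‖ = 2 := by norm_num
  have a1 := norm_sub_le (B.fam.EJ J A - (2 : ℂ) • B.fam.EJ J (Q * (P * (A * D))))
    ((2 : ℂ) • B.fam.EJ J ((A * P) * Q))
  have a2 := norm_sub_le (B.fam.EJ J A) ((2 : ℂ) • B.fam.EJ J (Q * (P * (A * D))))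
  rw [norm_smul, n22] at a1 a2
  linarith

end BData

lemma TT_cons' (h : Finset (Fin N)) (gs : List (Finset (Fin N))) (X : Fin N → M2) :
    TT (h :: gs) X = Dg h * TT gs X * Dg h := by
  have hc : Commute (Dg h) (Dl gs) := Dl_commute_Dg h gs
  rw [TT, Dl_cons, TT]
  calc Dg h * Dl gs * tensor X * (Dg h * Dl gs) = Dg h * Dl gs * tensor X * (Dl gs * Dg h) := by rw [hc.eq]
    _ = _ := by simp only [mul_assoc]

/-- Sum over disjoint gates of the number of inputs. -/
lemma sum_filter_le (i : ι → Fin N) (hs : List (Finset (Fin N))) (hpw : hs.Pairwise Disjoint)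
    (J : Finset ι) : (hs.map fun h => (J.filter fun k => i k ∈ h).card).sum ≤ J.card := by
  induction hs generalizing J with
  | nil => simp
  | cons h hs ih =>
    obtain ⟨h1, h2⟩ := List.pairwise_cons.mp hpw
    rw [List.map_cons, List.sum_cons]
    have hsplit := Finset.card_filter_add_card_filter_not (s := J) (fun k => i k ∈ h)
    have e : (hs.map fun g => (J.filter fun k => i k ∈ g).card)
        = hs.map fun g => ((J.filter fun k => i k ∉ h).filter fun k => i k ∈ g).card := by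
      refine List.map_congr_left fun g hg => ?_
      congr 1
      ext k
      simp only [Finset.mem_filter]
      constructor
      · rintro ⟨a, b⟩
        exact ⟨⟨a, fun c => Finset.disjoint_left.mp (h1 g hg) c b⟩, b⟩
      · rintro ⟨⟨a, _⟩, b⟩
        exact ⟨a, b⟩
    rw [e]
    have := ih h2 (J.filter fun k => i k ∉ h)
    omega

/-! ### Constants -/

/-- The threshold for gates with many inputs. -/
def a₃ : ℕ := 220

/-- The rate of the bound for blocks in gates with few inputs. -/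
noncomputable def κ : ℝ := 1 / (10 ^ 7 * (2 * (M₀ : ℝ) * (a₃ : ℝ)))

lemma κ_pos : 0 < κ := by
  unfold κ M₀ a₃
  norm_num

lemma κ_val : κ * 220 / 2 = 1 / (10 ^ 7 * 64 * 10 ^ 16) := by
  unfold κ M₀ a₃
  norm_num

lemma κ_le : κ ≤ 1 / 100 := by
  unfold κ M₀ a₃
  norm_num

/-- The constant of the bound. -/
noncomputable def C₀ : ℝ := Real.exp (1 / 10 ^ 7)

lemma C₀_pos : 0 < C₀ := Real.exp_pos _

lemma C₀_le : C₀ ≤ 2 := by
  have h2 := Real.add_one_le_exp (-(1 / 10 ^ 7 : ℝ))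
  have h4 := Real.exp_pos (1 / 10 ^ 7 : ℝ)
  have h5 : Real.exp (-(1 / 10 ^ 7 : ℝ)) * Real.exp (1 / 10 ^ 7) = 1 := by
    rw [← Real.exp_add]; simp
  have h6 : (1 / 2 : ℝ) ≤ Real.exp (-(1 / 10 ^ 7 : ℝ)) := by
    norm_num at h2 ⊢
    linarith
  unfold C₀
  nlinarith

/-- The rate. -/
noncomputable def μ₀ : ℝ := Real.exp (-κ)

lemma μ₀_pos : 0 < μ₀ := Real.exp_pos _

/-- The ratio. -/
noncomputable def β₀ : ℝ := (3 / 4) * Real.exp κ

lemma β₀_nonneg : 0 ≤ β₀ := by
  unfold β₀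
  positivity

lemma β₀_mul (a : ℕ) : β₀ ^ a * μ₀ ^ a = (3 / 4 : ℝ) ^ a := by
  rw [← mul_pow]
  congr 1
  unfold β₀ μ₀
  rw [mul_assoc, ← Real.exp_add]
  simp

lemma β₀_le : β₀ ≤ 19 / 25 := by
  have h1 : Real.exp κ ≤ 76 / 75 := by
    have h2 := Real.add_one_le_exp (-κ)
    have h3 := κ_le
    have h4 := Real.exp_pos κ
    have h5 : Real.exp (-κ) * Real.exp κ = 1 := by
      rw [← Real.exp_add]; simp
    have h6 : (75 / 76 : ℝ) ≤ Real.exp (-κ) := by linarith
    nlinarith
  unfold β₀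
  linarith

lemma fac_le (a : ℕ) (ha : a₃ ≤ a) : 1 + 4 * β₀ ^ a ≤ Real.exp (κ / 2 * a) := by
  refine le_trans ?_ (Real.add_one_le_exp _)
  have h1 : β₀ ^ a ≤ (19 / 25 : ℝ) ^ a₃ := by
    calc β₀ ^ a ≤ (19 / 25 : ℝ) ^ a := pow_le_pow_left₀ β₀_nonneg β₀_le a
      _ ≤ _ := pow_le_pow_of_le_one (by norm_num) (by norm_num) ha
  have h2 : 4 * (19 / 25 : ℝ) ^ a₃ ≤ κ * 220 / 2 := by
    rw [κ_val]
    unfold a₃
    norm_num
  have h3 : (220 : ℝ) ≤ a := by
    have : ((a₃ : ℕ) : ℝ) ≤ a := by exact_mod_cast ha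
    simpa [a₃] using this
  have h4 := κ_pos
  nlinarith

/-- The bound for blocks in gates with few inputs. -/
lemma base_light (B : BData ι N) (J : Finset ι) (ds : List (Finset (Fin N))) (hds : ds.Pairwise Disjoint)
    (X : Fin N → M2) (hX : AllOK X)
    (hsmall : ∀ d ∈ ds, (J.filter fun k => B.i k ∈ d).card ≤ a₃) :
    ‖B.fam.EJ J (TT ds X)‖ ≤ C₀ * μ₀ ^ J.card := by
  classical
  have hinj : Function.Injective B.i := fun j k e => B.i_inj e
  obtain ⟨J₁, hJ₁, hinj₁, hc₁⟩ := select_section J (fun k => tag₂ ds (B.i k)) a₃ (by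
    intro a _
    by_cases h : ∃ d ∈ ds, B.i a ∈ d
    · have hmem := tag₂_mem ds _ h
      refine (Finset.card_le_card ?_).trans (hsmall _ hmem)
      intro x hx
      obtain ⟨hx1, hx2⟩ := Finset.mem_filter.mp hx
      refine Finset.mem_filter.mpr ⟨hx1, ?_⟩
      rw [← hx2]
      exact mem_tag₂ ds _
    · have hs : (J.filter fun x => tag₂ ds (B.i x) = tag₂ ds (B.i a)) ⊆ {a} := by
        intro x hx
        obtain ⟨_, hx2⟩ := Finset.mem_filter.mp hx
        have := mem_tag₂ ds (B.i x)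
        rw [hx2, tag₂_not ds _ h] at this
        exact Finset.mem_singleton.mpr (hinj (Finset.mem_singleton.mp this))
      exact (Finset.card_le_card hs).trans (by simp [a₃]))
  set m := J₁.card / (2 * M₀) with hm
  have hM : 0 < 2 * M₀ := by unfold M₀; norm_num
  have hcard : Fintype.card ↥J₁ = J₁.card := Fintype.card_coe J₁
  have h1 : ‖(B.restrict J₁).fam.EJ Finset.univ (TT ds X)‖ ≤ νc ^ m := by
    refine core_one (B.restrict J₁) _ ds X hds hX ?_ rfl m ?_
    · intro g hg j k hj hk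
      have e1 := tag₂_eq ds hds _ g hg hj
      have e2 := tag₂_eq ds hds _ g hg hk
      exact Subtype.ext (hinj₁ j.2 k.2 (e1.trans e2.symm))
    · rw [hcard]
      exact Nat.mul_div_le _ _
  rw [EJ_restrict_univ] at h1
  refine (Fam.norm_EJ_mono B.fam_nrm hJ₁ _).trans (h1.trans ?_)
  -- numerics
  have hlt : J₁.card < 2 * M₀ * (m + 1) := Nat.lt_mul_div_succ _ hM
  have hJ : (J.card : ℝ) ≤ (a₃ : ℝ) * (2 * (M₀ : ℝ) * ((m : ℝ) + 1)) := by
    have : J.card ≤ a₃ * (2 * M₀ * (m + 1)) := hc₁.trans (Nat.mul_le_mul_left _ hlt.le)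
    exact_mod_cast this
  have hν : νc ≤ Real.exp (-(1 / 10 ^ 7)) := by
    have := Real.one_sub_le_exp_neg (1 / 10 ^ 7)
    unfold νc
    exact this
  have e1 : νc ^ m ≤ Real.exp (-(1 / 10 ^ 7)) ^ m := pow_le_pow_left₀ νc_nonneg hν m
  have e2 : Real.exp (-(1 / 10 ^ 7)) ^ m = Real.exp ((m : ℝ) * (-(1 / 10 ^ 7))) :=
    (Real.exp_nat_mul _ _).symm
  have e3 : C₀ * μ₀ ^ J.card = Real.exp (1 / 10 ^ 7 + (J.card : ℝ) * (-κ)) := by
    rw [C₀, μ₀, ← Real.exp_nat_mul, ← Real.exp_add]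
  rw [e3]
  refine e1.trans ?_
  rw [e2]
  apply Real.exp_le_exp.mpr
  have hκ : κ * ((a₃ : ℝ) * (2 * (M₀ : ℝ) * ((m : ℝ) + 1))) = ((m : ℝ) + 1) / 10 ^ 7 := by
    unfold κ M₀ a₃
    push_cast
    field_simp
  have h5 : (J.card : ℝ) * κ ≤ ((m : ℝ) + 1) / 10 ^ 7 := by
    rw [← hκ, mul_comm]
    exact mul_le_mul_of_nonneg_left hJ κ_pos.le
  nlinarith

/-- Expansion over a list of gates. -/
theorem expand_list (B : BData ι N) (J : Finset ι) (ds' : List (Finset (Fin N))) (X : Fin N → M2)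
    (hbase : ∀ J'' ⊆ J, ‖B.fam.EJ J'' (TT ds' X)‖ ≤ C₀ * μ₀ ^ J''.card) (hs : List (Finset (Fin N)))
    (hpw : hs.Pairwise Disjoint) (hcr : ∀ h ∈ hs, ∀ k ∈ J, B.i k ∉ h → Disjoint (B.W k) h) :
    ∀ J'' ⊆ J, ‖B.fam.EJ J'' (TT (hs ++ ds') X)‖
      ≤ C₀ * μ₀ ^ J''.card * (hs.map fun h => 1 + 4 * β₀ ^ (J''.filter fun k => B.i k ∈ h).card).prod := by
  induction hs with
  | nil =>
    intro J'' hJ''
    simpa using hbase J'' hJ''
  | cons h hs ih =>
    intro J'' hJ''
    obtain ⟨h1, h2⟩ := List.pairwise_cons.mp hpw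
    have IH := ih h2 fun g hg k hk => hcr g (List.mem_cons_of_mem _ hg) k hk
    rw [List.cons_append, TT_cons']
    refine (B.expand_one J'' h (fun k hk => hcr h (List.mem_cons_self ..) k (hJ'' hk)) _).trans ?_
    set a := (J''.filter fun k => B.i k ∈ h).card with ha
    have hsub : (J''.filter fun k => B.i k ∉ h) ⊆ J := (Finset.filter_subset _ _).trans hJ''
    have t1 := IH J'' hJ''
    have t2 := IH _ hsub
    -- the product over the remaining gates does not change
    have e : (hs.map fun g => 1 + 4 * β₀ ^ ((J''.filter fun k => B.i k ∉ h).filter fun k => B.i k ∈ g).card)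
        = hs.map fun g => 1 + 4 * β₀ ^ (J''.filter fun k => B.i k ∈ g).card := by
      refine List.map_congr_left fun g hg => ?_
      have e' : ((J''.filter fun k => B.i k ∉ h).filter fun k => B.i k ∈ g)
          = J''.filter fun k => B.i k ∈ g := by
        ext k
        simp only [Finset.mem_filter]
        constructor
        · rintro ⟨⟨p, _⟩, q⟩
          exact ⟨p, q⟩
        · rintro ⟨p, q⟩
          exact ⟨⟨p, fun c => Finset.disjoint_left.mp (h1 g hg) c q⟩, q⟩
      simp only [e']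
    rw [e] at t2
    set Pr₀ := (hs.map fun g => 1 + 4 * β₀ ^ (J''.filter fun k => B.i k ∈ g).card).prod with hPr₀
    have hcard : a + (J''.filter fun k => B.i k ∉ h).card = J''.card :=
      Finset.card_filter_add_card_filter_not _
    rw [List.map_cons, List.prod_cons, ← hcard, pow_add]
    have hpos := μ₀_pos
    have h34 : (3 / 4 : ℝ) ^ a = β₀ ^ a * μ₀ ^ a := (β₀_mul a).symm
    rw [← hcard, pow_add] at t1
    have h3 : (0 : ℝ) ≤ (3 / 4 : ℝ) ^ a := by positivity
    have t3 := mul_le_mul_of_nonneg_left t2 h3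
    calc _ ≤ C₀ * (μ₀ ^ a * μ₀ ^ (J''.filter fun k => B.i k ∉ h).card) * Pr₀
          + 4 * ((3 / 4 : ℝ) ^ a * (C₀ * μ₀ ^ (J''.filter fun k => B.i k ∉ h).card * Pr₀)) := by
          gcongr
      _ = _ := by
          rw [h34]
          ring

/-- The bound for blocks which do not cross the gates of the other blocks. -/
theorem core_cross (B : BData ι N) (ds : List (Finset (Fin N))) (hds : ds.Pairwise Disjoint)
    (X : Fin N → M2) (hX : AllOK X)
    (hcr : ∀ j k, ∀ h ∈ ds, B.i j ∈ h → B.i k ∉ h → Disjoint (B.W k) h) (J : Finset ι) :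
    ‖B.fam.EJ J (TT ds X)‖ ≤ C₀ * Real.exp (-(κ / 2) * J.card) := by
  classical
  set p : Finset (Fin N) → Prop := fun d => a₃ ≤ (J.filter fun k => B.i k ∈ d).card with hp
  set hs := ds.filter fun d => decide (p d) with hhs
  set ds' := ds.filter fun d => !decide (p d) with hds'
  have hperm : (hs ++ ds').Perm ds := List.filter_append_perm _ _
  have hpw : (hs ++ ds').Pairwise Disjoint := hperm.symm.pairwise hds fun h => h.symm
  have hpw1 : hs.Pairwise Disjoint := List.Pairwise.filter _ hds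
  have hpw2 : ds'.Pairwise Disjoint := List.Pairwise.filter _ hds
  have hmem1 : ∀ h ∈ hs, h ∈ ds ∧ p h := fun h hh => by
    have := List.mem_filter.mp hh
    exact ⟨this.1, by simpa using this.2⟩
  rw [← TT_perm hperm]
  have hbase : ∀ J'' ⊆ J, ‖B.fam.EJ J'' (TT ds' X)‖ ≤ C₀ * μ₀ ^ J''.card := by
    intro J'' hJ''
    refine base_light B J'' ds' hpw2 X hX fun d hd => ?_
    have hd' := List.mem_filter.mp hd
    have hn : ¬ p d := by simpa using hd'.2
    have : (J.filter fun k => B.i k ∈ d).card < a₃ := not_le.mp hn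
    exact (Finset.card_le_card (Finset.filter_subset_filter _ hJ'')).trans this.le
  have h1 := expand_list B J ds' X hbase hs hpw1 (fun h hh k _ hk => by
    obtain ⟨h1, h2⟩ := hmem1 h hh
    have hne : (J.filter fun k => B.i k ∈ h).Nonempty := by
      rw [← Finset.card_pos]
      have : 0 < a₃ := by unfold a₃; norm_num
      exact lt_of_lt_of_le this h2
    obtain ⟨j, hj⟩ := hne
    exact hcr j k h h1 (Finset.mem_filter.mp hj).2 hk) J (Finset.Subset.refl _)
  refine h1.trans ?_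
  -- the product
  have hprod : ∀ l : List (Finset (Fin N)), (∀ h ∈ l, p h) →
      (l.map fun h => 1 + 4 * β₀ ^ (J.filter fun k => B.i k ∈ h).card).prod
        ≤ Real.exp (κ / 2 * ((l.map fun h => (J.filter fun k => B.i k ∈ h).card).sum : ℕ)) := by
    intro l
    induction l with
    | nil => simp
    | cons h l ih =>
      intro hl
      rw [List.map_cons, List.prod_cons, List.map_cons, List.sum_cons, Nat.cast_add, mul_add, Real.exp_add]
      have h1 := fac_le _ (hl h (List.mem_cons_self ..))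
      have h2 := ih fun g hg => hl g (List.mem_cons_of_mem _ hg)
      have h3 : 0 ≤ (l.map fun h => 1 + 4 * β₀ ^ (J.filter fun k => B.i k ∈ h).card).prod :=
        List.prod_nonneg fun x hx => by
          obtain ⟨g, _, rfl⟩ := List.mem_map.mp hx
          have := pow_nonneg β₀_nonneg (J.filter fun k => B.i k ∈ g).card
          positivity
      exact mul_le_mul h1 h2 h3 (Real.exp_pos _).le
  have h2 := hprod hs fun h hh => (hmem1 h hh).2
  have h3 := sum_filter_le B.i hs hpw1 J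
  have h4 : Real.exp (κ / 2 * ((hs.map fun h => (J.filter fun k => B.i k ∈ h).card).sum : ℕ))
      ≤ Real.exp (κ / 2 * J.card) := by
    apply Real.exp_le_exp.mpr
    have : (((hs.map fun h => (J.filter fun k => B.i k ∈ h).card).sum : ℕ) : ℝ) ≤ J.card := by
      exact_mod_cast h3
    have := κ_pos
    gcongr
  have e : C₀ * Real.exp (-(κ / 2) * J.card) = C₀ * μ₀ ^ J.card * Real.exp (κ / 2 * J.card) := by
    rw [μ₀, ← Real.exp_nat_mul, mul_assoc, ← Real.exp_add]
    congr 2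
    ring
  rw [e]
  have h5 : 0 ≤ C₀ * μ₀ ^ J.card := mul_nonneg C₀_pos.le (pow_nonneg μ₀_pos.le _)
  exact mul_le_mul_of_nonneg_left (h2.trans h4) h5

end Vale.Agent.Lib.P368y
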