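import Vale.Agent.Lib.P368y.Multi1

/-!
The bound for arbitrary blocks: selection of a colour class of gates and surgery.
-/

open scoped BigOperators Matrix Matrix.Norms.L2Operator

namespace Vale.Agent.Lib.P368y

open Vale.Agent.Lib.P368x

variable {N : ℕ} {ι : Type*} [DecidableEq ι]

/-! ### Selection -/

/-- Selection from a colouring and the values of a nonnegative function with small sum. -/
lemma select_core [Fintype ι] (R : ι → ℝ) (hR0 : ∀ j, 0 ≤ R j) (r : ℝ) (hr : 0 ≤ r) (M : ℕ) (hM : 0 < M)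
    (htot : (M : ℝ) * ∑ j, R j ≤ (Fintype.card ι : ℝ) * r) (col : ι → Fin M) :
    ∃ J : Finset ι, ∃ c : Fin M, Fintype.card ι ≤ 2 * M * J.card ∧
      ∀ j ∈ J, R j ≤ 2 * r / M ∧ col j = c := by
  classical
  haveI : Nonempty (Fin M) := ⟨⟨0, hM⟩⟩
  have hMpos : (0 : ℝ) < M := by exact_mod_cast hM
  set G := Finset.univ.filter fun j => R j ≤ 2 * r / M with hG
  have hGcard : Fintype.card ι ≤ 2 * G.card := by
    by_contra hcon
    push Not at hcon
    set Gc := Finset.univ.filter fun j => ¬ R j ≤ 2 * r / M with hGc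
    have hsplit : G.card + Gc.card = Fintype.card ι := by
      rw [hG, hGc, Finset.card_filter_add_card_filter_not, Finset.card_univ]
    have hne : Gc.Nonempty := by
      rw [← Finset.card_pos]
      omega
    have h1 : ∑ _j ∈ Gc, (2 * r / M) < ∑ j ∈ Gc, R j :=
      Finset.sum_lt_sum_of_nonempty hne fun j hj => not_le.mp (Finset.mem_filter.mp hj).2
    rw [Finset.sum_const, nsmul_eq_mul] at h1
    have h2 : ∑ j ∈ Gc, R j ≤ ∑ j, R j :=
      Finset.sum_le_sum_of_subset_of_nonneg (Finset.subset_univ _) fun j _ _ => hR0 j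
    have h3 : (M : ℝ) * ((Gc.card : ℝ) * (2 * r / M)) < (Fintype.card ι : ℝ) * r := by
      have := mul_lt_mul_of_pos_left (lt_of_lt_of_le h1 h2) hMpos
      linarith
    have h4 : (M : ℝ) * ((Gc.card : ℝ) * (2 * r / M)) = 2 * (Gc.card : ℝ) * r := by
      field_simp
    rw [h4] at h3
    have h5 : (Fintype.card ι : ℝ) ≤ 2 * (Gc.card : ℝ) := by
      have : Fintype.card ι ≤ 2 * Gc.card := by omega
      exact_mod_cast this
    nlinarith
  obtain ⟨c, hc⟩ : ∃ c : Fin M, G.card ≤ M * (G.filter fun j => col j = c).card := by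
    by_contra hcon
    push Not at hcon
    have h1 : ∑ c : Fin M, M * (G.filter fun j => col j = c).card < ∑ _c : Fin M, G.card :=
      Finset.sum_lt_sum_of_nonempty Finset.univ_nonempty fun c _ => hcon c
    rw [← Finset.mul_sum, ← Finset.card_eq_sum_card_fiberwise (fun j _ => Finset.mem_coe.mpr (Finset.mem_univ (col j)))] at h1
    simp at h1
  refine ⟨G.filter fun j => col j = c, c, ?_, ?_⟩
  · calc Fintype.card ι ≤ 2 * G.card := hGcard
      _ ≤ 2 * (M * (G.filter fun j => col j = c).card) := by omega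
      _ = _ := by ring
  · intro j hj
    obtain ⟨hjG, hjc⟩ := Finset.mem_filter.mp hj
    exact ⟨(Finset.mem_filter.mp hjG).2, hjc⟩

/-- A colour class of gates with small crossings. -/
lemma select_gates [Fintype ι] (S : ι → Finset (Fin N)) (a : ι → Finset (Fin N) → ℝ) (ha : ∀ k h, 0 ≤ a k h)
    (r : ℝ) (hr : 0 ≤ r) (hrow : ∀ k, ∑ h ∈ Finset.univ.image S, a k h ≤ r) (M : ℕ) (hM : 0 < M) :
    ∃ J : Finset ι, Fintype.card ι ≤ 2 * M * J.card ∧
      ∀ k ∈ J, ∑ h ∈ (J.image S).erase (S k), a k h ≤ 2 * r / M := by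
  classical
  set 𝓗 := Finset.univ.image S with h𝓗
  set b : Finset (Fin N) → Finset (Fin N) → ℝ :=
    fun h h' => ∑ k ∈ Finset.univ.filter (fun k => S k = h), a k h' with hb
  have hb0 : ∀ h h', 0 ≤ b h h' := fun h h' => Finset.sum_nonneg fun k _ => ha k h'
  obtain ⟨col, hcol⟩ := exists_colouring b hb0 M hM 𝓗
  -- exchanging the sums
  have hswap : ∀ (P : Finset (Fin N) → Finset (Fin N) → Prop) [∀ x y, Decidable (P x y)],
      ∑ h ∈ 𝓗, ∑ h' ∈ 𝓗, (if P h h' then b h h' else 0)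
        = ∑ k, ∑ h' ∈ 𝓗, if P (S k) h' then a k h' else 0 := by
    intro P _
    rw [Finset.sum_comm]
    conv_rhs => rw [Finset.sum_comm]
    refine Finset.sum_congr rfl fun h' _ => ?_
    have hm : ∀ k ∈ (Finset.univ : Finset ι), S k ∈ 𝓗 := fun k hk => Finset.mem_image_of_mem _ hk
    rw [← Finset.sum_fiberwise_of_maps_to hm]
    refine Finset.sum_congr rfl fun h _ => ?_
    by_cases hP : P h h'
    · rw [if_pos hP]
      refine Finset.sum_congr rfl fun k hk => ?_
      have : S k = h := (Finset.mem_filter.mp hk).2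
      rw [this, if_pos hP]
    · rw [if_neg hP]
      symm
      refine Finset.sum_eq_zero fun k hk => ?_
      have : S k = h := (Finset.mem_filter.mp hk).2
      rw [this, if_neg hP]
  set R : ι → ℝ := fun k => ∑ h' ∈ 𝓗, if S k ≠ h' ∧ col (S k) = col h' then a k h' else 0 with hR
  have hR0 : ∀ k, 0 ≤ R k := fun k => Finset.sum_nonneg fun h' _ => by
    split_ifs
    · exact ha k h'
    · exact le_rfl
  have htot : (M : ℝ) * ∑ k, R k ≤ (Fintype.card ι : ℝ) * r := by
    have h1 := hcol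
    rw [hswap (fun h h' => h ≠ h' ∧ col h = col h'), hswap (fun h h' => h ≠ h')] at h1
    refine h1.trans ?_
    have h2 : ∀ k ∈ (Finset.univ : Finset ι), (∑ h' ∈ 𝓗, if S k ≠ h' then a k h' else 0) ≤ r := by
      intro k _
      refine le_trans (Finset.sum_le_sum fun h' _ => ?_) (hrow k)
      split_ifs
      · exact le_rfl
      · exact ha k h'
    have := Finset.sum_le_sum h2
    simpa [Finset.card_univ] using this
  obtain ⟨J, c, hJ1, hJ2⟩ := select_core R hR0 r hr M hM htot (fun k => col (S k))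
  refine ⟨J, hJ1, fun k hk => ?_⟩
  obtain ⟨h1, h2⟩ := hJ2 k hk
  refine le_trans ?_ h1
  have e : ∑ h ∈ (J.image S).erase (S k), a k h
      = ∑ h ∈ (J.image S).erase (S k), if S k ≠ h ∧ col (S k) = col h then a k h else 0 := by
    refine Finset.sum_congr rfl fun h hh => ?_
    have hne := Finset.ne_of_mem_erase hh
    obtain ⟨l, hl, rfl⟩ := Finset.mem_image.mp (Finset.mem_of_mem_erase hh)
    rw [if_pos ⟨hne.symm, by rw [h2, (hJ2 l hl).2]⟩]
  rw [e]
  refine Finset.sum_le_sum_of_subset_of_nonneg ?_ fun h _ _ => by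
    split_ifs
    · exact ha k h
    · exact le_rfl
  intro h hh
  obtain ⟨l, _, rfl⟩ := Finset.mem_image.mp (Finset.mem_of_mem_erase hh)
  exact Finset.mem_image_of_mem _ (Finset.mem_univ l)

/-! ### The row bound -/

namespace BData

variable (B : BData ι N)

/-- The row sum of a block with a non-negligible overlap, over disjoint sets of sites. -/
lemma row_gen (k : ι) (τ r : ℝ) (hτ0 : 0 ≤ τ) (hτ : Real.exp (-r) ≤ τ ^ 2) (hk : τ < ‖B.c k‖)
    (𝓗 : Finset (Finset (Fin N))) (hd : ∀ a ∈ 𝓗, ∀ b ∈ 𝓗, a ≠ b → Disjoint a b) :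
    ∑ h ∈ 𝓗, (1 - ‖B.ck k h‖ ^ 2) ≤ r := by
  classical
  set D := 𝓗.biUnion fun h => (B.W k).erase (B.i k) ∩ h with hD
  have hsub : D ⊆ (B.W k).erase (B.i k) := by
    intro s hs
    obtain ⟨l, _, hl⟩ := Finset.mem_biUnion.mp hs
    exact (Finset.mem_inter.mp hl).1
  have hprod : ∏ s ∈ D, ip (B.ψ k s) (B.e k s) = ∏ h ∈ 𝓗, B.ck k h := by
    rw [hD, Finset.prod_biUnion]
    · rfl
    · intro a ha b hb hab
      simp only [Function.onFun]
      exact Finset.disjoint_of_subset_left Finset.inter_subset_right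
        (Finset.disjoint_of_subset_right Finset.inter_subset_right (hd a ha b hb hab))
  have hc : ‖B.c k‖ ≤ ∏ h ∈ 𝓗, ‖B.ck k h‖ := by
    rw [← norm_prod, ← hprod, BData.c, ← Finset.prod_sdiff hsub, norm_mul, mul_comm]
    have h1 : ‖∏ s ∈ (B.W k).erase (B.i k) \ D, ip (B.ψ k s) (B.e k s)‖ ≤ 1 :=
      norm_prod_ip_le _ _ _ (fun s _ => B.hψ k s) (fun s _ => B.he k s)
    exact mul_le_of_le_one_right (norm_nonneg _) h1
  have hsq : τ ^ 2 < ∏ h ∈ 𝓗, ‖B.ck k h‖ ^ 2 := by
    rw [Finset.prod_pow]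
    exact pow_lt_pow_left₀ (lt_of_lt_of_le hk hc) hτ0 (by norm_num)
  have hexp : ∏ h ∈ 𝓗, ‖B.ck k h‖ ^ 2 ≤ Real.exp (- ∑ h ∈ 𝓗, (1 - ‖B.ck k h‖ ^ 2)) := by
    rw [← Finset.sum_neg_distrib, Real.exp_sum]
    apply Finset.prod_le_prod (fun _ _ => by positivity)
    intro l _
    have := Real.add_one_le_exp (-(1 - ‖B.ck k l‖ ^ 2))
    linarith
  by_contra hcon
  push Not at hcon
  have h1 : Real.exp (- ∑ h ∈ 𝓗, (1 - ‖B.ck k h‖ ^ 2)) < Real.exp (-r) :=
    Real.exp_lt_exp.mpr (by linarith)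
  linarith

/-- The overlap on the removed sites is controlled by the overlaps on the gates. -/
lemma cM_gen (k : ι) (𝓗 : Finset (Finset (Fin N))) (hd : ∀ a ∈ 𝓗, ∀ b ∈ 𝓗, a ≠ b → Disjoint a b)
    (Mm : Finset (Fin N)) (hM : Mm = 𝓗.biUnion fun h => (B.W k).erase (B.i k) ∩ h) :
    1 - ∑ h ∈ 𝓗, (1 - ‖B.ck k h‖ ^ 2) ≤ ‖∏ s ∈ Mm, ip (B.ψ k s) (B.e k s)‖ ^ 2 := by
  have hprod : ∏ s ∈ Mm, ip (B.ψ k s) (B.e k s) = ∏ h ∈ 𝓗, B.ck k h := by
    rw [hM, Finset.prod_biUnion]
    · rfl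
    · intro a ha b hb hab
      simp only [Function.onFun]
      exact Finset.disjoint_of_subset_left Finset.inter_subset_right
        (Finset.disjoint_of_subset_right Finset.inter_subset_right (hd a ha b hb hab))
  rw [hprod, norm_prod, ← Finset.prod_pow]
  have := one_sub_sum_le_prod 𝓗 (fun l => 1 - ‖B.ck k l‖ ^ 2)
    (fun l _ => by
      have := pow_le_one₀ (n := 2) (norm_nonneg _) (B.norm_ck_le k l)
      linarith)
    (fun l _ => by
      have := sq_nonneg ‖B.ck k l‖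
      linarith)
  simpa using this

end BData

/-! ### Disjointness of the tags -/

lemma tag₂_disj (ds : List (Finset (Fin N))) (hds : ds.Pairwise Disjoint) (a b : Fin N)
    (hne : tag₂ ds a ≠ tag₂ ds b) : Disjoint (tag₂ ds a) (tag₂ ds b) := by
  haveI : Std.Symm (Disjoint : Finset (Fin N) → Finset (Fin N) → Prop) := ⟨fun _ _ h => h.symm⟩
  by_cases ha : ∃ d ∈ ds, a ∈ d
  · by_cases hb : ∃ d ∈ ds, b ∈ d
    · exact hds.forall (tag₂_mem ds a ha) (tag₂_mem ds b hb) hne
    · rw [tag₂_not ds b hb, Finset.disjoint_singleton_right]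
      exact fun h => hb ⟨_, tag₂_mem ds a ha, h⟩
  · rw [tag₂_not ds a ha]
    by_cases hb : ∃ d ∈ ds, b ∈ d
    · rw [Finset.disjoint_singleton_left]
      exact fun h => ha ⟨_, tag₂_mem ds b hb, h⟩
    · rw [tag₂_not ds b hb, Finset.disjoint_singleton]
      rw [tag₂_not ds a ha, tag₂_not ds b hb] at hne
      exact fun e => hne (by rw [e])

end Vale.Agent.Lib.P368y
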