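import Vale.Agent.Lib.P368y.Multi2

/-!
The bound for arbitrary blocks.
-/

open scoped BigOperators Matrix Matrix.Norms.L2Operator

namespace Vale.Agent.Lib.P368y

open Vale.Agent.Lib.P368x

variable {N : ℕ} {ι : Type*} [DecidableEq ι]

/-- The number of colours of gates. -/
def M₁ : ℕ := 10 ^ 60

/-- The threshold for small overlaps. -/
noncomputable def τ₀ : ℝ := κ / 32

/-- The distance allowed in the surgery. -/
noncomputable def ε₀ : ℝ := κ / 16

/-- The rate before surgery. -/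
noncomputable def ν₀ : ℝ := Real.exp (-(κ / 2))

lemma τ₀_nonneg : 0 ≤ τ₀ := by
  unfold τ₀
  have := κ_pos
  positivity

lemma exp_r₀ : Real.exp (-140) ≤ τ₀ ^ 2 := by
  have h1 : (2.7 : ℝ) ≤ Real.exp 1 := by
    have := Real.exp_one_gt_d9
    linarith
  have h2 : (140 : ℝ) = ((140 : ℕ) : ℝ) * 1 := by norm_num
  have h3 : Real.exp 140 = Real.exp 1 ^ 140 := by
    rw [h2, Real.exp_nat_mul]
  have h4 : (2.7 : ℝ) ^ 140 ≤ Real.exp 1 ^ 140 := pow_le_pow_left₀ (by norm_num) h1 140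
  have h5 : (τ₀ ^ 2)⁻¹ ≤ Real.exp 140 := by
    rw [h3]
    refine le_trans ?_ h4
    unfold τ₀ κ M₀ a₃
    norm_num
  rw [Real.exp_neg]
  have h6 : 0 < τ₀ ^ 2 := by
    unfold τ₀
    have := κ_pos
    positivity
  exact inv_le_of_inv_le₀ h6 h5

lemma rate_le : ν₀ + 2 * ε₀ ≤ Real.exp (-(κ / 8)) := by
  have hκ := κ_pos
  have hκ2 := κ_le
  have h1 : ν₀ ≤ 1 - κ / 4 := by
    have h2 := Real.add_one_le_exp (κ / 2)
    have h3 : ν₀ * Real.exp (κ / 2) = 1 := by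
      unfold ν₀
      rw [← Real.exp_add]
      simp
    have h4 : 0 < ν₀ := Real.exp_pos _
    by_contra hcon
    push Not at hcon
    nlinarith
  have h5 := Real.one_sub_le_exp_neg (κ / 8)
  unfold ε₀
  linarith

lemma row_small : 4 * (2 * 140 / (M₁ : ℝ)) ≤ ε₀ ^ 2 := by
  unfold ε₀ κ M₀ a₃ M₁
  norm_num

lemma rate_aux (κ' m x : ℝ) (hm : m ≠ 0) : (κ' / (16 * m)) * (2 * m * x) = κ' / 8 * x := by
  field_simp
  ring

/-- The bound for arbitrary blocks. -/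
theorem core_multi [Fintype ι] (B : BData ι N) (ds : List (Finset (Fin N))) (hds : ds.Pairwise Disjoint)
    (X : Fin N → M2) (hX : AllOK X) :
    ‖B.fam.EJ Finset.univ (TT ds X)‖ ≤ C₀ * Real.exp (-(κ / (16 * M₁)) * Fintype.card ι) := by
  classical
  set T := TT ds X with hT
  set S : ι → Finset (Fin N) := fun k => tag₂ ds (B.i k) with hS
  have hiS : ∀ k, B.i k ∈ S k := fun k => mem_tag₂ ds _
  have hSd : ∀ j k, S j ≠ S k → Disjoint (S j) (S k) := fun j k h => tag₂_disj ds hds _ _ h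
  have hd𝓗 : ∀ 𝓗 : Finset (Finset (Fin N)), 𝓗 ⊆ Finset.univ.image S →
      ∀ a ∈ 𝓗, ∀ b ∈ 𝓗, a ≠ b → Disjoint a b := by
    intro 𝓗 h𝓗 a ha b hb hab
    obtain ⟨j, _, rfl⟩ := Finset.mem_image.mp (h𝓗 ha)
    obtain ⟨k, _, rfl⟩ := Finset.mem_image.mp (h𝓗 hb)
    exact hSd j k hab
  set fresh : ι → Prop := fun k => ‖B.c k‖ ≤ τ₀ with hfresh
  set a : ι → Finset (Fin N) → ℝ := fun k h =>
    if fresh k ∨ h = S k then 0 else 1 - ‖B.ck k h‖ ^ 2 with ha
  have hck : ∀ k h, 0 ≤ 1 - ‖B.ck k h‖ ^ 2 := fun k h => by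
    have := pow_le_one₀ (n := 2) (norm_nonneg _) (B.norm_ck_le k h)
    linarith
  have ha0 : ∀ k h, 0 ≤ a k h := by
    intro k h
    simp only [ha]
    split_ifs
    · exact le_rfl
    · exact hck k h
  have hrow : ∀ k, ∑ h ∈ Finset.univ.image S, a k h ≤ 140 := by
    intro k
    by_cases hf : fresh k
    · have : ∀ h ∈ Finset.univ.image S, a k h = 0 := fun h _ => if_pos (Or.inl hf)
      rw [Finset.sum_eq_zero this]
      norm_num
    · refine le_trans (Finset.sum_le_sum fun h _ => ?_)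
        (B.row_gen k τ₀ 140 τ₀_nonneg exp_r₀ (not_le.mp hf) _ (hd𝓗 _ (Finset.Subset.refl _)))
      simp only [ha]
      split_ifs
      · exact hck k h
      · exact le_rfl
  have hM₁ : 0 < M₁ := by unfold M₁; norm_num
  obtain ⟨J, hJ1, hJ2⟩ := select_gates S a ha0 140 (by norm_num) hrow M₁ hM₁
  -- the restricted family
  set B₁ := B.restrict J with hB₁
  set S₁ : ↥J → Finset (Fin N) := fun k => S k.1 with hS₁
  set 𝓗₁ := J.image S with h𝓗₁
  have h𝓗₁sub : 𝓗₁ ⊆ Finset.univ.image S :=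
    Finset.image_subset_image (Finset.subset_univ _)
  set Mm : ↥J → Finset (Fin N) := fun k =>
    (𝓗₁.erase (S₁ k)).biUnion fun h => (B₁.W k).erase (B₁.i k) ∩ h with hMm
  set S' : ↥J → Finset (Fin N) := fun l => (Finset.univ.erase l).biUnion Mm with hS'
  have hMmsub : ∀ k, Mm k ⊆ B₁.W k := fun k s hs => by
    obtain ⟨h, _, hh⟩ := Finset.mem_biUnion.mp hs
    exact Finset.mem_of_mem_erase (Finset.mem_inter.mp hh).1
  have hMk : ∀ k, B₁.Mk S' k = Mm k := by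
    intro k
    ext s
    rw [B₁.mem_Mk S']
    constructor
    · rintro ⟨h1, _, l, hl, hs⟩
      obtain ⟨j, _, hj⟩ := Finset.mem_biUnion.mp hs
      by_cases hjk : j = k
      · rw [← hjk]; exact hj
      · exact absurd (hMmsub j hj) fun h2 => Finset.disjoint_left.mp (B₁.disj k j (Ne.symm hjk)) h1 h2
    · intro hs
      obtain ⟨h, hh, hsh⟩ := Finset.mem_biUnion.mp hs
      obtain ⟨hsW, hsh'⟩ := Finset.mem_inter.mp hsh
      obtain ⟨hne, hh1⟩ := Finset.mem_erase.mp hh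
      obtain ⟨l₀, hl₀, rfl⟩ := Finset.mem_image.mp hh1
      have hlk : (⟨l₀, hl₀⟩ : ↥J) ≠ k := fun e => hne (by rw [← e])
      refine ⟨Finset.mem_of_mem_erase hsW, Finset.ne_of_mem_erase hsW, ⟨l₀, hl₀⟩, hlk, ?_⟩
      exact Finset.mem_biUnion.mpr ⟨k, Finset.mem_erase.mpr ⟨hlk.symm, Finset.mem_univ _⟩, hs⟩
  set fresh₁ : ↥J → Prop := fun k => fresh k.1 with hfresh₁
  set B' := B₁.shrink S' fresh₁ with hB'
  have hcr : ∀ j k, ∀ h ∈ ds, B'.i j ∈ h → B'.i k ∉ h → Disjoint (B'.W k) h := by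
    intro j k h hh hj hk
    have hjS : S j.1 = h := tag₂_eq ds hds _ h hh hj
    have hkne : S₁ k ≠ h := fun e => hk (e ▸ hiS k.1)
    have hW : B'.W k = if fresh₁ k then {B₁.i k} else B₁.W k \ B₁.Mk S' k := rfl
    rw [hW, hMk k]
    by_cases hf : fresh₁ k
    · simp only [hf, if_true]
      exact Finset.disjoint_singleton_left.mpr hk
    · simp only [hf, if_false]
      rw [Finset.disjoint_left]
      intro s hs hsh
      obtain ⟨h1, h2⟩ := Finset.mem_sdiff.mp hs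
      apply h2
      refine Finset.mem_biUnion.mpr ⟨h, Finset.mem_erase.mpr ⟨hkne.symm, ?_⟩, ?_⟩
      · rw [← hjS]
        exact Finset.mem_image_of_mem _ j.2
      · refine Finset.mem_inter.mpr ⟨Finset.mem_erase.mpr ⟨fun e => hk (e ▸ hsh), h1⟩, hsh⟩
  -- the operator rescaled
  have hC₀ := C₀_pos
  set T' : Op N := ((C₀⁻¹ : ℝ) : ℂ) • T with hT'
  have hnorm : ‖((C₀⁻¹ : ℝ) : ℂ)‖ = C₀⁻¹ := by
    rw [Complex.norm_real, Real.norm_of_nonneg (by positivity)]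
  have hTb : ∀ J' ⊆ (Finset.univ : Finset ↥J), ‖B'.fam.EJ J' T'‖ ≤ ν₀ ^ J'.card := by
    intro J' _
    rw [hT', map_smul, norm_smul, hnorm]
    have h1 := core_cross B' ds hds X hX hcr J'
    rw [ν₀, ← Real.exp_nat_mul]
    have e : (J'.card : ℝ) * (-(κ / 2)) = -(κ / 2) * J'.card := by ring
    rw [e]
    have h2 := inv_pos.mpr hC₀
    calc C₀⁻¹ * ‖B'.fam.EJ J' T‖ ≤ C₀⁻¹ * (C₀ * Real.exp (-(κ / 2) * J'.card)) := by gcongr
      _ = _ := by field_simp
  have hε₀ : 0 ≤ ε₀ := by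
    unfold ε₀
    have := κ_pos
    positivity
  have hsurg := surgery B₁.fam B'.fam (B₁.Ok S' fresh₁) B₁.fam_nrm B'.fam_nrm
    (B₁.shrink_W_sub S' fresh₁) (B₁.Ok_mem S' fresh₁) (B₁.Ok_norm S' fresh₁) T' ν₀ ε₀
    (Real.exp_pos _).le hε₀ Finset.univ
    (by
      intro k _ b
      by_cases hf : fresh₁ k
      · have h1 := B₁.close_fresh S' fresh₁ hf b
        have h2 : ‖B.c k.1‖ ≤ τ₀ := hf
        have h3 : 2 * τ₀ = ε₀ := by
          unfold τ₀ ε₀
          ring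
        have h4 : ‖B₁.c k‖ = ‖B.c k.1‖ := rfl
        show ‖B₁.K k b - B'.K k b * B₁.Ok S' fresh₁ k‖ ≤ ε₀
        rw [h4] at h1
        linarith
      · have h1 := B₁.close_removal S' fresh₁ hf b
        rw [hMk k] at h1
        have hsub : 𝓗₁.erase (S₁ k) ⊆ Finset.univ.image S :=
          (Finset.erase_subset _ _).trans h𝓗₁sub
        have h2 := B₁.cM_gen k (𝓗₁.erase (S₁ k)) (hd𝓗 _ hsub) (Mm k) rfl
        have h3 : ∑ h ∈ 𝓗₁.erase (S₁ k), (1 - ‖B₁.ck k h‖ ^ 2) ≤ 2 * 140 / (M₁ : ℝ) := by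
          refine le_trans (le_of_eq ?_) (hJ2 k.1 k.2)
          refine Finset.sum_congr rfl fun h hh => ?_
          have hne : h ≠ S k.1 := Finset.ne_of_mem_erase hh
          have e : a k.1 h = 1 - ‖B.ck k.1 h‖ ^ 2 := if_neg (not_or.mpr ⟨hf, hne⟩)
          rw [e]
          rfl
        have h4 := row_small
        refine abs_le_of_sq_le_sq' ?_ hε₀ |>.2
        show ‖B₁.K k b - B'.K k b * B₁.Ok S' fresh₁ k‖ ^ 2 ≤ ε₀ ^ 2
        refine h1.trans ?_
        linarith)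
    hTb
  rw [Finset.card_univ, Fintype.card_coe] at hsurg
  have hfam : B₁.fam.EJ Finset.univ = B.fam.EJ J := EJ_restrict_univ B J
  rw [hfam] at hsurg
  -- conclusion
  refine (Fam.norm_EJ_mono B.fam_nrm (Finset.subset_univ J) T).trans ?_
  have hTT : T = ((C₀ : ℝ) : ℂ) • T' := by
    rw [hT', smul_smul, ← Complex.ofReal_mul, mul_inv_cancel₀ hC₀.ne']
    simp
  rw [hTT, map_smul, norm_smul, Complex.norm_real, Real.norm_of_nonneg hC₀.le]
  refine mul_le_mul_of_nonneg_left (hsurg.trans ?_) hC₀.le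
  have h0 : 0 ≤ ν₀ + 2 * ε₀ := by
    have := (Real.exp_pos (-(κ / 2))).le
    unfold ν₀
    positivity
  refine (pow_le_pow_left₀ h0 rate_le _).trans ?_
  rw [← Real.exp_nat_mul]
  apply Real.exp_le_exp.mpr
  have hM₁r : (0 : ℝ) < M₁ := by exact_mod_cast hM₁
  have hcard : (Fintype.card ι : ℝ) ≤ 2 * (M₁ : ℝ) * J.card := by exact_mod_cast hJ1
  have hκ := κ_pos
  have e1 : (κ / (16 * M₁)) * (Fintype.card ι : ℝ) ≤ (κ / (16 * M₁)) * (2 * (M₁ : ℝ) * J.card) := by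
    gcongr
  have e2 : (κ / (16 * M₁)) * (2 * (M₁ : ℝ) * J.card) = κ / 8 * J.card :=
    rate_aux κ _ _ hM₁r.ne'
  have e3 : -(κ / (16 * M₁)) * (Fintype.card ι : ℝ) = -((κ / (16 * M₁)) * (Fintype.card ι : ℝ)) := by ring
  rw [e3]
  have e4 : (J.card : ℝ) * -(κ / 8) = -(κ / 8 * J.card) := by ring
  rw [e4]
  linarith

end Vale.Agent.Lib.P368y
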