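import Vale.Agent.Lib.P368y.Multi3
import Vale.Agent.Lib.P368x.Depth2

/-!
Gates of the first layer with many inputs: the expansion over all of them.
-/

open scoped BigOperators Matrix Matrix.Norms.L2Operator

namespace Vale.Agent.Lib.P368y

open Vale.Agent.Lib.P368x

variable {N : ℕ} {ι : Type*} [DecidableEq ι]

lemma sl_entry (i : Fin N) (A : Op N) (a c : Str N) :
    sl i A a c = (1 / 4) * (sg (a i) * A a c + A a c * sg (c i)
      + sg (fl i a i) * A (fl i a) (fl i c) + A (fl i a) (fl i c) * sg (fl i c i)) := by
  rw [sl_def]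
  simp only [Matrix.smul_apply, Matrix.add_apply, smul_eq_mul]
  rw [Zs_mul_apply, mul_Zs_apply, Xs_mul_apply, Zs_mul_apply, mul_Xs_apply, Xs_mul_apply,
    ← mul_assoc A, mul_Xs_apply, mul_Zs_apply]

lemma N_col (i : Fin N) (b : Bool) (x y : Str N) :
    site i (ket (bv b)) x y = if y i = false ∧ x = Function.update y i b then 1 else 0 := by
  by_cases hy : y i = false
  · rw [N_apply _ _ _ _ hy]
    simp [hy]
  · have hy' : y i = true := by simpa using hy
    rw [site_apply]
    simp [ket, hy', hy]

lemma N_sand (i : Fin N) (b : Bool) (Z : Op N) (a c : Str N) :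
    ((site i (ket (bv b)))ᴴ * Z * site i (ket (bv b))) a c
      = if a i = false ∧ c i = false then Z (Function.update a i b) (Function.update c i b) else 0 := by
  set P := site i (ket (bv b)) with hP
  have h1 : ∀ y, (Pᴴ * Z) a y = if a i = false then Z (Function.update a i b) y else 0 := by
    intro y
    rw [Matrix.mul_apply]
    by_cases ha : a i = false
    · rw [if_pos ha, Finset.sum_eq_single (Function.update a i b)]
      · rw [Matrix.conjTranspose_apply, hP, N_col]
        simp [ha]
      · intro x _ hx
        rw [Matrix.conjTranspose_apply, hP, N_col]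
        simp [hx]
      · simp
    · rw [if_neg ha]
      refine Finset.sum_eq_zero fun x _ => ?_
      rw [Matrix.conjTranspose_apply, hP, N_col]
      simp [ha]
  rw [Matrix.mul_apply]
  simp only [h1]
  by_cases hc : c i = false
  · rw [Finset.sum_eq_single (Function.update c i b)]
    · rw [hP, N_col]
      by_cases ha : a i = false <;> simp [ha, hc]
    · intro y _ hy
      rw [hP, N_col]
      simp [hy]
    · simp
  · rw [Finset.sum_eq_zero]
    · simp [hc]
    · intro y _
      rw [hP, N_col]
      simp [hc]

lemma site_e00_apply (i : Fin N) (M : Op N) (a c : Str N) :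
    (site i e00 * M) a c = if a i = false then M a c else 0 := by
  rw [Matrix.mul_apply]
  have h : ∀ x, site i e00 a x = if x = a ∧ a i = false then 1 else 0 := by
    intro x
    rw [site_apply, prod_one_erase]
    by_cases hxa : x = a
    · subst hxa
      cases hx : x i <;> simp [e00, hx]
    · have : ¬ (x = a ∧ a i = false) := fun h => hxa h.1
      rw [if_neg this]
      by_cases h3 : ∀ j, j ≠ i → a j = x j
      · have h4 : a i ≠ x i := by
          intro e
          apply hxa
          funext j
          by_cases hj : j = i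
          · rw [hj, e]
          · exact (h3 j hj).symm
        cases ha : a i <;> cases hx : x i <;> simp_all [e00]
      · rw [if_neg h3, mul_zero]
  simp only [h]
  by_cases ha : a i = false
  · rw [if_pos ha, Finset.sum_eq_single a]
    · simp [ha]
    · intro x _ hx
      simp [hx]
    · simp
  · rw [if_neg ha]
    refine Finset.sum_eq_zero fun x _ => ?_
    simp [ha]

lemma fl_eq_update (i : Fin N) (a : Str N) (ha : a i = false) : fl i a = Function.update a i true := by
  simp [fl, ha]

lemma update_false_self (i : Fin N) (a : Str N) (ha : a i = false) : Function.update a i false = a := by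
  funext j
  by_cases hj : j = i
  · subst hj; simp [ha]
  · simp [hj]

/-- The signed map of a site in terms of the slice. -/
lemma Eb_Nf (i : Fin N) (Z : Op N) :
    Eb (fun b => site i (ket (bv b))) Z = site i e00 * sl i Z := by
  ext a c
  rw [site_e00_apply, Eb_apply]
  simp only [Matrix.smul_apply, Matrix.sub_apply, smul_eq_mul, N_sand]
  by_cases ha : a i = false
  · rw [if_pos ha]
    by_cases hc : c i = false
    · simp only [ha, hc, and_self, if_true]
      rw [sl_entry, fl_eq_update i a ha, fl_eq_update i c hc, update_false_self i a ha,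
        update_false_self i c hc, ha, hc]
      simp only [Function.update_self, sg]
      simp
      ring
    · have hc' : c i = true := by simpa using hc
      have e0 : (a i = false ∧ c i = false) = False := by simp [hc']
      simp only [e0, if_false, sub_self, mul_zero]
      have e1 : sg (fl i a i) = -1 := by simp [fl, sg, ha]
      have e2 : sg (fl i c i) = 1 := by simp [fl, sg, hc']
      have e3 : sg (a i) = 1 := by simp [sg, ha]
      have e4 : sg (c i) = -1 := by simp [sg, hc']
      rw [sl_entry, e1, e2, e3, e4]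
      ring
  · simp [ha]

/-- The iterate of the site family is the iterated slice times a projector. -/
lemma Nf_EJ_eq (J : Finset (Fin N)) (Z : Op N) :
    (Nf id Function.injective_id).EJ J Z = Pr J * E J Z := by
  induction J using Finset.induction_on with
  | empty => simp
  | insert s J hs ih =>
    rw [Fam.EJ_insert_apply _ hs, ih]
    show Eb (fun b => site s (ket (bv b))) _ = _
    have hoff : Off s (Pr J) := by
      apply off_tensor
      simp [hs]
    have hP : Pr (insert s J) = site s e00 * Pr J := by
      rw [Pr, Pr, site, tensor_mul]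
      congr 1
      funext t
      by_cases ht : t = s
      · subst ht
        simp [hs]
      · simp [ht]
    rw [Eb_Nf, sl_mul_left_off hoff, E_insert hs, hP, mul_assoc]
    rfl

lemma norm_Nf_EJ_le (J : Finset (Fin N)) (Z : Op N) :
    ‖(Nf id Function.injective_id).EJ J Z‖ ≤ ‖E J Z‖ := by
  rw [Nf_EJ_eq]
  exact mul_norm_aux (norm_Pr_le J)

lemma peel_site_left' (g : RGate N) (J : Finset (Fin N)) (Z : Op N) :
    ‖(Nf id Function.injective_id).EJ J ((siteQ g).QP J * Z)‖ ≤ (3 / 4 : ℝ) ^ J.card * ‖Z‖ := by
  have h := peel_left (Nf_nrm id Function.injective_id) J ((siteQ g).QP_herm J) ((siteQ g).QP_idem J) Z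
  have h2 := norm_AJ_siteQ g J
  refine abs_le_of_sq_le_sq' (h.trans ?_) (by positivity) |>.2
  rw [mul_pow]
  have h3 := half_pow_le J.card
  have h4 := sq_nonneg ‖Z‖
  gcongr
  exact h2.trans h3

lemma peel_site_right' (g : RGate N) (J : Finset (Fin N)) (Z : Op N) :
    ‖(Nf id Function.injective_id).EJ J (Z * (siteQ g).QP J)‖ ≤ (3 / 4 : ℝ) ^ J.card * ‖Z‖ := by
  have h := peel_right (Nf_nrm id Function.injective_id) J ((siteQ g).QP_herm J) ((siteQ g).QP_idem J) Z
  have h2 := norm_AJ_siteQ g J
  refine abs_le_of_sq_le_sq' (h.trans ?_) (by positivity) |>.2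
  rw [mul_pow]
  have h3 := half_pow_le J.card
  have h4 := sq_nonneg ‖Z‖
  gcongr
  exact h2.trans h3

/-- Expansion of one gate of the first layer. -/
theorem expand_gate (g : RGate N) (J : Finset (Fin N)) (W : Op N) :
    ‖(Nf id Function.injective_id).EJ J (g.op * W * g.op)‖
      ≤ ‖(Nf id Function.injective_id).EJ J W‖ +
        4 * ((3 / 4 : ℝ) ^ (J.filter fun s => s ∈ g.S).card *
          ‖(Nf id Function.injective_id).EJ (J.filter fun s => s ∉ g.S) W‖) := by
  set F := Nf (N := N) id Function.injective_id with hF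
  set Jg := J.filter fun s => s ∈ g.S with hJg
  set J' := J.filter fun s => s ∉ g.S with hJ'
  have hdisj : Disjoint Jg J' := by
    rw [Finset.disjoint_left]
    intro k hk hk'
    exact (Finset.mem_filter.mp hk').2 (Finset.mem_filter.mp hk).2
  have hun : J = Jg ∪ J' := (Finset.filter_union_filter_not_eq _ J).symm
  have hsub : Jg ⊆ g.S := fun s hs => (Finset.mem_filter.mp hs).2
  have hgn := g.norm_le
  set Rh := tensor g.ρ with hRh
  have hexp : g.op * W * g.op = W - (2 : ℂ) • (Rh * (W * g.op)) - (2 : ℂ) • (W * Rh) := by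
    have e3 : g.op = 1 - (2 : ℂ) • Rh := rfl
    calc g.op * W * g.op = (1 - (2 : ℂ) • Rh) * W * g.op := by rw [← e3]
      _ = W * g.op - (2 : ℂ) • (Rh * (W * g.op)) := by
          simp only [sub_mul, one_mul, smul_mul_assoc, mul_assoc]
      _ = W * (1 - (2 : ℂ) • Rh) - (2 : ℂ) • (Rh * (W * g.op)) := by rw [← e3]
      _ = _ := by
          simp only [mul_sub, mul_one, mul_smul_comm]
          abel
  set Tr := tensor (XOff Jg g.ρ) with hTr
  have hTn : ‖Tr‖ ≤ 1 := by
    apply norm_tensor_le_one
    intro s
    by_cases hs : s ∈ Jg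
    · simp [XOff, hs]
    · simpa [XOff, hs] using (g.site_ok s).norm_le
  set Q := (siteQ g).QP Jg with hQ
  -- commutations
  have hoff : ∀ {C : Op N}, (∀ s ∈ J', ∀ A : M2, Commute C (site s A)) → F.Off J' C := by
    intro C h
    exact (Nf_off id Function.injective_id J' C h).1
  have hQoff : F.Off J' Q := by
    apply hoff
    intro s hs A
    rw [hQ, QP_eq]
    apply tensor_commute
    intro t
    by_cases ht : t ∈ Jg
    · right
      have : t ≠ s := fun e => Finset.disjoint_left.mp hdisj ht (e ▸ hs)
      exact Function.update_of_ne this _ _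
    · left
      simp [XOn, ht]
  have hsS : ∀ s ∈ J', s ∉ g.S := fun s hs => (Finset.mem_filter.mp hs).2
  have hTroff : F.Off J' Tr := by
    apply hoff
    intro s hs A
    apply tensor_commute
    intro t
    by_cases ht : t = s
    · left
      subst ht
      by_cases h2 : t ∈ Jg
      · simp [XOff, h2]
      · simp only [XOff, h2, if_false]
        exact g.hO t (hsS t hs)
    · right
      exact Function.update_of_ne ht _ _
  have hgoff : F.Off J' g.op := by
    apply hoff
    intro s hs A
    refine Commute.sub_left (Commute.one_left _) (Commute.smul_left ?_ _)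
    apply tensor_commute
    intro t
    by_cases ht : t = s
    · left
      subst ht
      exact g.hO t (hsS t hs)
    · right
      exact Function.update_of_ne ht _ _
  set R := F.EJ J' W with hR
  have hsplit : ∀ Z, F.EJ J Z = F.EJ Jg (F.EJ J' Z) := by
    intro Z
    conv_lhs => rw [hun, Fam.EJ_union _ hdisj]
    rfl
  have t1 : F.EJ J' (Q * (Tr * (W * g.op))) = Q * (Tr * (R * g.op)) := by
    rw [Fam.EJ_mul_left _ hQoff, Fam.EJ_mul_left _ hTroff, Fam.EJ_mul_right _ hgoff]
  have t2 : F.EJ J' ((W * Tr) * Q) = (R * Tr) * Q := by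
    rw [Fam.EJ_mul_right _ hQoff, Fam.EJ_mul_right _ hTroff]
  have e1 : Rh * (W * g.op) = Q * (Tr * (W * g.op)) := by
    rw [hRh, tensor_split_left g Jg hsub, mul_assoc]
  have e2 : W * Rh = (W * Tr) * Q := by
    rw [hRh, tensor_split_right g Jg hsub, mul_assoc]
  have n1 : ‖F.EJ J (Rh * (W * g.op))‖ ≤ (3 / 4 : ℝ) ^ Jg.card * ‖R‖ := by
    rw [e1, hsplit, t1]
    refine (peel_site_left' g Jg _).trans ?_
    gcongr
    exact (mul_norm_aux hTn).trans (mul_norm_aux' hgn)
  have n2 : ‖F.EJ J (W * Rh)‖ ≤ (3 / 4 : ℝ) ^ Jg.card * ‖R‖ := by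
    rw [e2, hsplit, t2]
    refine (peel_site_right' g Jg _).trans ?_
    gcongr
    exact mul_norm_aux' hTn
  rw [hexp, map_sub, map_sub, map_smul, map_smul]
  have n22 : ‖(2 : ℂ)‖ = 2 := by norm_num
  have a1 := norm_sub_le (F.EJ J W - (2 : ℂ) • F.EJ J (Rh * (W * g.op))) ((2 : ℂ) • F.EJ J (W * Rh))
  have a2 := norm_sub_le (F.EJ J W) ((2 : ℂ) • F.EJ J (Rh * (W * g.op)))
  rw [norm_smul, n22] at a1 a2
  linarith

end Vale.Agent.Lib.P368y
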