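import Vale.Agent.Lib.P368y.Multi4

/-!
The expansion over all gates of the first layer.
-/

open scoped BigOperators Matrix Matrix.Norms.L2Operator

namespace Vale.Agent.Lib.P368y

open Vale.Agent.Lib.P368x

variable {N : ℕ}

/-- The factor contributed by a gate with `a` inputs of `J`. -/
noncomputable def fG (a : ℕ) : ℝ := if a = 0 then 1 else 1 + 4 * (7 / 8 : ℝ) ^ a

lemma fG_nonneg (a : ℕ) : 0 ≤ fG a := by
  unfold fG
  split_ifs
  · norm_num
  · positivity

lemma fG_prod_nonneg {α : Type*} (l : List α) (c : α → ℕ) : 0 ≤ (l.map fun g => fG (c g)).prod := by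
  induction l with
  | nil => simp
  | cons a l ih =>
    rw [List.map_cons, List.prod_cons]
    exact mul_nonneg (fG_nonneg _) ih

lemma lop_commute_gate (g : RGate N) (gs : List (RGate N)) (h : ∀ r ∈ gs, Disjoint g.S r.S) :
    Commute g.op (lop gs) := by
  induction gs with
  | nil => simp
  | cons r gs ih =>
    rw [lop_cons]
    exact (RGate.commute_of_disj (h r (List.mem_cons_self ..))).mul_right
      (ih fun k hk => h k (List.mem_cons_of_mem _ hk))

lemma filter_filter_disj (g h : RGate N) (hd : Disjoint g.S h.S) (J : Finset (Fin N)) :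
    ((J.filter fun s => s ∉ g.S).filter fun s => s ∈ h.S) = J.filter fun s => s ∈ h.S := by
  ext s
  simp only [Finset.mem_filter]
  constructor
  · rintro ⟨⟨h1, _⟩, h3⟩
    exact ⟨h1, h3⟩
  · rintro ⟨h1, h3⟩
    exact ⟨⟨h1, fun h2 => Finset.disjoint_left.mp hd h2 h3⟩, h3⟩

lemma gate_off_case (g : RGate N) (J : Finset (Fin N)) (hJ : ∀ s ∈ J, s ∉ g.S) (W : Op N) :
    ‖(Nf id Function.injective_id).EJ J (g.op * W * g.op)‖
      ≤ ‖(Nf id Function.injective_id).EJ J W‖ := by
  have hcomm : ∀ k ∈ J, ∀ A : M2, Commute g.op (site (id k) A) := by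
    intro s hs A
    refine Commute.sub_left (Commute.one_left _) (Commute.smul_left ?_ _)
    apply tensor_commute
    intro t
    by_cases ht : t = s
    · left
      subst ht
      exact g.hO t (hJ t hs)
    · right
      exact Function.update_of_ne ht _ _
  obtain ⟨o1, _⟩ := Nf_off id Function.injective_id J g.op hcomm
  rw [Fam.EJ_mul_right _ o1, Fam.EJ_mul_left _ o1]
  have hn := g.norm_le
  exact mul3_norm_le _ hn hn

/-- The expansion over a layer. -/
theorem expand_L1 (Y : Op N)
    (hY : ∀ J : Finset (Fin N), ‖(Nf id Function.injective_id).EJ J Y‖ ≤ (6 / 7 : ℝ) ^ J.card)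
    (gs : List (RGate N)) (hgs : gs.Pairwise fun g h => Disjoint g.S h.S) (J : Finset (Fin N)) :
    ‖(Nf id Function.injective_id).EJ J ((lop gs)ᴴ * Y * lop gs)‖
      ≤ (6 / 7 : ℝ) ^ J.card * (gs.map fun g => fG (J.filter fun s => s ∈ g.S).card).prod := by
  induction gs generalizing J with
  | nil =>
    simp only [lop_nil, Matrix.conjTranspose_one, one_mul, mul_one, List.map_nil, List.prod_nil]
    exact hY J
  | cons g gs ih =>
    obtain ⟨h1, h2⟩ := List.pairwise_cons.mp hgs
    have ih' := ih h2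
    set M := lop gs with hM
    set W := Mᴴ * Y * M with hW
    have hc : Commute g.op M := lop_commute_gate g gs h1
    have hA : (lop (g :: gs))ᴴ * Y * lop (g :: gs) = g.op * W * g.op := by
      rw [lop_cons, ← hM, hc.eq, Matrix.conjTranspose_mul, g.herm]
      simp only [hW, mul_assoc]
    rw [hA, List.map_cons, List.prod_cons]
    set P := (gs.map fun g => fG (J.filter fun s => s ∈ g.S).card).prod with hP
    have hP0 : 0 ≤ P := fG_prod_nonneg _ _
    set a := (J.filter fun s => s ∈ g.S).card with ha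
    by_cases ha0 : a = 0
    · have hoff : ∀ s ∈ J, s ∉ g.S := by
        intro s hs hg
        have : s ∈ J.filter fun s => s ∈ g.S := Finset.mem_filter.mpr ⟨hs, hg⟩
        rw [Finset.card_eq_zero.mp ha0] at this
        exact Finset.notMem_empty _ this
      have : fG a = 1 := by simp [fG, ha0]
      rw [this, one_mul]
      exact (gate_off_case g J hoff W).trans (ih' J)
    · have hf : fG a = 1 + 4 * (7 / 8 : ℝ) ^ a := by simp [fG, ha0]
      rw [hf]
      refine (expand_gate g J W).trans ?_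
      set J' := J.filter fun s => s ∉ g.S with hJ'
      have hcard : J.card = a + J'.card := by
        rw [ha, hJ']
        exact (Finset.card_filter_add_card_filter_not _).symm
      have e1 := ih' J
      have e2 := ih' J'
      have hP' : (gs.map fun g => fG (J'.filter fun s => s ∈ g.S).card).prod = P := by
        rw [hP]
        congr 1
        apply List.map_congr_left
        intro r hr
        rw [hJ', filter_filter_disj g r (h1 r hr) J]
      rw [hP'] at e2
      have h34 : (0 : ℝ) ≤ (3 / 4 : ℝ) ^ a := by positivity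
      have e3 : 4 * ((3 / 4 : ℝ) ^ a * ‖(Nf id Function.injective_id).EJ J' W‖)
          ≤ 4 * ((3 / 4 : ℝ) ^ a * ((6 / 7 : ℝ) ^ J'.card * P)) := by gcongr
      have e4 : (3 / 4 : ℝ) ^ a = (7 / 8 : ℝ) ^ a * (6 / 7 : ℝ) ^ a := by
        rw [← mul_pow]
        norm_num
      have e5 : (6 / 7 : ℝ) ^ J.card = (6 / 7 : ℝ) ^ a * (6 / 7 : ℝ) ^ J'.card := by
        rw [hcard, pow_add]
      calc _ ≤ (6 / 7 : ℝ) ^ J.card * P + 4 * ((3 / 4 : ℝ) ^ a * ((6 / 7 : ℝ) ^ J'.card * P)) := by
            linarith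
        _ = _ := by
            rw [e4, e5]
            ring

lemma fG_le (a : ℕ) (h : a = 0 ∨ 12 ≤ a) : fG a ≤ (35 / 33 : ℝ) ^ a := by
  rcases h with rfl | h
  · simp [fG]
  · induction a, h using Nat.le_induction with
    | base =>
      simp [fG]
      norm_num
    | succ a ha ih =>
      have h0 : a ≠ 0 := by omega
      have h1 : a + 1 ≠ 0 := by omega
      simp only [fG, h0, if_false, h1] at ih ⊢
      rw [pow_succ (35 / 33 : ℝ) a, pow_succ (7 / 8 : ℝ) a]
      have h2 : (0 : ℝ) ≤ (7 / 8 : ℝ) ^ a := by positivity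
      nlinarith

lemma fG_prod_le (gs : List (RGate N)) (J : Finset (Fin N)) (hgs : gs.Pairwise fun g h => Disjoint g.S h.S)
    (h : ∀ g ∈ gs, (J.filter fun s => s ∈ g.S).card = 0 ∨ 12 ≤ (J.filter fun s => s ∈ g.S).card) :
    (gs.map fun g => fG (J.filter fun s => s ∈ g.S).card).prod ≤ (35 / 33 : ℝ) ^ J.card := by
  have h1 : (gs.map fun g => fG (J.filter fun s => s ∈ g.S).card).prod
      ≤ (35 / 33 : ℝ) ^ (gs.map fun g => (J.filter fun s => s ∈ g.S).card).sum := by
    induction gs with
    | nil => simp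
    | cons g gs ih =>
      obtain ⟨_, h2⟩ := List.pairwise_cons.mp hgs
      rw [List.map_cons, List.prod_cons, List.map_cons, List.sum_cons, pow_add]
      have e1 := fG_le _ (h g (List.mem_cons_self ..))
      have e2 := ih h2 fun k hk => h k (List.mem_cons_of_mem _ hk)
      have e3 := fG_nonneg (J.filter fun s => s ∈ g.S).card
      have e4 := fG_prod_nonneg gs fun g => (J.filter fun s => s ∈ g.S).card
      exact mul_le_mul e1 e2 e4 (e3.trans e1)
  have h2 := sum_filter_le id (gs.map RGate.S) (map_S_pairwise gs hgs) J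
  rw [List.map_map] at h2
  refine h1.trans (pow_le_pow_right₀ (by norm_num) ?_)
  exact h2

/-- Gates with many inputs: the bound on the slice over those inputs. -/
theorem heavy_multi (gs₁ gs₂ : List (RGate N))
    (hgs₁ : gs₁.Pairwise fun g h => Disjoint g.S h.S) (hgs₂ : gs₂.Pairwise fun g h => Disjoint g.S h.S)
    (X : Fin N → M2) (hX : AllOK X) (J : Finset (Fin N))
    (h : ∀ g ∈ gs₁, (J.filter fun s => s ∈ g.S).card = 0 ∨ 12 ≤ (J.filter fun s => s ∈ g.S).card) :
    ‖(Nf id Function.injective_id).EJ J ((lop gs₁)ᴴ * ((lop gs₂)ᴴ * tensor X * lop gs₂) * lop gs₁)‖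
      ≤ (10 / 11 : ℝ) ^ J.card := by
  have hY : ∀ J : Finset (Fin N),
      ‖(Nf id Function.injective_id).EJ J ((lop gs₂)ᴴ * tensor X * lop gs₂)‖ ≤ (6 / 7 : ℝ) ^ J.card :=
    fun J => (norm_Nf_EJ_le J _).trans (key_layer gs₂ hgs₂ X hX J)
  have h1 := expand_L1 _ hY gs₁ hgs₁ J
  have h2 := fG_prod_le gs₁ J hgs₁ h
  have h3 : (0 : ℝ) ≤ (6 / 7 : ℝ) ^ J.card := by positivity
  calc _ ≤ _ := h1
    _ ≤ (6 / 7 : ℝ) ^ J.card * (35 / 33 : ℝ) ^ J.card := mul_le_mul_of_nonneg_left h2 h3
    _ = _ := by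
      rw [← mul_pow]
      norm_num

end Vale.Agent.Lib.P368y
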