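import Vale.Agent.Lib.P368y.Top1
import Vale.Agent.Lib.P368x.Depth2

/-!
Circuits of entangling depth three: the parity correlation.
-/

open scoped BigOperators Matrix Matrix.Norms.L2Operator

namespace Vale.Agent.Lib.P368y

open Vale.Agent.Lib.P368x

variable {N : ℕ}

/-- The bound for the entry at zero of the slice of a projector after two layers. -/
theorem top_entry (K m : ℕ) (hm : 2 * M₀ * m ≤ K) (gs₁ gs₂ : List (RGate N))
    (hgs₁ : gs₁.Pairwise fun g h => Disjoint g.S h.S) (hgs₂ : gs₂.Pairwise fun g h => Disjoint g.S h.S)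
    (X : Fin N → M2) (hX : AllOK X) (I : Finset (Fin N)) (hI : K * K * K ≤ I.card) :
    ‖E I ((lop gs₁)ᴴ * ((lop gs₂)ᴴ * tensor X * lop gs₂) * lop gs₁) (zeroStr N) (zeroStr N)‖
      ≤ νc ^ m + (6 / 7 : ℝ) ^ K + 4 * (3 / 4 : ℝ) ^ K := by
  classical
  have hn₁ := norm_lop_le gs₁
  have hn₂ := norm_lop_le gs₂
  have hT := norm_tensor_ok hX
  have hY : ‖(lop gs₂)ᴴ * tensor X * lop gs₂‖ ≤ 1 :=
    (mul3_norm_le _ (by rw [norm_adj]; exact hn₂) hn₂).trans hT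
  have h67 : (0 : ℝ) ≤ (6 / 7 : ℝ) ^ K := by positivity
  have h34 : (0 : ℝ) ≤ (3 / 4 : ℝ) ^ K := by positivity
  have hν := νc_pow_nonneg m
  by_cases hK : K = 0
  · subst hK
    have hm0 : m = 0 := by
      have : 0 < M₀ := by unfold M₀; norm_num
      by_contra hne
      have : 0 < 2 * M₀ * m := by positivity
      omega
    subst hm0
    refine (abs_entry_le _ _).trans ((norm_E_le _ _).trans ?_)
    refine (mul3_norm_le _ (by rw [norm_adj]; exact hn₁) hn₁).trans (hY.trans ?_)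
    norm_num
  have hK1 : 1 ≤ K := Nat.one_le_iff_ne_zero.mpr hK
  by_cases hcase : ∃ g ∈ gs₁, K ≤ (g.S ∩ I).card
  · obtain ⟨g, hg, hgK⟩ := hcase
    set I₀ := g.S ∩ I with hI₀
    have h67' : (6 / 7 : ℝ) ^ I₀.card ≤ (6 / 7 : ℝ) ^ K :=
      pow_le_pow_of_le_one (by norm_num) (by norm_num) hgK
    have h34' : (3 / 4 : ℝ) ^ I₀.card ≤ (3 / 4 : ℝ) ^ K := pow34_le hgK
    have hc : νc ^ m + (6 / 7 : ℝ) ^ K + 4 * (3 / 4 : ℝ) ^ K = νc ^ m + ((6 / 7 : ℝ) ^ K + 4 * (3 / 4 : ℝ) ^ K) := by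
      ring
    refine entry_reduce I I₀ Finset.inter_subset_right _ _ fun w' hw' => ?_
    have hw0 : ∀ s ∈ I₀, w' s = false := by
      intro s hs
      apply mem_SI.mp hw'
      simp [hs]
    have h1 := heavy_L1 gs₁ hgs₁ g hg I₀ Finset.inter_subset_left _ hY w' hw0
    have h2 := key_layer gs₂ hgs₂ X hX I₀
    linarith
  · push Not at hcase
    obtain ⟨w, hw, hw2⟩ := frame_list gs₂ hgs₂
    have hY' := layer_TT gs₂ w hw hw2 X
    set v : Fin N → M2 := fun s => (w s)ᴴ with hv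
    have hvu : ∀ s, Uni (v s) := fun s => uni_adj (hw s)
    set gt := gs₁.map fun g => cjG g v hvu with hgt
    have hthr : tensor w * lop gs₁ = lop gt * tensor w := frame_through gs₁ w hw
    have hA : (lop gs₁)ᴴ * ((lop gs₂)ᴴ * tensor X * lop gs₂) * lop gs₁
        = (lop gt * tensor w)ᴴ * TT (gs₂.map RGate.S) (Xfr w X) * (lop gt * tensor w) := by
      rw [hY', ← hthr, Matrix.conjTranspose_mul]
      simp only [mul_assoc]
    rw [hA]
    have := framed_main K m hK1 hm _ gt (cj_pairwise gs₁ hgs₁ v hvu) w hw (gs₂.map RGate.S)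
      (map_S_pairwise gs₂ hgs₂) (Xfr w X) (Xfr_ok hw hX) I hI (by
        intro g hg
        obtain ⟨g₀, hg₀, rfl⟩ := List.mem_map.mp hg
        exact (hcase g₀ hg₀).le) rfl
    linarith

/-- The core bound at entangling depth three, in operator form. -/
theorem main_operator3 (V₁ V₂ V₃ V₄ : OneQubitLayer N) (L₁ L₂ L₃ : Layer N) (q : Fin N)
    (I : Finset (Fin N)) (K m : ℕ) (hm : 2 * M₀ * m ≤ K) (hI : K * K * K ≤ I.card) :
    ∃ U : Op N, U = V₄.op * L₃.op * (V₃.op * L₂.op * (V₂.op * L₁.op * V₁.op)) ∧ Uᴴ * U = 1 ∧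
      ‖E I (Uᴴ * Zs q * U) (zeroStr N) (zeroStr N)‖
        ≤ 7 * (νc ^ m + (6 / 7 : ℝ) ^ K + 4 * (3 / 4 : ℝ) ^ K) := by
  set v := V₁.mat with hv
  have hvu : ∀ i, Uni (v i) := V₁.mat_uni
  set a : Fin N → M2 := fun i => V₂.mat i * v i with ha
  have hau : ∀ i, Uni (a i) := fun i => (V₂.mat_uni i).mul (hvu i)
  set b : Fin N → M2 := fun i => V₃.mat i * a i with hb
  have hbu : ∀ i, Uni (b i) := fun i => (V₃.mat_uni i).mul (hau i)
  set c : Fin N → M2 := fun i => V₄.mat i * b i with hc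
  have hcu : ∀ i, Uni (c i) := fun i => (V₄.mat_uni i).mul (hbu i)
  set gs₁ := L₁.gates.map fun g => g.conj v hvu with hgs₁
  set gs₂ := L₂.gates.map fun g => g.conj a hau with hgs₂
  set gs₃ := L₃.gates.map fun g => g.conj b hbu with hgs₃
  have hd₁ : gs₁.Pairwise fun g h => Disjoint g.S h.S := L₁.conj_pairwise v hvu
  have hd₂ : gs₂.Pairwise fun g h => Disjoint g.S h.S := L₂.conj_pairwise a hau
  have hd₃ : gs₃.Pairwise fun g h => Disjoint g.S h.S := L₃.conj_pairwise b hbu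
  have hM₁ : lop gs₁ = (tensor v)ᴴ * L₁.op * tensor v := (L₁.conj_eq v hvu).symm
  have hM₂ : lop gs₂ = (tensor a)ᴴ * L₂.op * tensor a := (L₂.conj_eq a hau).symm
  have hM₃ : lop gs₃ = (tensor b)ᴴ * L₃.op * tensor b := (L₃.conj_eq b hbu).symm
  have hta : tensor a = V₂.op * tensor v := (tensor_mul _ v).symm
  have htb : tensor b = V₃.op * tensor a := (tensor_mul _ a).symm
  have htc : tensor c = V₄.op * tensor b := (tensor_mul _ b).symm
  have hV₁ : V₁.op = tensor v := rfl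
  have hU : V₄.op * L₃.op * (V₃.op * L₂.op * (V₂.op * L₁.op * V₁.op))
      = tensor c * lop gs₃ * lop gs₂ * lop gs₁ := by
    have e1 : tensor a * lop gs₁ = V₂.op * L₁.op * V₁.op := by
      rw [hM₁, hta, hV₁]
      calc V₂.op * tensor v * ((tensor v)ᴴ * L₁.op * tensor v)
          = V₂.op * (tensor v * (tensor v)ᴴ) * L₁.op * tensor v := by simp only [mul_assoc]
        _ = _ := by rw [tensor_unitary' hvu, mul_one]
    have e2 : tensor b * lop gs₂ = V₃.op * L₂.op * tensor a := by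
      rw [hM₂, htb]
      calc V₃.op * tensor a * ((tensor a)ᴴ * L₂.op * tensor a)
          = V₃.op * (tensor a * (tensor a)ᴴ) * L₂.op * tensor a := by simp only [mul_assoc]
        _ = _ := by rw [tensor_unitary' hau, mul_one]
    have e3 : tensor c * lop gs₃ = V₄.op * L₃.op * tensor b := by
      rw [hM₃, htc]
      calc V₄.op * tensor b * ((tensor b)ᴴ * L₃.op * tensor b)
          = V₄.op * (tensor b * (tensor b)ᴴ) * L₃.op * tensor b := by simp only [mul_assoc]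
        _ = _ := by rw [tensor_unitary' hbu, mul_one]
    rw [e3, mul_assoc (V₄.op * L₃.op), e2, mul_assoc (V₄.op * L₃.op), mul_assoc (V₃.op * L₂.op), e1]
  set M₁ := lop gs₁ with hM₁'
  set M₂ := lop gs₂ with hM₂'
  set M₃ := lop gs₃ with hM₃'
  have hM₁u : M₁ᴴ * M₁ = 1 := lop_unitary gs₁
  have hM₂u : M₂ᴴ * M₂ = 1 := lop_unitary gs₂
  have hM₃u : M₃ᴴ * M₃ = 1 := lop_unitary gs₃
  refine ⟨_, rfl, ?_, ?_⟩
  · rw [hU, Matrix.conjTranspose_mul, Matrix.conjTranspose_mul, Matrix.conjTranspose_mul]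
    calc M₁ᴴ * (M₂ᴴ * (M₃ᴴ * (tensor c)ᴴ)) * (tensor c * M₃ * M₂ * M₁)
        = M₁ᴴ * (M₂ᴴ * (M₃ᴴ * ((tensor c)ᴴ * tensor c) * M₃) * M₂) * M₁ := by simp only [mul_assoc]
      _ = 1 := by rw [tensor_unitary hcu, mul_one, hM₃u, mul_one, hM₂u, mul_one, hM₁u]
  · set p : M2 := (c q)ᴴ * e00 * c q with hp
    have hpP : Proj1 p := proj1_e00.conj (hcu q)
    set Bd : ℝ := νc ^ m + (6 / 7 : ℝ) ^ K + 4 * (3 / 4 : ℝ) ^ K with hBd
    have hBd0 : 0 ≤ Bd := by
      have := νc_pow_nonneg m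
      positivity
    have key : ∀ X : Fin N → M2, AllOK X →
        ‖E I (M₁ᴴ * (M₂ᴴ * tensor X * M₂) * M₁) (zeroStr N) (zeroStr N)‖ ≤ Bd :=
      fun X hX => top_entry K m hm gs₁ gs₂ hd₁ hd₂ X hX I hI
    have hO : (V₄.op * L₃.op * (V₃.op * L₂.op * (V₂.op * L₁.op * V₁.op)))ᴴ * Zs q
          * (V₄.op * L₃.op * (V₃.op * L₂.op * (V₂.op * L₁.op * V₁.op)))
        = (2 : ℂ) • (M₁ᴴ * (M₂ᴴ * (M₃ᴴ * site q p * M₃) * M₂) * M₁) - 1 := by
      rw [hU, Matrix.conjTranspose_mul, Matrix.conjTranspose_mul, Matrix.conjTranspose_mul]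
      calc M₁ᴴ * (M₂ᴴ * (M₃ᴴ * (tensor c)ᴴ)) * Zs q * (tensor c * M₃ * M₂ * M₁)
          = M₁ᴴ * (M₂ᴴ * (M₃ᴴ * ((tensor c)ᴴ * Zs q * tensor c) * M₃) * M₂) * M₁ := by
            simp only [mul_assoc]
        _ = M₁ᴴ * (M₂ᴴ * (M₃ᴴ * ((2 : ℂ) • site q p - 1) * M₃) * M₂) * M₁ := by rw [conj_Zs c hcu q]
        _ = (2 : ℂ) • (M₁ᴴ * (M₂ᴴ * (M₃ᴴ * site q p * M₃) * M₂) * M₁)
              - M₁ᴴ * (M₂ᴴ * (M₃ᴴ * M₃) * M₂) * M₁ := by
            simp only [mul_sub, sub_mul, mul_smul_comm, smul_mul_assoc, mul_one]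
        _ = _ := by rw [hM₃u, mul_one, hM₂u, mul_one, hM₁u]
    rw [hO, map_sub, map_smul]
    simp only [Matrix.sub_apply, Matrix.smul_apply, smul_eq_mul]
    have kone : ‖E I (1 : Op N) (zeroStr N) (zeroStr N)‖ ≤ Bd := by
      have := key (fun _ => 1) (fun _ => Or.inl rfl)
      rwa [tensor_one, mul_one, hM₂u, mul_one, hM₁u] at this
    have ksite : ‖E I (M₁ᴴ * (M₂ᴴ * site q p * M₂) * M₁) (zeroStr N) (zeroStr N)‖ ≤ Bd := by
      apply key
      intro s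
      by_cases hs : s = q
      · subst hs; simp only [Function.update_self]; exact Or.inr hpP
      · simp only [Function.update_of_ne hs]; exact Or.inl rfl
    have n2 : ‖(2 : ℂ)‖ = 2 := by norm_num
    have bound : ‖E I (M₁ᴴ * (M₂ᴴ * (M₃ᴴ * site q p * M₃) * M₂) * M₁) (zeroStr N) (zeroStr N)‖ ≤ 3 * Bd := by
      rcases layer_conj_site gs₃ hd₃ q p hpP with h | ⟨X₁, X₂, hX₁, hX₂, h⟩
      · rw [h]
        linarith
      · rw [h]
        have e : M₁ᴴ * (M₂ᴴ * (site q p + tensor X₁ - tensor X₂) * M₂) * M₁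
            = M₁ᴴ * (M₂ᴴ * site q p * M₂) * M₁ + M₁ᴴ * (M₂ᴴ * tensor X₁ * M₂) * M₁
              - M₁ᴴ * (M₂ᴴ * tensor X₂ * M₂) * M₁ := by
          simp only [mul_sub, mul_add, sub_mul, add_mul]
        rw [e, map_sub, map_add]
        simp only [Matrix.sub_apply, Matrix.add_apply]
        have a1 := key X₁ hX₁
        have a2 := key X₂ hX₂
        have a3 := norm_sub_le (E I (M₁ᴴ * (M₂ᴴ * site q p * M₂) * M₁) (zeroStr N) (zeroStr N)
          + E I (M₁ᴴ * (M₂ᴴ * tensor X₁ * M₂) * M₁) (zeroStr N) (zeroStr N))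
          (E I (M₁ᴴ * (M₂ᴴ * tensor X₂ * M₂) * M₁) (zeroStr N) (zeroStr N))
        have a4 := norm_add_le (E I (M₁ᴴ * (M₂ᴴ * site q p * M₂) * M₁) (zeroStr N) (zeroStr N))
          (E I (M₁ᴴ * (M₂ᴴ * tensor X₁ * M₂) * M₁) (zeroStr N) (zeroStr N))
        linarith
    refine (norm_sub_le _ _).trans ?_
    rw [norm_mul, n2]
    linarith

/-- Every circuit of entangling depth at most three has the special form. -/
lemma circuit_normal3 (C : Circuit N) (hC : C.steps.length ≤ 3) :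
    ∃ (V₁ V₂ V₃ V₄ : OneQubitLayer N) (L₁ L₂ L₃ : Layer N),
      C.unitary = V₄.op * L₃.op * (V₃.op * L₂.op * (V₂.op * L₁.op * V₁.op)) := by
  obtain ⟨V₁, steps⟩ := C
  match steps, hC with
  | [], _ =>
    refine ⟨V₁, idLayer N, idLayer N, idLayer N, emptyLayer N, emptyLayer N, emptyLayer N, ?_⟩
    simp [Circuit.unitary, idLayer_op, emptyLayer_op]
  | [(L₁, V₂)], _ =>
    refine ⟨V₁, V₂, idLayer N, idLayer N, L₁, emptyLayer N, emptyLayer N, ?_⟩
    simp [Circuit.unitary, idLayer_op, emptyLayer_op]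
  | [(L₁, V₂), (L₂, V₃)], _ =>
    refine ⟨V₁, V₂, V₃, idLayer N, L₁, L₂, emptyLayer N, ?_⟩
    simp [Circuit.unitary, idLayer_op, emptyLayer_op]
  | [(L₁, V₂), (L₂, V₃), (L₃, V₄)], _ =>
    refine ⟨V₁, V₂, V₃, V₄, L₁, L₂, L₃, ?_⟩
    simp [Circuit.unitary]

/-- Entangling depth at most three: the parity correlation, with integer parameters. -/
theorem depth_three_bound {n : ℕ} (C : Circuit N) (hC : C.steps.length ≤ 3)
    (inp : Fin n ↪ Fin N) (q : Fin N) (K m : ℕ) (hm : 2 * M₀ * m ≤ K) (hI : K * K * K ≤ n) :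
    (C.unitary)ᴴ * C.unitary = 1 ∧
      |correlation C inp q| ≤ 7 * (νc ^ m + (6 / 7 : ℝ) ^ K + 4 * (3 / 4 : ℝ) ^ K) := by
  obtain ⟨V₁, V₂, V₃, V₄, L₁, L₂, L₃, hU⟩ := circuit_normal3 C hC
  obtain ⟨U, hU', hu, hb⟩ := main_operator3 V₁ V₂ V₃ V₄ L₁ L₂ L₃ q (Finset.univ.map inp) K m hm
    (by simpa using hI)
  rw [← hU] at hU'
  subst hU'
  refine ⟨hu, ?_⟩
  have h := correlation_eq C inp q
  rw [← h, Complex.norm_real, Real.norm_eq_abs] at hb
  exact hb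

/-- The numerical choice of parameters. -/
lemma numeric_params (n : ℕ) : ∃ K m : ℕ, 2 * M₀ * m ≤ K ∧ K * K * K ≤ n ∧
    7 * (νc ^ m + (6 / 7 : ℝ) ^ K + 4 * (3 / 4 : ℝ) ^ K)
      ≤ 120 * Real.exp (-((n : ℝ) ^ ((1 : ℝ) / 3)) / (32 * 10 ^ 23)) := by
  set r : ℝ := (n : ℝ) ^ ((1 : ℝ) / 3) with hr
  have hr0 : 0 ≤ r := Real.rpow_nonneg (Nat.cast_nonneg n) _
  have hr3 : r ^ 3 = n := by
    rw [hr, ← Real.rpow_natCast, ← Real.rpow_mul (Nat.cast_nonneg n)]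
    norm_num
  set K := ⌊r⌋₊ with hK
  set m := K / (2 * M₀) with hm
  have hKr : (K : ℝ) ≤ r := Nat.floor_le hr0
  have hrK : r < K + 1 := Nat.lt_floor_add_one r
  refine ⟨K, m, Nat.mul_div_le K (2 * M₀), ?_, ?_⟩
  · have h1 : ((K * K * K : ℕ) : ℝ) ≤ r ^ 3 := by
      push_cast
      have hK0 : (0 : ℝ) ≤ K := Nat.cast_nonneg K
      calc (K : ℝ) * K * K = (K : ℝ) ^ 3 := by ring
        _ ≤ r ^ 3 := pow_le_pow_left₀ hK0 hKr 3
    rw [hr3] at h1
    exact_mod_cast h1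
  · have hM : (0 : ℕ) < 2 * M₀ := by unfold M₀; norm_num
    have hmK : K < 2 * M₀ * (m + 1) := by
      have := Nat.lt_mul_div_succ K hM
      simpa [hm] using this
    have hmK' : (K : ℝ) < 32 * 10 ^ 16 * (m + 1) := by
      have : ((K : ℕ) : ℝ) < ((2 * M₀ * (m + 1) : ℕ) : ℝ) := by exact_mod_cast hmK
      unfold M₀ at this
      push_cast at this
      linarith
    set c₀ : ℝ := r / (32 * 10 ^ 23) with hc₀
    have hc₀0 : 0 ≤ c₀ := by positivity
    have hneg : -r / (32 * 10 ^ 23) = -c₀ := by rw [hc₀]; ring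
    rw [hneg]
    have hcr : c₀ ≤ r / 7 := by
      rw [hc₀]
      exact div_le_div_of_nonneg_left hr0 (by norm_num) (by norm_num)
    have hcr' : c₀ ≤ r / 4 := by
      rw [hc₀]
      exact div_le_div_of_nonneg_left hr0 (by norm_num) (by norm_num)
    have he : Real.exp (1 - c₀) = Real.exp 1 * Real.exp (-c₀) := by
      rw [← Real.exp_add]; ring_nf
    have hexp : ∀ (x : ℝ) (t : ℕ) (y : ℝ), 0 ≤ 1 - x → (t : ℝ) * x ≥ c₀ - 1 → 0 ≤ y →
        y ≤ 1 - x → y ^ t ≤ Real.exp 1 * Real.exp (-c₀) := by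
      intro x t y _ h2 hy0 hy
      rw [← he]
      have h3 : y ≤ Real.exp (-x) := hy.trans (Real.one_sub_le_exp_neg x)
      calc y ^ t ≤ Real.exp (-x) ^ t := pow_le_pow_left₀ hy0 h3 t
        _ = Real.exp (t * (-x)) := (Real.exp_nat_mul _ _).symm
        _ ≤ _ := by
          apply Real.exp_le_exp.mpr
          nlinarith
    have t1 : νc ^ m ≤ Real.exp 1 * Real.exp (-c₀) := by
      refine hexp (1 / 10 ^ 7) m νc (by norm_num) ?_ νc_nonneg (le_of_eq rfl)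
      have hm0 : (0 : ℝ) ≤ m := Nat.cast_nonneg m
      have : r < 32 * 10 ^ 16 * (m + 1) + 1 := by linarith
      rw [hc₀, ge_iff_le, sub_le_iff_le_add, div_le_iff₀ (by norm_num)]
      nlinarith
    have t2 : (6 / 7 : ℝ) ^ K ≤ Real.exp 1 * Real.exp (-c₀) := by
      refine hexp (1 / 7) K (6 / 7) (by norm_num) ?_ (by norm_num) (by norm_num)
      have : (K : ℝ) * (1 / 7) ≥ (r - 1) * (1 / 7) := by nlinarith
      nlinarith
    have t3 : (3 / 4 : ℝ) ^ K ≤ Real.exp 1 * Real.exp (-c₀) := by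
      refine hexp (1 / 4) K (3 / 4) (by norm_num) ?_ (by norm_num) (by norm_num)
      have : (K : ℝ) * (1 / 4) ≥ (r - 1) * (1 / 4) := by nlinarith
      nlinarith
    have he1 : Real.exp 1 < 2.72 := Real.exp_one_lt_d9.trans (by norm_num)
    have hepos : 0 < Real.exp (-c₀) := Real.exp_pos _
    have : 42 * (Real.exp 1 * Real.exp (-c₀)) ≤ 120 * Real.exp (-c₀) := by
      nlinarith
    nlinarith

/-- Entangling depth at most three: the parity correlation decays stretched exponentially. -/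
theorem depth_three_exp {n : ℕ} (C : Circuit N) (hC : C.steps.length ≤ 3)
    (inp : Fin n ↪ Fin N) (q : Fin N) :
    (C.unitary)ᴴ * C.unitary = 1 ∧
      |correlation C inp q| ≤ 120 * Real.exp (-((n : ℝ) ^ ((1 : ℝ) / 3)) / (32 * 10 ^ 23)) := by
  obtain ⟨K, m, h1, h2, h3⟩ := numeric_params n
  obtain ⟨h4, h5⟩ := depth_three_bound C hC inp q K m h1 h2
  exact ⟨h4, h5.trans h3⟩

end Vale.Agent.Lib.P368y
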