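import Vale.Agent.Lib.P368y.Multi5
import Vale.Agent.Lib.P368y.Top2

/-!
The entry of the slice: the exponential bound in the number of inputs.
-/

open scoped BigOperators Matrix Matrix.Norms.L2Operator

namespace Vale.Agent.Lib.P368y

open Vale.Agent.Lib.P368x

variable {N : ℕ}

/-- The rate of the bound for blocks. -/
noncomputable def c₂ : ℝ := κ / (16 * M₁)

lemma c₂_pos : 0 < c₂ := by
  unfold c₂
  have := κ_pos
  have h : (0 : ℝ) < M₁ := by unfold M₁; norm_num
  positivity

lemma c₂_le : c₂ ≤ 1 := by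
  unfold c₂
  have h1 := κ_pos
  have h2 := κ_le
  have h : (1 : ℝ) ≤ M₁ := by unfold M₁; norm_num
  rw [div_le_one (by positivity)]
  nlinarith

lemma one_le_C₀ : 1 ≤ C₀ := by
  unfold C₀
  exact Real.one_le_exp (by norm_num)

/-- Every input of the selection in a gate, at most eleven in each gate. -/
theorem all_light (gs : List (RGate N)) (hgs : gs.Pairwise fun g h => Disjoint g.S h.S)
    (w : Fin N → M2) (hw : ∀ s, Uni (w s)) (ds : List (Finset (Fin N))) (hds : ds.Pairwise Disjoint)
    (X : Fin N → M2) (hX : AllOK X) (I L : Finset (Fin N)) (hL : L ⊆ I)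
    (hsmall : ∀ g ∈ gs, (g.S ∩ L).card ≤ 11) (hall : ∀ i ∈ L, ∃ g ∈ gs, i ∈ g.S) :
    ‖E I ((lop gs * tensor w)ᴴ * TT ds X * (lop gs * tensor w)) (zeroStr N) (zeroStr N)‖
      ≤ C₀ * Real.exp (-(c₂ / 11) * L.card) := by
  classical
  haveI : Nonempty (RGate N) := ⟨⟨∅, fun _ => 1, by simp, fun _ _ => rfl⟩⟩
  choose! t ht1 ht2 using hall
  haveI hsym : Std.Symm (fun g h : RGate N => Disjoint g.S h.S) := ⟨fun _ _ h => h.symm⟩
  obtain ⟨I₁, hI₁, hinj₁, hc₁⟩ := select_section L (fun i => (t i).S) 11 (by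
    intro a ha
    refine (Finset.card_le_card ?_).trans (hsmall (t a) (ht1 a ha))
    intro x hx
    obtain ⟨hx1, hx2⟩ := Finset.mem_filter.mp hx
    refine Finset.mem_inter.mpr ⟨?_, hx1⟩
    have := ht2 x hx1
    rwa [hx2] at this)
  have hone₁ : ∀ i ∈ I₁, ∀ s ∈ (t i).S, s ∈ I₁ → s = i := by
    intro i hi s hs hs2
    have hiI : i ∈ L := hI₁ hi
    have hsI : s ∈ L := hI₁ hs2
    by_contra hne
    have hne' : (t s).S ≠ (t i).S := fun e => hne (hinj₁ hs2 hi e)
    have hne2 : t s ≠ t i := fun e => hne' (by rw [e])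
    have hdj := hgs.forall (ht1 s hsI) (ht1 i hiI) hne2
    exact Finset.disjoint_left.mp hdj (ht2 s hsI) hs
  refine final_reduce gs hgs w hw _ I I₁ (hI₁.trans hL) t (fun i hi => ht1 i (hI₁ hi))
    (fun i hi => ht2 i (hI₁ hi)) hone₁ _ fun B _ => ?_
  refine (core_multi B ds hds X hX).trans ?_
  have hcard : Fintype.card ↥I₁ = I₁.card := Fintype.card_coe I₁
  rw [hcard]
  refine mul_le_mul_of_nonneg_left (Real.exp_le_exp.mpr ?_) C₀_pos.le
  have h1 : (L.card : ℝ) ≤ 11 * I₁.card := by exact_mod_cast hc₁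
  have h2 := c₂_pos
  show -(κ / (16 * M₁)) * I₁.card ≤ _
  change -c₂ * I₁.card ≤ _
  have h3 : (c₂ / 11) * (L.card : ℝ) ≤ (c₂ / 11) * (11 * I₁.card) := by gcongr
  nlinarith

/-- Inserting the singleton gates. -/
theorem light_framed (n : ℕ) :
    ∀ (gs : List (RGate N)) (_ : gs.Pairwise fun g h => Disjoint g.S h.S) (w : Fin N → M2)
      (_ : ∀ s, Uni (w s)) (ds : List (Finset (Fin N))) (_ : ds.Pairwise Disjoint) (X : Fin N → M2)
      (_ : AllOK X) (I L : Finset (Fin N)) (_ : L ⊆ I)
      (_ : ∀ g ∈ gs, (g.S ∩ L).card ≤ 11)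
      (_ : (L.filter fun i => ∀ g ∈ gs, i ∉ g.S).card = n),
      ‖E I ((lop gs * tensor w)ᴴ * TT ds X * (lop gs * tensor w)) (zeroStr N) (zeroStr N)‖
        ≤ C₀ * Real.exp (-(c₂ / 11) * L.card) := by
  classical
  induction n with
  | zero =>
    intro gs hgs w hw ds hds X hX I L hL hsmall hn
    refine all_light gs hgs w hw ds hds X hX I L hL hsmall ?_
    intro i hi
    by_contra hc
    push Not at hc
    have : i ∈ L.filter fun i => ∀ g ∈ gs, i ∉ g.S := Finset.mem_filter.mpr ⟨hi, hc⟩
    rw [Finset.card_eq_zero.mp hn] at this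
    exact Finset.notMem_empty _ this
  | succ n ih =>
    intro gs hgs w hw ds hds X hX I L hL hsmall hn
    have hne : (L.filter fun i => ∀ g ∈ gs, i ∉ g.S).Nonempty := by
      rw [← Finset.card_pos, hn]
      omega
    obtain ⟨i, hi⟩ := hne
    obtain ⟨hi1, hi2⟩ := Finset.mem_filter.mp hi
    have hG := gateless_step gs i hi2 w
    rw [← hG]
    refine ih (g00 i :: gs) ?_ (Function.update w i (r00 * w i)) ?_ ds hds X hX I L hL ?_ ?_
    · rw [List.pairwise_cons]
      refine ⟨fun g hg => ?_, hgs⟩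
      exact Finset.disjoint_singleton_left.mpr (hi2 g hg)
    · intro s
      by_cases hs : s = i
      · subst hs
        simp only [Function.update_self]
        exact r00_uni.mul (hw s)
      · simp only [Function.update_of_ne hs]
        exact hw s
    · intro g hg
      rcases List.mem_cons.mp hg with rfl | hg
      · refine (Finset.card_le_card Finset.inter_subset_left).trans ?_
        show ({i} : Finset (Fin N)).card ≤ 11
        simp
      · exact hsmall g hg
    · have hsub : (L.filter fun j => ∀ g ∈ g00 i :: gs, j ∉ g.S)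
          = (L.filter fun j => ∀ g ∈ gs, j ∉ g.S).erase i := by
        ext j
        simp only [Finset.mem_filter, List.mem_cons, forall_eq_or_imp, Finset.mem_erase]
        constructor
        · rintro ⟨h1, h2, h3⟩
          exact ⟨fun e => h2 (e ▸ Finset.mem_singleton_self _), h1, h3⟩
        · rintro ⟨h1, h2, h3⟩
          exact ⟨h2, fun h => h1 (Finset.mem_singleton.mp h), h3⟩
      rw [hsub, Finset.card_erase_of_mem hi, hn]
      rfl

lemma pow1011_le (k : ℕ) : (10 / 11 : ℝ) ^ k ≤ Real.exp (-(1 / 11) * k) := by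
  have h1 : (10 / 11 : ℝ) ≤ Real.exp (-(1 / 11)) := by
    have := Real.add_one_le_exp (-(1 / 11) : ℝ)
    linarith
  calc (10 / 11 : ℝ) ^ k ≤ Real.exp (-(1 / 11)) ^ k := pow_le_pow_left₀ (by norm_num) h1 k
    _ = _ := by
      rw [← Real.exp_nat_mul]
      ring_nf

/-- The bound for the entry at zero of the slice of a projector after two layers, exponential in
the number of inputs. -/
theorem top_entry_multi (gs₁ gs₂ : List (RGate N))
    (hgs₁ : gs₁.Pairwise fun g h => Disjoint g.S h.S) (hgs₂ : gs₂.Pairwise fun g h => Disjoint g.S h.S)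
    (X : Fin N → M2) (hX : AllOK X) (I : Finset (Fin N)) :
    ‖E I ((lop gs₁)ᴴ * ((lop gs₂)ᴴ * tensor X * lop gs₂) * lop gs₁) (zeroStr N) (zeroStr N)‖
      ≤ C₀ * Real.exp (-(c₂ / 22) * I.card) := by
  classical
  haveI hsym : Std.Symm (fun g h : RGate N => Disjoint g.S h.S) := ⟨fun _ _ h => h.symm⟩
  set P : Fin N → Prop := fun s => ∃ g ∈ gs₁, s ∈ g.S ∧ 12 ≤ (g.S ∩ I).card with hP
  set Ih := I.filter P with hIh
  set Il := I.filter fun s => ¬ P s with hIl
  have hcard : Ih.card + Il.card = I.card := Finset.card_filter_add_card_filter_not _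
  by_cases hcase : I.card ≤ 2 * Ih.card
  · refine entry_reduce I Ih (Finset.filter_subset _ _) _ _ fun w' hw' => ?_
    have hw0 : ∀ s ∈ Ih, w' s = false := by
      intro s hs
      apply mem_SI.mp hw'
      simp [hs]
    have e := E_entry id Function.injective_id Ih
      ((lop gs₁)ᴴ * ((lop gs₂)ᴴ * tensor X * lop gs₂) * lop gs₁) w' hw0
    rw [Finset.image_id] at e
    rw [e]
    refine (abs_entry_le _ _).trans ?_
    have hcond : ∀ g ∈ gs₁, (Ih.filter fun s => s ∈ g.S).card = 0 ∨
        12 ≤ (Ih.filter fun s => s ∈ g.S).card := by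
      intro g hg
      by_cases h12 : 12 ≤ (g.S ∩ I).card
      · right
        refine h12.trans (Finset.card_le_card ?_)
        intro s hs
        obtain ⟨h1, h2⟩ := Finset.mem_inter.mp hs
        exact Finset.mem_filter.mpr ⟨Finset.mem_filter.mpr ⟨h2, g, hg, h1, h12⟩, h1⟩
      · left
        rw [Finset.card_eq_zero, Finset.filter_eq_empty_iff]
        intro s hs hsg
        obtain ⟨_, g', hg', hsg', h12'⟩ := Finset.mem_filter.mp hs
        have : g' = g := by
          by_contra hne
          exact Finset.disjoint_left.mp (hgs₁.forall hg' hg hne) hsg' hsg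
        subst this
        exact h12 h12'
    refine (heavy_multi gs₁ gs₂ hgs₁ hgs₂ X hX Ih hcond).trans ?_
    refine (pow1011_le _).trans ?_
    have h1 : Real.exp (-(1 / 11) * Ih.card) ≤ Real.exp (-(c₂ / 22) * I.card) := by
      apply Real.exp_le_exp.mpr
      have h2 : (I.card : ℝ) ≤ 2 * Ih.card := by exact_mod_cast hcase
      have h3 := c₂_pos
      have h4 := c₂_le
      have h5 : (0 : ℝ) ≤ I.card := Nat.cast_nonneg _
      have h6 : (c₂ / 22) * (I.card : ℝ) ≤ (1 / 22) * (I.card : ℝ) := by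
        gcongr
      nlinarith
    have h2 := one_le_C₀
    have h3 := Real.exp_pos (-(c₂ / 22) * I.card)
    nlinarith
  · have hcase' : I.card ≤ 2 * Il.card := by omega
    obtain ⟨w, hw, hw2⟩ := frame_list gs₂ hgs₂
    have hY' := layer_TT gs₂ w hw hw2 X
    set v : Fin N → M2 := fun s => (w s)ᴴ with hv
    have hvu : ∀ s, Uni (v s) := fun s => uni_adj (hw s)
    set gt := gs₁.map fun g => cjG g v hvu with hgt
    have hthr : tensor w * lop gs₁ = lop gt * tensor w := frame_through gs₁ w hw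
    have hA : (lop gs₁)ᴴ * ((lop gs₂)ᴴ * tensor X * lop gs₂) * lop gs₁
        = (lop gt * tensor w)ᴴ * TT (gs₂.map RGate.S) (Xfr w X) * (lop gt * tensor w) := by
      rw [hY', ← hthr, Matrix.conjTranspose_mul]
      simp only [mul_assoc]
    rw [hA]
    have h1 := light_framed _ gt (cj_pairwise gs₁ hgs₁ v hvu) w hw (gs₂.map RGate.S)
      (map_S_pairwise gs₂ hgs₂) (Xfr w X) (Xfr_ok hw hX) I Il (Finset.filter_subset _ _) (by
        intro g hg
        obtain ⟨g₀, hg₀, rfl⟩ := List.mem_map.mp hg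
        show (g₀.S ∩ Il).card ≤ 11
        by_cases h12 : 12 ≤ (g₀.S ∩ I).card
        · have : g₀.S ∩ Il = ∅ := by
            ext s
            simp only [Finset.mem_inter, Finset.notMem_empty, iff_false, not_and]
            intro hs hsl
            exact (Finset.mem_filter.mp hsl).2 ⟨g₀, hg₀, hs, h12⟩
          rw [this]
          simp
        · have h2 : (g₀.S ∩ Il).card ≤ (g₀.S ∩ I).card :=
            Finset.card_le_card (Finset.inter_subset_inter_left (Finset.filter_subset _ _))
          omega) rfl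
    refine h1.trans (mul_le_mul_of_nonneg_left (Real.exp_le_exp.mpr ?_) C₀_pos.le)
    have h2 : (I.card : ℝ) ≤ 2 * Il.card := by exact_mod_cast hcase'
    have h3 := c₂_pos
    have h6 : (c₂ / 22) * (I.card : ℝ) ≤ (c₂ / 22) * (2 * Il.card) := by gcongr
    nlinarith

end Vale.Agent.Lib.P368y
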