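import Vale.Agent.Lib.P368y.Multi6

/-!
Circuits of entangling depth three: the parity correlation decays exponentially.
-/

open scoped BigOperators Matrix Matrix.Norms.L2Operator

namespace Vale.Agent.Lib.P368y

open Vale.Agent.Lib.P368x

variable {N : ℕ}

/-- The core bound at entangling depth three, in operator form. -/
theorem main_operator3L (V₁ V₂ V₃ V₄ : OneQubitLayer N) (L₁ L₂ L₃ : Layer N) (q : Fin N)
    (I : Finset (Fin N)) :
    ∃ U : Op N, U = V₄.op * L₃.op * (V₃.op * L₂.op * (V₂.op * L₁.op * V₁.op)) ∧ Uᴴ * U = 1 ∧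
      ‖E I (Uᴴ * Zs q * U) (zeroStr N) (zeroStr N)‖
        ≤ 7 * (C₀ * Real.exp (-(c₂ / 22) * I.card)) := by
  set v := V₁.mat with hv
  have hvu : ∀ i, Uni (v i) := V₁.mat_uni
  set a : Fin N → M2 := fun i => V₂.mat i * v i with ha
  have hau : ∀ i, Uni (a i) := fun i => (V₂.mat_uni i).mul (hvu i)
  set b : Fin N → M2 := fun i => V₃.mat i * a i with hb
  have hbu : ∀ i, Uni (b i) := fun i => (V₃.mat_uni i).mul (hau i)
  set c : Fin N → M2 := fun i => V₄.mat i * b i with hc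
  have hcu : ∀ i, Uni (c i) := fun i => (V₄.mat_uni i).mul (hbu i)
  set gs₁ := L₁.gates.map fun g => g.conj v hvu with hgs₁
  set gs₂ := L₂.gates.map fun g => g.conj a hau with hgs₂
  set gs₃ := L₃.gates.map fun g => g.conj b hbu with hgs₃
  have hd₁ : gs₁.Pairwise fun g h => Disjoint g.S h.S := L₁.conj_pairwise v hvu
  have hd₂ : gs₂.Pairwise fun g h => Disjoint g.S h.S := L₂.conj_pairwise a hau
  have hd₃ : gs₃.Pairwise fun g h => Disjoint g.S h.S := L₃.conj_pairwise b hbu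
  have hM₁ : lop gs₁ = (tensor v)ᴴ * L₁.op * tensor v := (L₁.conj_eq v hvu).symm
  have hM₂ : lop gs₂ = (tensor a)ᴴ * L₂.op * tensor a := (L₂.conj_eq a hau).symm
  have hM₃ : lop gs₃ = (tensor b)ᴴ * L₃.op * tensor b := (L₃.conj_eq b hbu).symm
  have hta : tensor a = V₂.op * tensor v := (tensor_mul _ v).symm
  have htb : tensor b = V₃.op * tensor a := (tensor_mul _ a).symm
  have htc : tensor c = V₄.op * tensor b := (tensor_mul _ b).symm
  have hV₁ : V₁.op = tensor v := rfl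
  have hU : V₄.op * L₃.op * (V₃.op * L₂.op * (V₂.op * L₁.op * V₁.op))
      = tensor c * lop gs₃ * lop gs₂ * lop gs₁ := by
    have e1 : tensor a * lop gs₁ = V₂.op * L₁.op * V₁.op := by
      rw [hM₁, hta, hV₁]
      calc V₂.op * tensor v * ((tensor v)ᴴ * L₁.op * tensor v)
          = V₂.op * (tensor v * (tensor v)ᴴ) * L₁.op * tensor v := by simp only [mul_assoc]
        _ = _ := by rw [tensor_unitary' hvu, mul_one]
    have e2 : tensor b * lop gs₂ = V₃.op * L₂.op * tensor a := by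
      rw [hM₂, htb]
      calc V₃.op * tensor a * ((tensor a)ᴴ * L₂.op * tensor a)
          = V₃.op * (tensor a * (tensor a)ᴴ) * L₂.op * tensor a := by simp only [mul_assoc]
        _ = _ := by rw [tensor_unitary' hau, mul_one]
    have e3 : tensor c * lop gs₃ = V₄.op * L₃.op * tensor b := by
      rw [hM₃, htc]
      calc V₄.op * tensor b * ((tensor b)ᴴ * L₃.op * tensor b)
          = V₄.op * (tensor b * (tensor b)ᴴ) * L₃.op * tensor b := by simp only [mul_assoc]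
        _ = _ := by rw [tensor_unitary' hbu, mul_one]
    rw [e3, mul_assoc (V₄.op * L₃.op), e2, mul_assoc (V₄.op * L₃.op), mul_assoc (V₃.op * L₂.op), e1]
  set M₁ := lop gs₁ with hM₁'
  set M₂ := lop gs₂ with hM₂'
  set M₃ := lop gs₃ with hM₃'
  have hM₁u : M₁ᴴ * M₁ = 1 := lop_unitary gs₁
  have hM₂u : M₂ᴴ * M₂ = 1 := lop_unitary gs₂
  have hM₃u : M₃ᴴ * M₃ = 1 := lop_unitary gs₃
  refine ⟨_, rfl, ?_, ?_⟩
  · rw [hU, Matrix.conjTranspose_mul, Matrix.conjTranspose_mul, Matrix.conjTranspose_mul]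
    calc M₁ᴴ * (M₂ᴴ * (M₃ᴴ * (tensor c)ᴴ)) * (tensor c * M₃ * M₂ * M₁)
        = M₁ᴴ * (M₂ᴴ * (M₃ᴴ * ((tensor c)ᴴ * tensor c) * M₃) * M₂) * M₁ := by simp only [mul_assoc]
      _ = 1 := by rw [tensor_unitary hcu, mul_one, hM₃u, mul_one, hM₂u, mul_one, hM₁u]
  · set p : M2 := (c q)ᴴ * e00 * c q with hp
    have hpP : Proj1 p := proj1_e00.conj (hcu q)
    set Bd : ℝ := C₀ * Real.exp (-(c₂ / 22) * I.card) with hBd
    have hBd0 : 0 ≤ Bd := mul_nonneg C₀_pos.le (Real.exp_pos _).le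
    have key : ∀ X : Fin N → M2, AllOK X →
        ‖E I (M₁ᴴ * (M₂ᴴ * tensor X * M₂) * M₁) (zeroStr N) (zeroStr N)‖ ≤ Bd :=
      fun X hX => top_entry_multi gs₁ gs₂ hd₁ hd₂ X hX I
    have hO : (V₄.op * L₃.op * (V₃.op * L₂.op * (V₂.op * L₁.op * V₁.op)))ᴴ * Zs q
          * (V₄.op * L₃.op * (V₃.op * L₂.op * (V₂.op * L₁.op * V₁.op)))
        = (2 : ℂ) • (M₁ᴴ * (M₂ᴴ * (M₃ᴴ * site q p * M₃) * M₂) * M₁) - 1 := by
      rw [hU, Matrix.conjTranspose_mul, Matrix.conjTranspose_mul, Matrix.conjTranspose_mul]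
      calc M₁ᴴ * (M₂ᴴ * (M₃ᴴ * (tensor c)ᴴ)) * Zs q * (tensor c * M₃ * M₂ * M₁)
          = M₁ᴴ * (M₂ᴴ * (M₃ᴴ * ((tensor c)ᴴ * Zs q * tensor c) * M₃) * M₂) * M₁ := by
            simp only [mul_assoc]
        _ = M₁ᴴ * (M₂ᴴ * (M₃ᴴ * ((2 : ℂ) • site q p - 1) * M₃) * M₂) * M₁ := by rw [conj_Zs c hcu q]
        _ = (2 : ℂ) • (M₁ᴴ * (M₂ᴴ * (M₃ᴴ * site q p * M₃) * M₂) * M₁)
              - M₁ᴴ * (M₂ᴴ * (M₃ᴴ * M₃) * M₂) * M₁ := by
            simp only [mul_sub, sub_mul, mul_smul_comm, smul_mul_assoc, mul_one]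
        _ = _ := by rw [hM₃u, mul_one, hM₂u, mul_one, hM₁u]
    rw [hO, map_sub, map_smul]
    simp only [Matrix.sub_apply, Matrix.smul_apply, smul_eq_mul]
    have kone : ‖E I (1 : Op N) (zeroStr N) (zeroStr N)‖ ≤ Bd := by
      have := key (fun _ => 1) (fun _ => Or.inl rfl)
      rwa [tensor_one, mul_one, hM₂u, mul_one, hM₁u] at this
    have ksite : ‖E I (M₁ᴴ * (M₂ᴴ * site q p * M₂) * M₁) (zeroStr N) (zeroStr N)‖ ≤ Bd := by
      apply key
      intro s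
      by_cases hs : s = q
      · subst hs; simp only [Function.update_self]; exact Or.inr hpP
      · simp only [Function.update_of_ne hs]; exact Or.inl rfl
    have n2 : ‖(2 : ℂ)‖ = 2 := by norm_num
    have bound : ‖E I (M₁ᴴ * (M₂ᴴ * (M₃ᴴ * site q p * M₃) * M₂) * M₁) (zeroStr N) (zeroStr N)‖ ≤ 3 * Bd := by
      rcases layer_conj_site gs₃ hd₃ q p hpP with h | ⟨X₁, X₂, hX₁, hX₂, h⟩
      · rw [h]
        linarith
      · rw [h]
        have e : M₁ᴴ * (M₂ᴴ * (site q p + tensor X₁ - tensor X₂) * M₂) * M₁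
            = M₁ᴴ * (M₂ᴴ * site q p * M₂) * M₁ + M₁ᴴ * (M₂ᴴ * tensor X₁ * M₂) * M₁
              - M₁ᴴ * (M₂ᴴ * tensor X₂ * M₂) * M₁ := by
          simp only [mul_sub, mul_add, sub_mul, add_mul]
        rw [e, map_sub, map_add]
        simp only [Matrix.sub_apply, Matrix.add_apply]
        have a1 := key X₁ hX₁
        have a2 := key X₂ hX₂
        have a3 := norm_sub_le (E I (M₁ᴴ * (M₂ᴴ * site q p * M₂) * M₁) (zeroStr N) (zeroStr N)
          + E I (M₁ᴴ * (M₂ᴴ * tensor X₁ * M₂) * M₁) (zeroStr N) (zeroStr N))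
          (E I (M₁ᴴ * (M₂ᴴ * tensor X₂ * M₂) * M₁) (zeroStr N) (zeroStr N))
        have a4 := norm_add_le (E I (M₁ᴴ * (M₂ᴴ * site q p * M₂) * M₁) (zeroStr N) (zeroStr N))
          (E I (M₁ᴴ * (M₂ᴴ * tensor X₁ * M₂) * M₁) (zeroStr N) (zeroStr N))
        linarith
    refine (norm_sub_le _ _).trans ?_
    rw [norm_mul, n2]
    linarith


lemma rate_final : (1 : ℝ) / 10 ^ 90 ≤ c₂ / 22 := by
  have h : (M₁ : ℝ) = 10 ^ 60 := by
    unfold M₁
    norm_num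
  have h2 : κ = 1 / (10 ^ 7 * (2 * (1.6 * 10 ^ 17) * 220)) := by
    unfold κ M₀ a₃
    norm_num
  unfold c₂
  rw [h, h2]
  norm_num

/-- Entangling depth at most three: the parity correlation decays exponentially in `n`. -/
theorem depth_three_linear {n : ℕ} (C : Circuit N) (hC : C.steps.length ≤ 3)
    (inp : Fin n ↪ Fin N) (q : Fin N) :
    (C.unitary)ᴴ * C.unitary = 1 ∧ |correlation C inp q| ≤ 14 * Real.exp (-(n : ℝ) / 10 ^ 90) := by
  obtain ⟨V₁, V₂, V₃, V₄, L₁, L₂, L₃, hU⟩ := circuit_normal3 C hC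
  obtain ⟨U, hU', hu, hb⟩ := main_operator3L V₁ V₂ V₃ V₄ L₁ L₂ L₃ q (Finset.univ.map inp)
  rw [← hU] at hU'
  subst hU'
  refine ⟨hu, ?_⟩
  have h := correlation_eq C inp q
  rw [← h, Complex.norm_real, Real.norm_eq_abs] at hb
  refine hb.trans ?_
  have hcard : ((Finset.univ.map inp).card : ℝ) = n := by simp
  rw [hcard]
  have h1 : Real.exp (-(c₂ / 22) * n) ≤ Real.exp (-(n : ℝ) / 10 ^ 90) := by
    apply Real.exp_le_exp.mpr
    have h2 := rate_final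
    have h3 : (0 : ℝ) ≤ n := Nat.cast_nonneg n
    have h4 : (1 : ℝ) / 10 ^ 90 * n ≤ c₂ / 22 * n := by gcongr
    have h5 : -(n : ℝ) / 10 ^ 90 = -((1 : ℝ) / 10 ^ 90 * n) := by ring
    rw [h5]
    nlinarith
  have h2 := C₀_le
  have h3 := C₀_pos
  have h4 := Real.exp_pos (-(c₂ / 22) * n)
  have h5 := Real.exp_pos (-(n : ℝ) / 10 ^ 90)
  calc 7 * (C₀ * Real.exp (-(c₂ / 22) * n)) ≤ 7 * (2 * Real.exp (-(n : ℝ) / 10 ^ 90)) := by
        gcongr
    _ = _ := by ring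

end Vale.Agent.Lib.P368y
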