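import Vale.Agent.Lib.P368y.Extract

/-!
Blocks whose reflected state at the input equals one of the two input states.
-/

open scoped BigOperators Matrix Matrix.Norms.L2Operator

namespace Vale.Agent.Lib.P368y

open Vale.Agent.Lib.P368x

variable {N : ℕ} {ι : Type*} [DecidableEq ι]

lemma Kt_erase {W : Finset (Fin N)} {i : Fin N} (hi : i ∈ W) (v : Fin N → Bool → ℂ) :
    Kt W v = site i (ket (v i)) * Kt (W.erase i) v := by
  have e : W = {i} ∪ W.erase i := by
    ext s
    simp only [Finset.mem_union, Finset.mem_singleton, Finset.mem_erase]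
    constructor
    · intro h
      by_cases hs : s = i
      · exact Or.inl hs
      · exact Or.inr ⟨hs, h⟩
    · rintro (rfl | ⟨_, h⟩)
      · exact hi
      · exact h
  conv_lhs => rw [e]
  rw [Kt_union _ _ (by simp), Kt_singleton]

namespace BData

variable (B : BData ι N)

/-- The garbage data of a family of blocks. -/
noncomputable def gar : GarData ι N where
  U := fun k => (B.W k).erase (B.i k)
  e := B.e
  ψ := B.ψ
  disj := fun j k h => Finset.disjoint_of_subset_left (Finset.erase_subset _ _)
    (Finset.disjoint_of_subset_right (Finset.erase_subset _ _) (B.disj j k h))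
  he := B.he
  hψ := B.hψ

lemma gar_c (k : ι) : B.gar.c k = B.c k := rfl

lemma gar_U (k : ι) : B.gar.U k = (B.W k).erase (B.i k) := rfl

lemma i_notMem_gar (k j : ι) : B.i k ∉ B.gar.U j := by
  intro h
  by_cases hjk : j = k
  · subst hjk
    exact Finset.notMem_erase _ _ h
  · exact Finset.disjoint_left.mp (B.disj k j (Ne.symm hjk)) (B.hi k) (Finset.mem_of_mem_erase h)

lemma gar_sub (k : ι) : B.gar.U k ⊆ B.W k := Finset.erase_subset _ _

variable {B} {bs : ι → Bool} (hn : ∀ k, B.ψ k (B.i k) = B.α k (bs k))

include hn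

lemma f_near (k : ι) (b : Bool) : B.f k b = if bs k = b then 1 else 0 := by
  rw [f, hn k]
  exact (B.hα k).cols _ _

/-- The two forms of the pair of a block with exact input. -/
lemma K_near (k : ι) (b : Bool) :
    B.K k b = site (B.i k) (ket (B.α k b)) * B.gar.K k (xor b (bs k)) := by
  have h1 : Kt (B.W k) (B.eb k b) = site (B.i k) (ket (B.α k b)) * Kt (B.gar.U k) (B.e k) := by
    rw [Kt_erase (B.hi k), gar_U]
    have e1 : B.eb k b (B.i k) = B.α k b := by simp [eb]
    rw [e1]
    congr 1
    apply Kt_congr
    intro s hs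
    rw [eb, Function.update_of_ne (Finset.ne_of_mem_erase hs)]
  have h2 : Kt (B.W k) (B.ψ k) = site (B.i k) (ket (B.α k (bs k))) * Kt (B.gar.U k) (B.ψ k) := by
    rw [Kt_erase (B.hi k), hn k]
    rfl
  rw [K, h1, h2, z, f_near hn]
  by_cases hb : bs k = b
  · subst hb
    simp only [if_true, Bool.xor_self]
    rw [GarData.K_false, mul_sub, mul_smul_comm, gar_c]
    congr 2
    ring
  · have : xor b (bs k) = true := by
      cases h : b <;> cases h' : bs k <;> simp_all
    rw [if_neg hb, this, GarData.K_true]
    simp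
    rfl

omit hn in
lemma site_ket_adj_mul (i : Fin N) {a : Bool → ℂ} (ha : nsq a = 1) :
    (site i (ket a))ᴴ * site i (ket a) = site i e00 := by
  rw [site_conjTranspose, ← site_mul, ket_adj_mul, ip_self_unit ha, one_smul]

omit hn in
lemma sand_off (i : Fin N) {a : Bool → ℂ} (ha : nsq a = 1) {Y : Op N}
    (hY : Commute Y (site i (ket a))ᴴ) :
    (site i (ket a))ᴴ * Y * site i (ket a) = Y * site i e00 := by
  rw [← hY.eq, mul_assoc, site_ket_adj_mul i ha]

/-- The signed map of a block with exact input on operators off the input. -/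
lemma Eb_near (k : ι) {Y : Op N} (hY : ∀ a, Commute Y (site (B.i k) (ket a))ᴴ) :
    Eb (B.K k) Y = (if bs k then (-1 : ℂ) else 1) • (Eb (B.gar.K k) Y * site (B.i k) e00) := by
  have hc : ∀ b, Commute (site (B.i k) e00) (B.gar.K k b) := fun b =>
    SA_commute (S := {B.i k}) (T := B.gar.U k)
      (Finset.disjoint_singleton_left.mpr (B.i_notMem_gar k k))
      (site_mem_SA (Finset.mem_singleton_self _) _) (B.gar.K_mem k b)
  have one : ∀ b c, xor b (bs k) = c → (B.K k b)ᴴ * Y * B.K k b
      = (B.gar.K k c)ᴴ * Y * B.gar.K k c * site (B.i k) e00 := by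
    intro b c hbc
    rw [K_near hn, ← hbc, Matrix.conjTranspose_mul]
    calc (B.gar.K k (xor b (bs k)))ᴴ * (site (B.i k) (ket (B.α k b)))ᴴ * Y
          * (site (B.i k) (ket (B.α k b)) * B.gar.K k (xor b (bs k)))
        = (B.gar.K k (xor b (bs k)))ᴴ * ((site (B.i k) (ket (B.α k b)))ᴴ * Y
          * site (B.i k) (ket (B.α k b))) * B.gar.K k (xor b (bs k)) := by simp only [mul_assoc]
      _ = (B.gar.K k (xor b (bs k)))ᴴ * (Y * site (B.i k) e00) * B.gar.K k (xor b (bs k)) := by
          rw [sand_off _ ((B.hα k).unit b) (hY _)]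
      _ = _ := by
          rw [mul_assoc, mul_assoc, (hc _).eq]
          simp only [mul_assoc]
  rw [Eb_apply, Eb_apply]
  cases h : bs k
  · rw [one false false (by simp [h]), one true true (by simp [h])]
    simp only [if_false, Bool.false_eq_true, one_smul, smul_mul_assoc, sub_mul]
  · rw [one false true (by simp [h]), one true false (by simp [h])]
    simp only [if_true, smul_mul_assoc, sub_mul, smul_sub, smul_smul, neg_smul, one_smul]
    module

end BData

end Vale.Agent.Lib.P368y
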