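import Vale.Agent.Lib.P368y.Near1

/-!
The bound for blocks with exact input: untested inputs with a nearly trivial gate.
-/

open scoped BigOperators Matrix Matrix.Norms.L2Operator

namespace Vale.Agent.Lib.P368y

open Vale.Agent.Lib.P368x

variable {N : ℕ} {ι : Type*} [DecidableEq ι]

lemma Pe_singleton (i : Fin N) : Pe {i} = site i e11 := by
  rw [Pe, site]
  congr 1
  funext s
  by_cases hs : s = i
  · subst hs; simp
  · simp [hs]

/-- The difference operator of a gate. -/
noncomputable def Lg (A : Finset (Fin N)) (X : Fin N → M2) : Op N :=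
  Dg A * tensor (XOn A X) * Dg A - tensor (XOn A X)

lemma Lg_mem (A : Finset (Fin N)) (X : Fin N → M2) : Lg A X ∈ SA A :=
  sub_mem (mul_mem (mul_mem (Dg_mem_SA _) (tensor_XOn_mem _ _)) (Dg_mem_SA _)) (tensor_XOn_mem _ _)

lemma erase_union_singleton {S : Finset (Fin N)} {i : Fin N} (hi : i ∈ S) : {i} ∪ S.erase i = S := by
  ext s
  simp only [Finset.mem_union, Finset.mem_singleton, Finset.mem_erase]
  constructor
  · rintro (rfl | ⟨_, h⟩)
    · exact hi
    · exact h
  · intro h
    by_cases hs : s = i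
    · exact Or.inl hs
    · exact Or.inr ⟨hs, h⟩

lemma Qg_near {S : Finset (Fin N)} {i : Fin N} (hi : i ∈ S) (X : Fin N → M2) (h1 : X i = 1) :
    Qg S X = tensor (XOn (S.erase i) X) + site i e11 * Lg (S.erase i) X := by
  have := Qg_split {i} (S.erase i) (by simp) X (by
    intro s hs
    rw [Finset.mem_singleton.mp hs, h1])
  rwa [erase_union_singleton hi, Pe_singleton] at this

section T3

variable {B : BData ι N} {bs : ι → Bool} (hn : ∀ k, B.ψ k (B.i k) = B.α k (bs k))
  (S : ι → Finset (Fin N)) (hS : ∀ j k, j ≠ k → Disjoint (S j) (S k))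
  (hi : ∀ k, B.i k ∈ S k) (hSU : ∀ j k, Disjoint (S k) (B.gar.U j))
  (hSi : ∀ j k, j ≠ k → B.i j ∉ S k) (X₀ : Fin N → M2) (hX₀ : AllOK X₀)

include hn hi hSU hSi

/-- Mode induction for the untested inputs. -/
theorem T3 (J₁ : Finset ι) : ∀ (J₂ : Finset ι) (_ : Disjoint J₁ J₂) (gs : List (Finset (Fin N)))
    (_ : gs.Pairwise Disjoint) (_ : ∀ g ∈ gs, ∀ k ∈ J₁, Disjoint g (S k)) (X : Fin N → M2)
    (_ : AllOK X) (_ : ∀ k ∈ J₁, ∀ s ∈ S k, X s = 1) (_ : ∀ k ∈ J₁ ∪ J₂, ∀ s ∈ B.gar.U k, X s = 1)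
    (_ : ∀ k ∈ J₁, X₀ (B.i k) = 1),
    ‖B.gar.fam.EJ J₂ (B.fam.EJ J₁ ((gateQ S hS X₀ hX₀).QP J₁ * TT gs X))‖
      ≤ (4 / 5 : ℝ) ^ J₂.card * ∏ k ∈ J₁, ((4 / 5) + (1 / 2) * ‖Lg ((S k).erase (B.i k)) X₀‖) := by
  induction J₁ using Finset.induction_on with
  | empty =>
    intro J₂ _ gs hgs _ X hX _ h1 _
    simp only [Fam.EJ_empty, Module.End.one_apply, QFam.QP_empty, one_mul, Finset.prod_empty, mul_one]
    refine B.gar.column J₂ gs hgs X hX ?_
    intro s hs
    obtain ⟨k, hk, hsk⟩ := Finset.mem_biUnion.mp hs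
    exact h1 k (by simpa using hk) s hsk
  | insert k J hk ih =>
    intro J₂ hd gs hgs hgk X hX hXS hXU hX₀i
    have hkm : k ∈ insert k J := Finset.mem_insert_self _ _
    have hJm : ∀ {j}, j ∈ J → j ∈ insert k J := fun h => Finset.mem_insert_of_mem h
    have hne : ∀ {j}, j ∈ J → j ≠ k := fun {j} h e => hk (e ▸ h)
    have hk₂ : k ∉ J₂ := fun h => Finset.disjoint_left.mp hd hkm h
    have hne₂ : ∀ {j}, j ∈ J₂ → j ≠ k := fun {j} h e => hk₂ (e ▸ h)
    have hdJ : Disjoint J J₂ := Finset.disjoint_of_subset_left (Finset.subset_insert _ _) hd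
    set i := B.i k with hidef
    set S' := (S k).erase i with hS'
    set X₁ : Fin N → M2 := fun s => if s ∈ S' then X₀ s else X s with hX₁
    set U' := tensor (XOn S' X₀) with hU'
    set L := Lg S' X₀ with hL
    set D := gateQ S hS X₀ hX₀ with hD
    set T := TT gs X with hT
    set Y := D.QP J * T with hY
    have hS'sub : S' ⊆ S k := Finset.erase_subset _ _
    have hik : i ∈ S k := hi k
    have hiS' : i ∉ S' := Finset.notMem_erase _ _
    set F := B.fam with hF
    set G := B.gar.fam with hG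
    -- disjointness facts
    have dWW : ∀ j ∈ J, Disjoint (B.W k) (F.W j) := fun j hj => B.disj k j (hne hj).symm
    have dW₂ : ∀ j ∈ J₂, Disjoint (B.W k) (G.W j) := fun j hj =>
      Finset.disjoint_of_subset_right (B.gar_sub j) (B.disj k j (hne₂ hj).symm)
    have dUW : ∀ j ∈ J, Disjoint (B.gar.U k) (F.W j) := fun j hj =>
      Finset.disjoint_of_subset_left (B.gar_sub k) (dWW j hj)
    have diW : ∀ j ∈ J, Disjoint {i} (F.W j) := fun j hj =>
      Finset.disjoint_singleton_left.mpr fun h =>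
        Finset.disjoint_left.mp (dWW j hj) (B.hi k) h
    have diU : ∀ j ∈ J₂, Disjoint {i} (G.W j) := fun j _ =>
      Finset.disjoint_singleton_left.mpr (B.i_notMem_gar k j)
    have dSW : ∀ j l, j ≠ l → Disjoint (S l) (B.W j) := by
      intro j l hjl
      rw [Finset.disjoint_left]
      intro s hs hs'
      by_cases hsi : s = B.i j
      · exact hSi j l hjl (hsi ▸ hs)
      · exact Finset.disjoint_left.mp (hSU j l) hs (Finset.mem_erase.mpr ⟨hsi, hs'⟩)
    have dS'W : ∀ j ∈ J, Disjoint S' (F.W j) := fun j hj =>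
      Finset.disjoint_of_subset_left hS'sub (dSW j k (hne hj))
    have dS'U : ∀ j ∈ J₂, Disjoint S' (G.W j) := fun j _ =>
      Finset.disjoint_of_subset_left hS'sub (hSU j k)
    -- the operators off the other blocks
    have hLmem : L ∈ SA S' := Lg_mem _ _
    have hsmem : ∀ A : M2, site i A ∈ SA {i} := fun A => site_mem_SA (Finset.mem_singleton_self _) _
    have hQP_i : ∀ A ∈ SA {i}, Commute (D.QP J) A := fun A hA =>
      D.QP_commute (fun j hj => Finset.disjoint_singleton_right.mpr (hSi k j (hne hj).symm)) hA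
    have hQP_S' : ∀ A ∈ SA S', Commute (D.QP J) A := fun A hA =>
      D.QP_commute (fun j hj => Finset.disjoint_of_subset_right hS'sub (hS j k (hne hj))) hA
    have hgi : ∀ g ∈ gs, g ⊆ Finset.univ \ {i} := by
      intro g hg s hs
      simp only [Finset.mem_sdiff, Finset.mem_univ, true_and, Finset.mem_singleton]
      rintro rfl
      exact Finset.disjoint_left.mp (hgk g hg k hkm) hs hik
    have hTmem : ∀ Z : Fin N → M2, Z i = 1 → TT gs Z ∈ SA (Finset.univ \ {i}) := by
      intro Z hZ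
      apply TT_mem_SA hgi
      intro s hs
      have : s = i := by simpa using hs
      rw [this, hZ]
    have hTi : ∀ (Z : Fin N → M2), Z i = 1 → ∀ A ∈ SA {i}, Commute (TT gs Z) A := fun Z hZ A hA =>
      SA_commute Finset.sdiff_disjoint (hTmem Z hZ) hA
    have hXi : X i = 1 := hXS k hkm i hik
    have hX₁i : X₁ i = 1 := by simp [hX₁, hiS', hXi]
    have hX₁ok : AllOK X₁ := by
      intro s
      by_cases hs : s ∈ S'
      · simpa [hX₁, hs] using hX₀ s
      · simpa [hX₁, hs] using hX s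
    -- the decomposition
    have hUT : U' * T = TT gs X₁ := by
      have c : Commute U' (Dl gs) := by
        refine SA_commute (S := S') (T := Finset.univ \ S') Finset.disjoint_sdiff (tensor_XOn_mem _ _) ?_
        apply Dl_mem_SA
        intro g hg s hs
        simp only [Finset.mem_sdiff, Finset.mem_univ, true_and]
        exact fun h => Finset.disjoint_left.mp (hgk g hg k hkm) hs (hS'sub h)
      have e : U' * tensor X = tensor X₁ := by
        rw [hU', tensor_mul]
        congr 1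
        funext s
        by_cases hs : s ∈ S'
        · simp [XOn, hX₁, hs, hXS k hkm s (hS'sub hs)]
        · simp [XOn, hX₁, hs]
      rw [hT, TT, TT, ← e]
      calc U' * (Dl gs * tensor X * Dl gs) = (U' * Dl gs) * tensor X * Dl gs := by
            simp only [mul_assoc]
        _ = (Dl gs * U') * tensor X * Dl gs := by rw [c.eq]
        _ = _ := by simp only [mul_assoc]
    have hdec : D.QP (insert k J) * T = D.QP J * TT gs X₁ + site i e11 * (L * Y) := by
      rw [QFam.QP_insert _ hk]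
      have e0 : D.Q k = U' + site i e11 * L := Qg_near hik X₀ (hX₀i k hkm)
      have c0 : Commute U' (D.QP J) := (hQP_S' _ (tensor_XOn_mem _ _)).symm
      rw [e0, add_mul, add_mul, c0.eq, mul_assoc, hUT]
      congr 1
      rw [hY]
      simp only [mul_assoc]
    -- part one
    have hZ₁off : ∀ a, Commute (D.QP J * TT gs X₁) (site i (ket a))ᴴ := by
      intro a
      have hm : (site i (ket a))ᴴ ∈ SA {i} := SA_adj (hsmem _)
      exact (hQP_i _ hm).mul_left (hTi X₁ hX₁i _ hm)
    have c1 : ∀ Z, F.EJ J (Eb (B.gar.K k) Z) = Eb (B.gar.K k) (F.EJ J Z) := fun Z =>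
      (LinearMap.congr_fun (F.Eb_EJ_commute (B.gar.K_mem k) J dUW).eq Z).symm
    have hoffF : F.Off J (site i e00) := F.off_of_SA diW (hsmem _)
    have hoffG : G.Off J₂ (site i e00) := G.off_of_SA diU (hsmem _)
    have hpart1 : ‖G.EJ J₂ (F.EJ J (Eb (B.K k) (D.QP J * TT gs X₁)))‖
        ≤ (4 / 5 : ℝ) ^ (J₂.card + 1) * ∏ j ∈ J, ((4 / 5) + (1 / 2) * ‖Lg ((S j).erase (B.i j)) X₀‖) := by
      have hIH := ih (insert k J₂)
        (by
          rw [Finset.disjoint_insert_right]
          exact ⟨hk, hdJ⟩) gs hgs (fun g hg j hj => hgk g hg j (hJm hj)) X₁ hX₁ok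
        (fun j hj s hs => by
          have : s ∉ S' := fun h => Finset.disjoint_left.mp (hS j k (hne hj)) hs (hS'sub h)
          simp [hX₁, this, hXS j (hJm hj) s hs])
        (fun j hj s hs => by
          have : s ∉ S' := fun h => Finset.disjoint_left.mp (hSU j k) (hS'sub h) hs
          simp only [hX₁, this, if_false]
          refine hXU j ?_ s hs
          simp only [Finset.mem_union, Finset.mem_insert] at hj ⊢
          tauto)
        (fun j hj => hX₀i j (hJm hj))
      rw [Finset.card_insert_of_notMem hk₂] at hIH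
      rw [BData.Eb_near hn k hZ₁off, map_smul, map_smul, Fam.EJ_mul_right _ hoffF, c1,
        Fam.EJ_mul_right _ hoffG, norm_smul]
      have hcn : ‖(if bs k then (-1 : ℂ) else 1)‖ = 1 := by
        split_ifs <;> simp
      rw [hcn, one_mul]
      have e2 : G.EJ J₂ (Eb (B.gar.K k) (F.EJ J (D.QP J * TT gs X₁)))
          = G.EJ (insert k J₂) (F.EJ J (D.QP J * TT gs X₁)) :=
        (Fam.EJ_insert_apply' G hk₂ _).symm
      rw [e2]
      refine (mul_norm_aux' (by
        exact proj1_e00.norm_le.trans' (norm_site_le _ _))).trans hIH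
    -- part two
    have hbase : ‖G.EJ J₂ (F.EJ J Y)‖
        ≤ (4 / 5 : ℝ) ^ J₂.card * ∏ j ∈ J, ((4 / 5) + (1 / 2) * ‖Lg ((S j).erase (B.i j)) X₀‖) :=
      ih J₂ hdJ gs hgs (fun g hg j hj => hgk g hg j (hJm hj)) X hX
        (fun j hj s hs => hXS j (hJm hj) s hs)
        (fun j hj s hs => hXU j (by
          simp only [Finset.mem_union, Finset.mem_insert] at hj ⊢
          tauto) s hs)
        (fun j hj => hX₀i j (hJm hj))
    have hpart2 : ‖G.EJ J₂ (F.EJ J (Eb (B.K k) (site i e11 * (L * Y))))‖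
        ≤ (1 / 2) * ‖L‖ * ‖G.EJ J₂ (F.EJ J Y)‖ := by
      have c3 : ∀ Z, F.EJ J (Eb (B.K k) Z) = Eb (B.K k) (F.EJ J Z) := fun Z =>
        (LinearMap.congr_fun (F.Eb_EJ_commute (F.mem k) J dWW).eq Z).symm
      have c4 : ∀ Z, G.EJ J₂ (Eb (B.K k) Z) = Eb (B.K k) (G.EJ J₂ Z) := fun Z =>
        (LinearMap.congr_fun (G.Eb_EJ_commute (F.mem k) J₂ dW₂).eq Z).symm
      have o1 : F.Off J (site i e11) := F.off_of_SA diW (hsmem _)
      have o2 : F.Off J L := F.off_of_SA dS'W hLmem
      have o3 : G.Off J₂ (site i e11) := G.off_of_SA diU (hsmem _)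
      have o4 : G.Off J₂ L := G.off_of_SA dS'U hLmem
      rw [c3, c4, Fam.EJ_mul_left _ o1, Fam.EJ_mul_left _ o2, Fam.EJ_mul_left _ o3,
        Fam.EJ_mul_left _ o4]
      have hcm : Commute (site i e11) (L * G.EJ J₂ (F.EJ J Y)) := by
        refine Commute.mul_right ?_ ?_
        · exact SA_commute (Finset.disjoint_singleton_left.mpr hiS') (hsmem _) hLmem
        · refine Fam.EJ_commute_op _ o3 (Fam.EJ_commute_op _ o1 ?_)
          exact ((hQP_i _ (hsmem _)).mul_left (hTi X hXi _ (hsmem _))).symm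
      refine (B.Eb_marginal k proj1_e11 hcm).trans ?_
      have := norm_mul_le L (G.EJ J₂ (F.EJ J Y))
      nlinarith
    have e3 : Eb (F.K k) = Eb (B.K k) := rfl
    rw [hdec, Fam.EJ_insert_apply' F hk, e3, map_add, map_add, map_add, Finset.prod_insert hk]
    have := norm_add_le (G.EJ J₂ (F.EJ J (Eb (B.K k) (D.QP J * TT gs X₁))))
      (G.EJ J₂ (F.EJ J (Eb (B.K k) (site i e11 * (L * Y)))))
    set P := ∏ j ∈ J, ((4 / 5) + (1 / 2) * ‖Lg ((S j).erase (B.i j)) X₀‖) with hP
    have h5 : (1 / 2) * ‖L‖ * ‖G.EJ J₂ (F.EJ J Y)‖ ≤ (1 / 2) * ‖L‖ * ((4 / 5 : ℝ) ^ J₂.card * P) :=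
      mul_le_mul_of_nonneg_left hbase (by positivity)
    have e4 : (4 / 5 : ℝ) ^ J₂.card * ((4 / 5 + 1 / 2 * ‖L‖) * P)
        = (4 / 5 : ℝ) ^ (J₂.card + 1) * P + (1 / 2) * ‖L‖ * ((4 / 5 : ℝ) ^ J₂.card * P) := by
      rw [pow_succ]; ring
    rw [e4]
    linarith

end T3

end Vale.Agent.Lib.P368y
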