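import Vale.Agent.Lib.P368y.Near2

/-!
The unsigned map of a block with exact input on the projector of its gate.
-/

open scoped BigOperators Matrix Matrix.Norms.L2Operator

namespace Vale.Agent.Lib.P368y

open Vale.Agent.Lib.P368x

variable {N : ℕ} {ι : Type*} [DecidableEq ι]

lemma four_terms {R : Type*} [Ring R] (A B T r U : R) (h1 : Commute r A) (h2 : Commute r B)
    (h3 : Commute r T) (h4 : Commute U A) (h5 : Commute U B) :
    (A + B * r) * (T * U) * (A + B * r)
      = (A * T * A) * U + (A * T * B) * (U * r) + (B * T * A) * (r * U) + (B * T * B) * (r * U * r) := by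
  have e1 : A * (T * U) * A = A * T * A * U := by
    rw [mul_assoc A, mul_assoc T, h4.eq]; simp only [mul_assoc]
  have e2 : A * (T * U) * (B * r) = A * T * B * (U * r) := by
    calc A * (T * U) * (B * r) = A * T * (U * B) * r := by simp only [mul_assoc]
      _ = A * T * (B * U) * r := by rw [h5.eq]
      _ = _ := by simp only [mul_assoc]
  have e3 : B * r * (T * U) * A = B * T * A * (r * U) := by
    calc B * r * (T * U) * A = B * (r * T) * (U * A) := by simp only [mul_assoc]
      _ = B * (T * r) * (A * U) := by rw [h3.eq, h4.eq]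
      _ = B * T * (r * A) * U := by simp only [mul_assoc]
      _ = B * T * (A * r) * U := by rw [h1.eq]
      _ = _ := by simp only [mul_assoc]
  have e4 : B * r * (T * U) * (B * r) = B * T * B * (r * U * r) := by
    calc B * r * (T * U) * (B * r) = B * (r * T) * (U * B) * r := by simp only [mul_assoc]
      _ = B * (T * r) * (B * U) * r := by rw [h3.eq, h5.eq]
      _ = B * T * (r * B) * U * r := by simp only [mul_assoc]
      _ = B * T * (B * r) * U * r := by rw [h2.eq]
      _ = _ := by simp only [mul_assoc]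
  simp only [add_mul, mul_add]
  rw [e1, e2, e3, e4]
  abel

/-- The sum over an orthonormal basis at a site. -/
lemma sum_N (i : Fin N) {α : Bool → Bool → ℂ} (hα : ON α) (Y : M2) {Z : Op N}
    (hZ : ∀ A : M2, Commute Z (site i A)) :
    (site i (ket (α false)))ᴴ * (site i Y * Z) * site i (ket (α false))
      + (site i (ket (α true)))ᴴ * (site i Y * Z) * site i (ket (α true))
      = (Y false false + Y true true) • (site i e00 * Z) := by
  have one : ∀ a : Bool → ℂ, (site i (ket a))ᴴ * (site i Y * Z) * site i (ket a)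
      = ip a (Y *ᵥ a) • (site i e00 * Z) := by
    intro a
    rw [site_conjTranspose]
    calc site i (ket a)ᴴ * (site i Y * Z) * site i (ket a)
        = site i (ket a)ᴴ * site i Y * (Z * site i (ket a)) := by simp only [mul_assoc]
      _ = site i (ket a)ᴴ * site i Y * (site i (ket a) * Z) := by rw [(hZ _).eq]
      _ = site i ((ket a)ᴴ * Y * ket a) * Z := by
          rw [site_mul, site_mul]; simp only [mul_assoc]
      _ = _ := by rw [ket_sandwich, site_smul, smul_mul_assoc]
  rw [one, one, ← add_smul, hα.trace]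

/-- The sum over an orthonormal basis of the sandwiches of the projector of a gate. -/
theorem sum_N_Q {S : Finset (Fin N)} {i : Fin N} (hi : i ∈ S) (X : Fin N → M2)
    {α : Bool → Bool → ℂ} (hα : ON α) :
    (site i (ket (α false)))ᴴ * Qg S X * site i (ket (α false))
      + (site i (ket (α true)))ᴴ * Qg S X * site i (ket (α true))
      = (X i false false) • (site i e00 * tensor (XOn (S.erase i) X))
        + (X i true true) • (site i e00 * (Dg (S.erase i) * tensor (XOn (S.erase i) X) * Dg (S.erase i))) := by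
  set S' := S.erase i with hS'
  have hiS' : i ∉ S' := Finset.notMem_erase _ _
  set U' := tensor (XOn S' X) with hU'
  set r := Dg S' with hr
  have hd : Disjoint S' {i} := Finset.disjoint_singleton_right.mpr hiS'
  have hsm : ∀ A : M2, site i A ∈ SA {i} := fun A => site_mem_SA (Finset.mem_singleton_self _) _
  have hUc : ∀ A : M2, Commute U' (site i A) := fun A =>
    SA_commute hd (tensor_XOn_mem _ _) (hsm A)
  have hrc : ∀ A : M2, Commute r (site i A) := fun A => SA_commute hd (Dg_mem_SA _) (hsm A)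
  have hD : Dg S = site i e00 + site i e11 * r := by
    rw [Dg, Pe_erase hi, hr, Dg, mul_sub, mul_one, mul_smul_comm, ← add_sub_assoc, ← hS', P0_add_P1]
  have hT : tensor (XOn S X) = site i (X i) * U' := by
    rw [site, hU', tensor_mul]
    congr 1
    funext s
    by_cases hs : s = i
    · subst hs
      simp [XOn, hi, hiS']
    · simp [XOn, hS', hs, Finset.mem_erase]
  have hQ : Qg S X = site i (e00 * X i * e00) * U' + site i (e00 * X i * e11) * (U' * r)
      + site i (e11 * X i * e00) * (r * U') + site i (e11 * X i * e11) * (r * U' * r) := by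
    rw [Qg, hD, hT, four_terms _ _ _ _ _ (hrc _) (hrc _) (hrc _) (hUc _) (hUc _)]
    simp only [site_mul]
  have hsplit : ∀ a b c d : Op N,
      (site i (ket (α false)))ᴴ * (a + b + c + d) * site i (ket (α false))
        + (site i (ket (α true)))ᴴ * (a + b + c + d) * site i (ket (α true))
      = ((site i (ket (α false)))ᴴ * a * site i (ket (α false))
          + (site i (ket (α true)))ᴴ * a * site i (ket (α true)))
        + ((site i (ket (α false)))ᴴ * b * site i (ket (α false))
          + (site i (ket (α true)))ᴴ * b * site i (ket (α true)))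
        + ((site i (ket (α false)))ᴴ * c * site i (ket (α false))
          + (site i (ket (α true)))ᴴ * c * site i (ket (α true)))
        + ((site i (ket (α false)))ᴴ * d * site i (ket (α false))
          + (site i (ket (α true)))ᴴ * d * site i (ket (α true))) := by
    intro a b c d
    simp only [mul_add, add_mul]
    abel
  rw [hQ, hsplit, sum_N i hα _ (hUc), sum_N i hα _ (fun A => (hUc A).mul_left (hrc A)),
    sum_N i hα _ (fun A => (hrc A).mul_left (hUc A)),
    sum_N i hα _ (fun A => ((hrc A).mul_left (hUc A)).mul_left (hrc A))]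
  have t0 : (e00 * X i * e00) false false + (e00 * X i * e00) true true = X i false false := by
    simp [Matrix.mul_apply, e00, Fintype.sum_bool]
  have t1 : (e00 * X i * e11) false false + (e00 * X i * e11) true true = 0 := by
    simp [Matrix.mul_apply, e00, e11, Fintype.sum_bool]
  have t2 : (e11 * X i * e00) false false + (e11 * X i * e00) true true = 0 := by
    simp [Matrix.mul_apply, e00, e11, Fintype.sum_bool]
  have t3 : (e11 * X i * e11) false false + (e11 * X i * e11) true true = X i true true := by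
    simp [Matrix.mul_apply, e11, Fintype.sum_bool]
  rw [t0, t1, t2, t3, zero_smul, zero_smul, add_zero, add_zero]

namespace GarData

variable (D : GarData ι N)

lemma K_adj_mul (k : ι) (b : Bool) : (D.K k b)ᴴ * D.K k b = Pr (D.U k) := by
  cases b
  · have h := comb_adj_mul (D.U k) (D.e k) (D.ψ k) (fun s _ => D.he k s) (fun s _ => D.hψ k s)
      1 (-(2 * D.c k))
    have e1 : (1 : ℂ) • Kt (D.U k) (D.e k) + (-(2 * D.c k)) • Kt (D.U k) (D.ψ k) = D.K k false := by
      rw [K_false, one_smul, neg_smul, sub_eq_add_neg]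
    rw [e1] at h
    have e2 : ∏ s ∈ D.U k, ip (D.e k s) (D.ψ k s) = star (D.c k) := (star_prod_ip _ _ _).symm
    rw [e2] at h
    have e3 : (star (1 : ℂ) * (-(2 * D.c k)) * star (D.c k)).re = - 2 * ‖D.c k‖ ^ 2 := by
      have : D.c k * star (D.c k) = ((‖D.c k‖ ^ 2 : ℝ) : ℂ) := by
        simp [Complex.mul_conj']
      have e4 : star (1 : ℂ) * (-(2 * D.c k)) * star (D.c k) = -2 * (D.c k * star (D.c k)) := by
        simp; ring
      have e6 : (-2 : ℂ) * ((‖D.c k‖ ^ 2 : ℝ) : ℂ) = ((-2 * ‖D.c k‖ ^ 2 : ℝ) : ℂ) := by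
        push_cast; ring
      rw [e4, this, e6, Complex.ofReal_re]
    rw [e3] at h
    have e5 : ‖-(2 * D.c k)‖ ^ 2 = 4 * ‖D.c k‖ ^ 2 := by
      rw [norm_neg, norm_mul]
      simp
      ring
    rw [e5, norm_one] at h
    rw [h]
    have e7 : (((1 : ℝ) ^ 2 + 4 * ‖D.c k‖ ^ 2 + 2 * (- 2 * ‖D.c k‖ ^ 2) : ℝ) : ℂ) = 1 := by
      norm_num
      ring
    rw [e7, one_smul]
  · exact Kt_adj_mul_unit _ _ fun s _ => D.he k s

end GarData

section AbGate

variable {B : BData ι N} {bs : ι → Bool} (hn : ∀ k, B.ψ k (B.i k) = B.α k (bs k))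

include hn

/-- The unsigned map on the projector of the gate of a block with exact input. -/
theorem Ab_near (k : ι) {S : Finset (Fin N)} (hi : B.i k ∈ S) (hSU : Disjoint S (B.gar.U k))
    (X : Fin N → M2) :
    Ab (B.K k) (Qg S X) = (1 / 2 : ℂ) • (((X (B.i k) false false) • (site (B.i k) e00 * tensor (XOn (S.erase (B.i k)) X))
        + (X (B.i k) true true) • (site (B.i k) e00 * (Dg (S.erase (B.i k)) * tensor (XOn (S.erase (B.i k)) X) * Dg (S.erase (B.i k)))))
        * Pr (B.gar.U k)) := by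
  rw [← sum_N_Q hi X (B.hα k), Ab_apply, add_mul]
  have one : ∀ b, (B.K k b)ᴴ * Qg S X * B.K k b
      = ((site (B.i k) (ket (B.α k b)))ᴴ * Qg S X * site (B.i k) (ket (B.α k b))) * Pr (B.gar.U k) := by
    intro b
    set ε := xor b (bs k) with hε
    set Nb := site (B.i k) (ket (B.α k b)) with hNb
    set g := B.gar.K k ε with hg
    have hNm : Nb ∈ SA S := site_mem_SA hi _
    have hZ : Nbᴴ * Qg S X * Nb ∈ SA S := mul_mem (mul_mem (SA_adj hNm) (Qg_mem_SA _ _)) hNm
    have hc : Commute gᴴ (Nbᴴ * Qg S X * Nb) :=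
      SA_commute hSU.symm (SA_adj (B.gar.K_mem k ε)) hZ
    rw [BData.K_near hn, ← hε, ← hNb, ← hg, Matrix.conjTranspose_mul]
    calc gᴴ * Nbᴴ * Qg S X * (Nb * g) = (gᴴ * (Nbᴴ * Qg S X * Nb)) * g := by simp only [mul_assoc]
      _ = (Nbᴴ * Qg S X * Nb) * gᴴ * g := by rw [hc.eq]
      _ = _ := by rw [mul_assoc, B.gar.K_adj_mul]
  rw [one, one]

lemma Ab_near_norm (k : ι) {S : Finset (Fin N)} (hi : B.i k ∈ S) (hSU : Disjoint S (B.gar.U k))
    (X : Fin N → M2) :
    ‖Ab (B.K k) (Qg S X)‖ ≤ (1 / 2) * ‖(X (B.i k) false false) • tensor (XOn (S.erase (B.i k)) X)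
      + (X (B.i k) true true) • (Dg (S.erase (B.i k)) * tensor (XOn (S.erase (B.i k)) X) * Dg (S.erase (B.i k)))‖ := by
  rw [Ab_near hn k hi hSU, norm_smul, norm_half]
  apply mul_le_mul_of_nonneg_left _ (by norm_num)
  refine (mul_norm_aux' (norm_Pr_le _)).trans ?_
  rw [← mul_smul_comm, ← mul_smul_comm, ← mul_add]
  exact mul_norm_aux (proj1_e00.norm_le.trans' (norm_site_le _ _))

/-- The unsigned map for a tested input. -/
theorem Ab_tested (k : ι) {S : Finset (Fin N)} (hi : B.i k ∈ S) (hSU : Disjoint S (B.gar.U k))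
    {X : Fin N → M2} (hX : AllOK X) (hP : Proj1 (X (B.i k))) :
    ‖Ab (B.K k) (Qg S X)‖ ≤ 1 / 2 := by
  refine (Ab_near_norm hn k hi hSU X).trans ?_
  set S' := S.erase (B.i k) with hS'
  have hU : ‖tensor (XOn S' X)‖ ≤ 1 := norm_tensor_ok (XOn_ok hX)
  have hD : ‖Dg S'‖ ≤ 1 := norm_le_one_of_refl (Dg_herm _) (Dg_sq _)
  have hV : ‖Dg S' * tensor (XOn S' X) * Dg S'‖ ≤ 1 := (mul3_norm_le _ hD hD).trans hU
  obtain ⟨u, hu, hXi⟩ := hP
  have h1 : ‖X (B.i k) false false‖ + ‖X (B.i k) true true‖ = 1 := by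
    rw [hXi]
    simp only [Matrix.vecMulVec_apply, Pi.star_apply, norm_mul, norm_star]
    unfold nsq at hu
    nlinarith
  have h2 := norm_add_le ((X (B.i k) false false) • tensor (XOn S' X))
    ((X (B.i k) true true) • (Dg S' * tensor (XOn S' X) * Dg S'))
  rw [norm_smul, norm_smul] at h2
  have h3 : ‖X (B.i k) false false‖ * ‖tensor (XOn S' X)‖ ≤ ‖X (B.i k) false false‖ :=
    mul_le_of_le_one_right (norm_nonneg _) hU
  have h4 : ‖X (B.i k) true true‖ * ‖Dg S' * tensor (XOn S' X) * Dg S'‖ ≤ ‖X (B.i k) true true‖ :=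
    mul_le_of_le_one_right (norm_nonneg _) hV
  linarith

/-- The unsigned map for an untested input whose gate is otherwise tested. -/
theorem Ab_untested (k : ι) {S : Finset (Fin N)} (hi : B.i k ∈ S) (hSU : Disjoint S (B.gar.U k))
    {X : Fin N → M2} (hP : X (B.i k) = 1) (hT : ∀ s ∈ S.erase (B.i k), Proj1 (X s)) :
    ‖Ab (B.K k) (Qg S X)‖ ≤ 1 - (1 / 4) * (1 - (1 - 2 * bt (S.erase (B.i k)) X) ^ 2) := by
  refine (Ab_near_norm hn k hi hSU X).trans ?_
  set S' := S.erase (B.i k) with hS'
  obtain ⟨hb0, hb1⟩ := bt_bounds hT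
  set b := bt S' X with hb
  have hpair := gate_pair hT
  rw [← hb] at hpair
  have hγ0 : 0 ≤ (1 - 2 * b) ^ 2 := sq_nonneg _
  have hγ1 : (1 - 2 * b) ^ 2 ≤ 1 := by nlinarith
  have h := hpair.H_le hγ0 hγ1 (1 / 2) (by norm_num) (by norm_num)
  rw [hP]
  have e : (1 / 2 : ℝ) * ‖(1 : M2) false false • tensor (XOn S' X)
        + (1 : M2) true true • (Dg S' * tensor (XOn S' X) * Dg S')‖
      = ‖(((1 - 1 / 2 : ℝ) : ℂ)) • tensor (XOn S' X)
        + (((1 / 2 : ℝ)) : ℂ) • (Dg S' * tensor (XOn S' X) * Dg S')‖ := by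
    have e1 : ((1 - 1 / 2 : ℝ) : ℂ) = (1 / 2 : ℂ) := by norm_num
    have e2 : ((1 / 2 : ℝ) : ℂ) = (1 / 2 : ℂ) := by norm_num
    rw [e1, e2, ← smul_add, norm_smul, norm_half]
    simp
  rw [e]
  refine h.trans (le_of_eq ?_)
  ring

end AbGate

/-- `‖L‖` is controlled by the angle of the gate. -/
lemma Lg_le {A : Finset (Fin N)} {X : Fin N → M2} (hT : ∀ s ∈ A, Proj1 (X s)) :
    ‖Lg A X‖ ^ 2 ≤ 1 - (1 - 2 * bt A X) ^ 2 := by
  obtain ⟨hb0, hb1⟩ := bt_bounds hT
  have hpair := gate_pair hT
  have hγ1 : (1 - 2 * bt A X) ^ 2 ≤ 1 := by nlinarith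
  exact hpair.L_le hγ1

end Vale.Agent.Lib.P368y
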