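import Vale.Agent.Lib.P368y.Near3

/-!
The bound for blocks with exact input.
-/

open scoped BigOperators Matrix Matrix.Norms.L2Operator

namespace Vale.Agent.Lib.P368y

open Vale.Agent.Lib.P368x

variable {N : ℕ} {ι : Type*} [DecidableEq ι]

section Gated

variable {B : BData ι N} {bs : ι → Bool} (hn : ∀ k, B.ψ k (B.i k) = B.α k (bs k))
  (S : ι → Finset (Fin N)) (hS : ∀ j k, j ≠ k → Disjoint (S j) (S k))
  (hi : ∀ k, B.i k ∈ S k) (hSU : ∀ j k, Disjoint (S k) (B.gar.U j))
  (hSi : ∀ j k, j ≠ k → B.i j ∉ S k)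

include hn hS hi hSU hSi

/-- The bound when every input has a gate all of whose other sites are tested. -/
theorem near_gated (gs : List (Finset (Fin N))) (hgs : gs.Pairwise Disjoint) (hmem : ∀ k, S k ∈ gs)
    (X : Fin N → M2) (hX : AllOK X) (hXU : ∀ k, ∀ s ∈ B.gar.U k, X s = 1)
    (hT : ∀ k, ∀ s ∈ (S k).erase (B.i k), Proj1 (X s)) (J : Finset ι) :
    ‖B.fam.EJ J (TT gs X)‖ ≤ (199 / 200 : ℝ) ^ J.card := by
  classical
  set γ : ι → ℝ := fun k => 1 - (1 - 2 * bt ((S k).erase (B.i k)) X) ^ 2 with hγ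
  set cP : ι → Prop := fun k => Proj1 (X (B.i k)) ∨ (9 / 100 : ℝ) ≤ γ k with hcP
  set JP := J.filter cP with hJP
  set JC := J.filter fun k => ¬ cP k with hJC
  have hcard : J.card = JP.card + JC.card := by
    rw [hJP, hJC, Finset.card_filter_add_card_filter_not]
  have dSW : ∀ j l, j ≠ l → Disjoint (S l) (B.W j) := by
    intro j l hjl
    rw [Finset.disjoint_left]
    intro s hs hs'
    by_cases hsi : s = B.i j
    · exact hSi j l hjl (hsi ▸ hs)
    · exact Finset.disjoint_left.mp (hSU j l) hs (Finset.mem_erase.mpr ⟨hsi, hs'⟩)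
  set D := gateQ S hS X hX with hD
  have hNrm := B.fam_nrm
  -- the peeling part
  have hPb : ‖B.fam.EJ JP (TT gs X)‖ ^ 2 ≤ (391 / 400 : ℝ) ^ JP.card := by
    obtain ⟨gs', h1, _, h3⟩ := TT_extract S hS JP gs hgs (fun k _ => hmem k) (fun k _ => ⟨_, hi k⟩) X hX
    rw [h3]
    have hp := peel_left hNrm JP (D.QP_herm JP) (D.QP_idem JP) (TT gs' (XOff (JP.biUnion S) X))
    refine hp.trans ?_
    have hΘ : ‖TT gs' (XOff (JP.biUnion S) X)‖ ≤ 1 := norm_TT_le _ (XOff_ok hX)
    have hA : ‖B.fam.AJ JP (D.QP JP)‖ ≤ (391 / 400 : ℝ) ^ JP.card := by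
      refine (norm_AJ_QP hNrm D (fun j k hjk => dSW k j hjk.symm) JP).trans ?_
      rw [← Finset.prod_const]
      apply Finset.prod_le_prod (fun _ _ => norm_nonneg _)
      intro k hk
      have hk' : cP k := (Finset.mem_filter.mp hk).2
      show ‖Ab (B.K k) (Qg (S k) X)‖ ≤ _
      by_cases hp : Proj1 (X (B.i k))
      · exact (Ab_tested hn k (hi k) (hSU k k) hX hp).trans (by norm_num)
      · have hγk : (9 / 100 : ℝ) ≤ γ k := hk'.resolve_left hp
        have hx1 : X (B.i k) = 1 := (hX _).resolve_right hp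
        refine (Ab_untested hn k (hi k) (hSU k k) hx1 (hT k)).trans ?_
        have : 1 - (1 - 2 * bt ((S k).erase (B.i k)) X) ^ 2 = γ k := rfl
        rw [this]
        linarith
    have h0 : (0 : ℝ) ≤ (391 / 400 : ℝ) ^ JP.card := by positivity
    calc ‖B.fam.AJ JP (D.QP JP)‖ * ‖TT gs' (XOff (JP.biUnion S) X)‖ ^ 2
        ≤ ‖B.fam.AJ JP (D.QP JP)‖ * 1 := by
          gcongr
          exact pow_le_one₀ (norm_nonneg _) hΘ
      _ ≤ _ := by rw [mul_one]; exact hA
  -- the column part
  have hCb : ‖B.fam.EJ JC (TT gs X)‖ ≤ (19 / 20 : ℝ) ^ JC.card := by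
    obtain ⟨gs', h1, h2, h3⟩ := TT_extract S hS JC gs hgs (fun k _ => hmem k) (fun k _ => ⟨_, hi k⟩) X hX
    rw [h3]
    have hC : ∀ k ∈ JC, X (B.i k) = 1 ∧ γ k < 9 / 100 := by
      intro k hk
      have hk' : ¬ cP k := (Finset.mem_filter.mp hk).2
      rw [hcP] at hk'
      push_neg at hk'
      exact ⟨(hX _).resolve_right hk'.1, hk'.2⟩
    have hOff1 : ∀ k ∈ JC, ∀ s ∈ S k, XOff (JC.biUnion S) X s = 1 := by
      intro k hk s hs
      have : s ∈ JC.biUnion S := Finset.mem_biUnion.mpr ⟨k, hk, hs⟩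
      simp [XOff, this]
    have := T3 hn S hS hi hSU hSi X hX JC ∅ (Finset.disjoint_empty_right _) gs' h1
      (fun g hg k hk => (h2 g hg).2 k hk) (XOff (JC.biUnion S) X) (XOff_ok hX) hOff1
      (fun k _ s hs => by
        simp only [XOff]
        split_ifs
        · rfl
        · exact hXU k s hs)
      (fun k hk => (hC k hk).1)
    simp only [Fam.EJ_empty, Module.End.one_apply, Finset.card_empty, pow_zero, one_mul] at this
    refine this.trans ?_
    rw [← Finset.prod_const]
    apply Finset.prod_le_prod (fun _ _ => by positivity)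
    intro k hk
    have h5 := Lg_le (hT k)
    have h6 : ‖Lg ((S k).erase (B.i k)) X‖ ^ 2 < 9 / 100 := lt_of_le_of_lt h5 (hC k hk).2
    have h7 : ‖Lg ((S k).erase (B.i k)) X‖ ≤ 3 / 10 := by
      apply abs_le_of_sq_le_sq' _ (by norm_num) |>.2
      linarith
    linarith
  -- the dichotomy
  have hP := Fam.norm_EJ_mono hNrm (Finset.filter_subset cP J) (TT gs X)
  have hC := Fam.norm_EJ_mono hNrm (Finset.filter_subset (fun k => ¬ cP k) J) (TT gs X)
  rw [← hJP] at hP
  rw [← hJC] at hC
  have hν : (0 : ℝ) ≤ (199 / 200 : ℝ) ^ J.card := by positivity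
  by_cases hac : J.card ≤ 2 * JP.card
  · apply abs_le_of_sq_le_sq' _ hν |>.2
    have h1 := pow_le_pow_left₀ (norm_nonneg _) hP 2
    refine h1.trans (hPb.trans ?_)
    have e : ((199 / 200 : ℝ) ^ J.card) ^ 2 = ((199 / 200 : ℝ) ^ 2) ^ J.card := by
      rw [← pow_mul, ← pow_mul, mul_comm]
    rw [e]
    have h2 : ((199 / 200 : ℝ) ^ 2) ^ (2 * JP.card) ≤ ((199 / 200 : ℝ) ^ 2) ^ J.card :=
      pow_le_pow_of_le_one (by positivity) (by norm_num) hac
    refine le_trans ?_ h2
    rw [pow_mul]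
    exact pow_le_pow_left₀ (by norm_num) (by norm_num) _
  · have hcn : J.card ≤ 2 * JC.card := by omega
    refine hC.trans (hCb.trans ?_)
    have h1 : (199 / 200 : ℝ) ^ (2 * JC.card) ≤ (199 / 200 : ℝ) ^ J.card :=
      pow_le_pow_of_le_one (by positivity) (by norm_num) hcn
    refine le_trans ?_ h1
    rw [pow_mul]
    exact pow_le_pow_left₀ (by norm_num) (by norm_num) _

end Gated

/-- Adding a one-site gate. -/
lemma TT_singleton (i : Fin N) (gs : List (Finset (Fin N))) (X : Fin N → M2) :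
    TT ({i} :: gs) (Function.update X i (pauliZ * X i * pauliZ)) = TT gs X := by
  have hD : Dg {i} = site i pauliZ := by
    rw [Dg, Pe_singleton]
    have : pauliZ = (1 : M2) + (-2 : ℂ) • e11 := by
      ext a b
      cases a <;> cases b <;> simp [pauliZ, e11]
      norm_num
    rw [this, site_add, site_smul, site_one]
    ext a b
    simp [sub_eq_add_neg]
  have hT : tensor (Function.update X i (pauliZ * X i * pauliZ)) = Dg {i} * tensor X * Dg {i} := by
    rw [hD, site, tensor_mul, tensor_mul]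
    congr 1
    funext s
    by_cases hs : s = i
    · subst hs; simp
    · simp [Function.update_of_ne hs]
  have hc := Dl_commute_Dg {i} gs
  have hs := Dg_sq ({i} : Finset (Fin N))
  rw [TT, TT, Dl_cons, hT]
  calc Dg {i} * Dl gs * (Dg {i} * tensor X * Dg {i}) * (Dg {i} * Dl gs)
      = Dg {i} * (Dl gs * Dg {i}) * tensor X * (Dg {i} * Dg {i}) * Dl gs := by
        simp only [mul_assoc]
    _ = Dg {i} * (Dg {i} * Dl gs) * tensor X * 1 * Dl gs := by rw [hc.symm.eq, hs]
    _ = (Dg {i} * Dg {i}) * Dl gs * tensor X * Dl gs := by simp only [mul_assoc, mul_one]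
    _ = _ := by rw [hs, one_mul]

lemma pauliZ_uni : Uni pauliZ := ⟨by rw [pauliZ_herm, pauliZ_sq], by rw [pauliZ_herm, pauliZ_sq]⟩

lemma siteOK_conjZ {Y : M2} (h : SiteOK Y) : SiteOK (pauliZ * Y * pauliZ) := by
  rcases h with rfl | h
  · left
    rw [mul_one, pauliZ_sq]
  · right
    have := h.conj pauliZ_uni
    rwa [pauliZ_herm] at this

section Normal

variable {B : BData ι N} {bs : ι → Bool} (hn : ∀ k, B.ψ k (B.i k) = B.α k (bs k))

lemma BData.i_inj (B : BData ι N) {j k : ι} (h : B.i j = B.i k) : j = k := by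
  by_contra hjk
  exact Finset.disjoint_left.mp (B.disj j k hjk) (B.hi j) (h ▸ B.hi k)

include hn

/-- The bound when every gate containing an input is tested elsewhere. -/
theorem near_normal [Fintype ι] (n : ℕ) : ∀ (gs : List (Finset (Fin N))) (X : Fin N → M2)
    (_ : gs.Pairwise Disjoint) (_ : AllOK X) (_ : ∀ k, ∀ s ∈ B.gar.U k, X s = 1)
    (_ : ∀ g ∈ gs, ∀ k, B.i k ∈ g → (∀ j, Disjoint g (B.gar.U j)) ∧ ∀ j, j ≠ k → B.i j ∉ g)
    (_ : ∀ g ∈ gs, ∀ k, B.i k ∈ g → ∀ s ∈ g, s ≠ B.i k → Proj1 (X s))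
    (_ : (Finset.univ.filter fun k => ∀ g ∈ gs, B.i k ∉ g).card = n) (J : Finset ι),
    ‖B.fam.EJ J (TT gs X)‖ ≤ (199 / 200 : ℝ) ^ J.card := by
  classical
  induction n with
  | zero =>
    intro gs X hgs hX hXU H hN hcard J
    have hall : ∀ k, ∃ g ∈ gs, B.i k ∈ g := by
      intro k
      by_contra hc
      push_neg at hc
      have : k ∈ Finset.univ.filter fun k => ∀ g ∈ gs, B.i k ∉ g := by
        simp only [Finset.mem_filter, Finset.mem_univ, true_and]
        exact hc
      rw [Finset.card_eq_zero.mp hcard] at this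
      exact Finset.notMem_empty _ this
    choose S hS1 hS2 using hall
    have hSd : ∀ j k, j ≠ k → Disjoint (S j) (S k) := by
      intro j k hjk
      have hne : S j ≠ S k := by
        intro he
        exact (H (S k) (hS1 k) k (hS2 k)).2 j hjk (he ▸ hS2 j)
      haveI : Std.Symm (Disjoint : Finset (Fin N) → Finset (Fin N) → Prop) := ⟨fun _ _ h => h.symm⟩
      exact hgs.forall (hS1 j) (hS1 k) hne
    refine near_gated hn S hSd hS2 (fun j k => (H (S k) (hS1 k) k (hS2 k)).1 j)
      (fun j k hjk => (H (S k) (hS1 k) k (hS2 k)).2 j hjk) gs hgs hS1 X hX hXU ?_ J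
    intro k s hs
    exact hN (S k) (hS1 k) k (hS2 k) s (Finset.mem_of_mem_erase hs) (Finset.ne_of_mem_erase hs)
  | succ n ih =>
    intro gs X hgs hX hXU H hN hcard J
    have hne : (Finset.univ.filter fun k => ∀ g ∈ gs, B.i k ∉ g).Nonempty := by
      rw [← Finset.card_pos, hcard]
      omega
    obtain ⟨k₀, hk₀⟩ := hne
    have hk₀' : ∀ g ∈ gs, B.i k₀ ∉ g := by simpa using hk₀
    set i₀ := B.i k₀ with hi₀
    set X' := Function.update X i₀ (pauliZ * X i₀ * pauliZ) with hX'
    have hTT := TT_singleton i₀ gs X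
    rw [← hTT]
    have hoff : ∀ s, s ≠ i₀ → X' s = X s := fun s hs => Function.update_of_ne hs _ _
    refine ih ({i₀} :: gs) X' ?_ ?_ ?_ ?_ ?_ ?_ J
    · rw [List.pairwise_cons]
      refine ⟨fun g hg => Finset.disjoint_singleton_left.mpr (hk₀' g hg), hgs⟩
    · intro s
      by_cases hs : s = i₀
      · subst hs
        simp only [hX', Function.update_self]
        exact siteOK_conjZ (hX _)
      · rw [hoff s hs]; exact hX s
    · intro k s hs
      have : s ≠ i₀ := fun h => by
        rw [h, hi₀] at hs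
        exact B.i_notMem_gar k₀ k hs
      rw [hoff s this]
      exact hXU k s hs
    · intro g hg k hk
      rcases List.mem_cons.mp hg with rfl | hg'
      · have hk' : k = k₀ := B.i_inj (Finset.mem_singleton.mp hk)
        refine ⟨fun j => Finset.disjoint_singleton_left.mpr (B.i_notMem_gar k₀ j), fun j hj h => ?_⟩
        exact hj ((B.i_inj (Finset.mem_singleton.mp h)).trans hk'.symm)
      · exact H g hg' k hk
    · intro g hg k hk s hs hsk
      rcases List.mem_cons.mp hg with rfl | hg'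
      · exact absurd ((Finset.mem_singleton.mp hs).trans (Finset.mem_singleton.mp hk).symm) hsk
      · have : s ≠ i₀ := fun h => hk₀' g hg' (h ▸ hs)
        rw [hoff s this]
        exact hN g hg' k hk s hs hsk
    · have hsub : (Finset.univ.filter fun k => ∀ g ∈ {i₀} :: gs, B.i k ∉ g)
          = (Finset.univ.filter fun k => ∀ g ∈ gs, B.i k ∉ g).erase k₀ := by
        ext k
        simp only [Finset.mem_filter, Finset.mem_univ, true_and, List.mem_cons, forall_eq_or_imp,
          Finset.mem_erase, Finset.mem_singleton]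
        constructor
        · rintro ⟨h1, h2⟩
          exact ⟨fun h => h1 (h ▸ rfl), h2⟩
        · rintro ⟨h1, h2⟩
          exact ⟨fun h => h1 (B.i_inj h), h2⟩
      rw [hsub, Finset.card_erase_of_mem hk₀, hcard]
      rfl

/-- The bound for blocks with exact input. -/
theorem near_bound [Fintype ι] (gs : List (Finset (Fin N))) (hgs : gs.Pairwise Disjoint) (X : Fin N → M2)
    (hX : AllOK X) (hXU : ∀ k, ∀ s ∈ B.gar.U k, X s = 1)
    (H : ∀ g ∈ gs, ∀ k, B.i k ∈ g → (∀ j, Disjoint g (B.gar.U j)) ∧ ∀ j, j ≠ k → B.i j ∉ g)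
    (J : Finset ι) : ‖B.fam.EJ J (TT gs X)‖ ≤ (199 / 200 : ℝ) ^ J.card := by
  classical
  set bad : List (Finset (Fin N)) → Finset (Fin N) := fun gs =>
    Finset.univ.filter fun s => ∃ g ∈ gs, ∃ k, B.i k ∈ g ∧ s ∈ g ∧ s ≠ B.i k ∧ X s = 1 with hbad
  induction' hm : (bad gs).card using Nat.strong_induction_on with m ih generalizing gs
  by_cases hb : bad gs = ∅
  · refine near_normal hn _ gs X hgs hX hXU H ?_ rfl J
    intro g hg k hk s hs hsk
    rcases hX s with h1 | h1
    · exfalso
      have : s ∈ bad gs := by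
        simp only [hbad, Finset.mem_filter, Finset.mem_univ, true_and]
        exact ⟨g, hg, k, hk, hs, hsk, h1⟩
      rw [hb] at this
      exact Finset.notMem_empty _ this
    · exact h1
  · obtain ⟨s, hs⟩ := Finset.nonempty_iff_ne_empty.mpr hb
    have hs' := hs
    simp only [hbad, Finset.mem_filter, Finset.mem_univ, true_and] at hs'
    obtain ⟨g, hg, k₀, hk₀, hsg, hsk₀, hs1⟩ := hs'
    have hsW : ∀ k ∈ J, s ∉ B.fam.W k := by
      intro j _ hj
      by_cases hsi : s = B.i j
      · have hjk : j ≠ k₀ := fun h => hsk₀ (h ▸ hsi)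
        exact (H g hg k₀ hk₀).2 j hjk (hsi ▸ hsg)
      · exact Finset.disjoint_left.mp ((H g hg k₀ hk₀).1 j) hsg (Finset.mem_erase.mpr ⟨hsi, hj⟩)
    refine (EJ_sector B.fam J s hsW gs X hs1).trans ?_
    have hsub0 : bad (secZero s gs) ⊂ bad gs := by
      refine Finset.ssubset_iff_of_subset ?_ |>.mpr ⟨s, hs, ?_⟩
      · intro t ht
        simp only [hbad, Finset.mem_filter, Finset.mem_univ, true_and] at ht ⊢
        obtain ⟨g', hg', rest⟩ := ht
        exact ⟨g', (List.mem_filter.mp hg').1, rest⟩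
      · intro h
        simp only [hbad, Finset.mem_filter, Finset.mem_univ, true_and] at h
        obtain ⟨g', hg', _, _, hsg', _⟩ := h
        exact notMem_secZero hg' hsg'
    have hsub1 : bad (secOne s gs) ⊂ bad gs := by
      refine Finset.ssubset_iff_of_subset ?_ |>.mpr ⟨s, hs, ?_⟩
      · intro t ht
        simp only [hbad, Finset.mem_filter, Finset.mem_univ, true_and] at ht ⊢
        obtain ⟨g', hg', k, hk, htg, rest⟩ := ht
        obtain ⟨g'', hg'', rfl⟩ := List.mem_map.mp hg'
        exact ⟨g'', hg'', k, Finset.mem_of_mem_erase hk, Finset.mem_of_mem_erase htg, rest⟩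
      · intro h
        simp only [hbad, Finset.mem_filter, Finset.mem_univ, true_and] at h
        obtain ⟨g', hg', _, _, hsg', _⟩ := h
        exact notMem_secOne hg' hsg'
    apply max_le
    · refine ih _ (hm ▸ Finset.card_lt_card hsub0) _ (secZero_pairwise hgs) ?_ rfl
      intro g' hg' k hk
      exact H g' (List.mem_filter.mp hg').1 k hk
    · refine ih _ (hm ▸ Finset.card_lt_card hsub1) _ (secOne_pairwise hgs) ?_ rfl
      intro g' hg' k hk
      obtain ⟨g'', hg'', rfl⟩ := List.mem_map.mp hg'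
      have h1 := H g'' hg'' k (Finset.mem_of_mem_erase hk)
      exact ⟨fun j => Finset.disjoint_of_subset_left (Finset.erase_subset _ _) (h1.1 j),
        fun j hj h2 => h1.2 j hj (Finset.mem_of_mem_erase h2)⟩

end Normal

end Vale.Agent.Lib.P368y
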