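import Vale.Agent.Lib.P368y.Kraus

/-!
Two projectors `U`, `V` in rank-one position: `U V U = γ U`, `V U V = γ V`.
-/

open scoped BigOperators Matrix Matrix.Norms.L2Operator

namespace Vale.Agent.Lib.P368y

open Vale.Agent.Lib.P368x

variable {N : ℕ}

lemma norm_le_of_vn (M : Op N) (c : ℝ) (hc : 0 ≤ c) (h : ∀ x, vn (M *ᵥ x) ≤ c * vn x) : ‖M‖ ≤ c := by
  apply op_norm_le _ _ hc
  intro x y
  have h1 := dot_norm_le (M *ᵥ x) y
  have h2 := h x
  have h3 := vn_nonneg y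
  have : vn y * vn (M *ᵥ x) ≤ vn y * (c * vn x) := by gcongr
  linarith [mul_comm (vn y) (c * vn x), mul_assoc c (vn y) (vn x), mul_comm (vn y) (vn x)]

/-- A Hermitian idempotent has nonnegative quadratic form. -/
lemma qf_proj {P : Op N} (h : Pᴴ = P) (h2 : P * P = P) (x : Str N → ℂ) :
    qf x P = vn (P *ᵥ x) ^ 2 := by
  have := qf_adj_mul x P
  rwa [h, h2] at this

lemma real_aux (n γ : ℝ) (hn : 0 ≤ n) (h0 : γ ≤ 1) (e : (1 - γ) * (n * n) = n * n * (n * n)) :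
    n ^ 2 ≤ 1 - γ := by
  by_cases h2 : n = 0
  · subst h2
    nlinarith
  · have h3 : 0 < n * n := by positivity
    have h4 : 1 - γ = n * n := mul_right_cancel₀ h3.ne' e
    rw [sq]
    linarith

structure ProjPair (U V : Op N) (γ : ℝ) : Prop where
  hU : Uᴴ = U
  hU2 : U * U = U
  hV : Vᴴ = V
  hV2 : V * V = V
  h1 : U * (V * U) = (γ : ℂ) • U
  h2 : V * (U * V) = (γ : ℂ) • V

namespace ProjPair

variable {U V : Op N} {γ : ℝ} (h : ProjPair U V γ)

include h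

lemma symm : ProjPair V U γ := ⟨h.hV, h.hV2, h.hU, h.hU2, h.h2, h.h1⟩

lemma hU3 (a : Op N) : U * (U * a) = U * a := by rw [← mul_assoc, h.hU2]
lemma hV3 (a : Op N) : V * (V * a) = V * a := by rw [← mul_assoc, h.hV2]

lemma L_sq : (V - U) * (V - U) = U + V - U * V - V * U := by
  simp only [sub_mul, mul_sub, h.hU2, h.hV2]
  abel

lemma L_herm : (V - U)ᴴ = V - U := by
  simp [Matrix.conjTranspose_sub, h.hU, h.hV]

lemma L_cube : (V - U) * ((V - U) * (V - U)) = ((1 - γ : ℝ) : ℂ) • (V - U) := by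
  rw [h.L_sq]
  simp only [sub_mul, mul_sub, mul_add, h.hU2, h.hV2, h.hU3, h.hV3, h.h1, h.h2, add_mul, mul_assoc]
  push_cast
  module

lemma L_le (h0 : γ ≤ 1) : ‖V - U‖ ^ 2 ≤ 1 - γ := by
  set L := V - U with hL
  have hLh : Lᴴ = L := h.L_herm
  have e1 : ‖L * L‖ = ‖L‖ * ‖L‖ := by
    have := Matrix.l2_opNorm_conjTranspose_mul_self L
    rwa [hLh] at this
  have e2 : ‖(L * L) * (L * L)‖ = ‖L * L‖ * ‖L * L‖ := by
    have := Matrix.l2_opNorm_conjTranspose_mul_self (L * L)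
    rwa [Matrix.conjTranspose_mul, hLh] at this
  have e3 : (L * L) * (L * L) = ((1 - γ : ℝ) : ℂ) • (L * L) := by
    calc (L * L) * (L * L) = L * (L * (L * L)) := by simp only [mul_assoc]
      _ = L * (((1 - γ : ℝ) : ℂ) • L) := by rw [h.L_cube]
      _ = _ := by rw [mul_smul_comm]
  rw [e3, norm_smul, Complex.norm_real, Real.norm_of_nonneg (by linarith), e1] at e2
  exact real_aux _ _ (norm_nonneg L) h0 e2

lemma H_sq (p : ℝ) :
    (((1 - p : ℝ) : ℂ) • U + (p : ℂ) • V) * (((1 - p : ℝ) : ℂ) • U + (p : ℂ) • V)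
      = ((1 - p : ℝ) : ℂ) • U + (p : ℂ) • V
        - ((p * (1 - p) : ℝ) : ℂ) • ((V - U) * (V - U)) := by
  rw [h.L_sq]
  simp only [mul_add, add_mul, smul_mul_assoc, mul_smul_comm, h.hU2, h.hV2]
  push_cast
  module

lemma H_le (h0 : 0 ≤ γ) (h1 : γ ≤ 1) (p : ℝ) (hp0 : 0 ≤ p) (hp1 : p ≤ 1) :
    ‖((1 - p : ℝ) : ℂ) • U + (p : ℂ) • V‖ ≤ 1 - p * (1 - p) * (1 - γ) := by
  set H : Op N := ((1 - p : ℝ) : ℂ) • U + (p : ℂ) • V with hH
  set L := V - U with hL
  have hpp : p * (1 - p) ≤ 1 / 4 := by nlinarith [sq_nonneg (p - 1 / 2)]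
  have hpp0 : 0 ≤ p * (1 - p) := mul_nonneg hp0 (by linarith)
  have hμ : 0 ≤ 1 - p * (1 - p) * (1 - γ) := by nlinarith
  apply norm_le_of_vn _ _ hμ
  intro x
  have qU := qf_proj h.hU h.hU2 x
  have qV := qf_proj h.hV h.hV2 x
  have q1 : qf x (L * L) = vn (L *ᵥ x) ^ 2 := by
    have := qf_adj_mul x L
    rwa [h.L_herm] at this
  -- `L² - (1-γ) U` is positive
  have p1 : ((1 - γ)) * qf x U ≤ qf x (L * L) := by
    have e : L * L = ((1 - γ : ℝ) : ℂ) • U + (V * (1 - U))ᴴ * (V * (1 - U)) := by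
      rw [h.L_sq, Matrix.conjTranspose_mul, h.hV, Matrix.conjTranspose_sub, h.hU]
      simp only [Matrix.conjTranspose_one, sub_mul, mul_sub, mul_one, one_mul, mul_assoc, h.hV2,
        h.hU2, h.hV3, h.hU3, h.h1]
      push_cast
      module
    rw [e, qf_add, qf_smul, qf_adj_mul]
    nlinarith [sq_nonneg (vn ((V * (1 - U)) *ᵥ x))]
  have p2 : ((1 - γ)) * qf x V ≤ qf x (L * L) := by
    have e : L * L = ((1 - γ : ℝ) : ℂ) • V + (U * (1 - V))ᴴ * (U * (1 - V)) := by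
      rw [h.L_sq, Matrix.conjTranspose_mul, h.hU, Matrix.conjTranspose_sub, h.hV]
      simp only [Matrix.conjTranspose_one, sub_mul, mul_sub, mul_one, one_mul, mul_assoc, h.hV2,
        h.hU2, h.hV3, h.hU3, h.h2]
      push_cast
      module
    rw [e, qf_add, qf_smul, qf_adj_mul]
    nlinarith [sq_nonneg (vn ((U * (1 - V)) *ᵥ x))]
  have qH : qf x H = (1 - p) * qf x U + p * qf x V := by
    rw [hH, qf_add, qf_smul, qf_smul]
  have hHh : Hᴴ = H := by
    simp only [hH, Matrix.conjTranspose_add, Matrix.conjTranspose_smul, h.hU, h.hV]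
    simp
  have q2 : vn (H *ᵥ x) ^ 2 = qf x H - p * (1 - p) * qf x (L * L) := by
    have := qf_adj_mul x H
    rw [hHh, hH, h.H_sq p, qf_sub, qf_smul, ← hH] at this
    linarith
  have p3 : (1 - γ) * qf x H ≤ qf x (L * L) := by
    rw [qH]
    nlinarith
  have q3 : vn (H *ᵥ x) ^ 2 ≤ (1 - p * (1 - p) * (1 - γ)) * qf x H := by
    rw [q2]
    nlinarith
  have q4 : qf x H ≤ vn x * vn (H *ᵥ x) := by
    have h2 : qf x H ≤ ‖star x ⬝ᵥ (H *ᵥ x)‖ := Complex.re_le_norm _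
    exact h2.trans (dot_norm_le _ _)
  have q5 := vn_nonneg (H *ᵥ x)
  by_cases hz : vn (H *ᵥ x) = 0
  · rw [hz]
    exact mul_nonneg hμ (vn_nonneg _)
  · have hp : 0 < vn (H *ᵥ x) := lt_of_le_of_ne q5 (Ne.symm hz)
    have : vn (H *ᵥ x) * vn (H *ᵥ x) ≤ ((1 - p * (1 - p) * (1 - γ)) * vn x) * vn (H *ᵥ x) := by
      nlinarith
    exact le_of_mul_le_mul_right this hp

/-- A convex combination of the two projectors is a contraction. -/
lemma conv_le_one (p : ℝ) (hp0 : 0 ≤ p) (hp1 : p ≤ 1) :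
    ‖((1 - p : ℝ) : ℂ) • U + (p : ℂ) • V‖ ≤ 1 := by
  have n1 : ‖U‖ ≤ 1 := by
    have := Matrix.l2_opNorm_conjTranspose_mul_self U
    rw [h.hU, h.hU2] at this
    nlinarith [norm_nonneg U]
  have n2 : ‖V‖ ≤ 1 := by
    have := Matrix.l2_opNorm_conjTranspose_mul_self V
    rw [h.hV, h.hV2] at this
    nlinarith [norm_nonneg V]
  refine (norm_add_le _ _).trans ?_
  rw [norm_smul, norm_smul, Complex.norm_real, Complex.norm_real, Real.norm_of_nonneg (by linarith),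
    Real.norm_of_nonneg hp0]
  nlinarith

end ProjPair

end Vale.Agent.Lib.P368y
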