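import Mathlib

/-!
A weighted selection lemma: a large subset with small row sums.
-/

open scoped BigOperators

namespace Vale.Agent.Lib.P368y

variable {ι : Type*} [DecidableEq ι]

/-- Sum over an inserted element on both coordinates. -/
lemma double_sum_insert {β : Type*} [AddCommMonoid β] (A : Finset ι) (v : ι) (hv : v ∉ A)
    (f : ι → ι → β) :
    ∑ j ∈ insert v A, ∑ k ∈ insert v A, f j k
      = f v v + (∑ k ∈ A, f v k + ∑ j ∈ A, f j v) + ∑ j ∈ A, ∑ k ∈ A, f j k := by
  rw [Finset.sum_insert hv, Finset.sum_insert hv]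
  have : ∀ j, ∑ k ∈ insert v A, f j k = f j v + ∑ k ∈ A, f j k := fun j => Finset.sum_insert hv
  simp only [this, Finset.sum_add_distrib]
  abel

/-- Greedy colouring. -/
lemma exists_colouring (a : ι → ι → ℝ) (ha : ∀ j k, 0 ≤ a j k) (M : ℕ) (hM : 0 < M) (A : Finset ι) :
    ∃ col : ι → Fin M, (M : ℝ) * (∑ j ∈ A, ∑ k ∈ A, if j ≠ k ∧ col j = col k then a j k else 0)
      ≤ ∑ j ∈ A, ∑ k ∈ A, if j ≠ k then a j k else 0 := by
  haveI : Nonempty (Fin M) := ⟨⟨0, hM⟩⟩
  induction A using Finset.induction_on with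
  | empty =>
    exact ⟨fun _ => ⟨0, hM⟩, by simp⟩
  | insert v A hv ih =>
    obtain ⟨col, hcol⟩ := ih
    set b : ι → ℝ := fun k => a v k + a k v with hb
    have hsum : ∑ c : Fin M, (∑ k ∈ A, if c = col k then b k else 0) = ∑ k ∈ A, b k := by
      rw [Finset.sum_comm]
      refine Finset.sum_congr rfl fun k _ => ?_
      simp
    obtain ⟨c, hc⟩ : ∃ c : Fin M, (M : ℝ) * (∑ k ∈ A, if c = col k then b k else 0) ≤ ∑ k ∈ A, b k := by
      by_contra hcon
      push_neg at hcon
      have h1 : ∑ _c : Fin M, ∑ k ∈ A, b k < ∑ c : Fin M, (M : ℝ) * (∑ k ∈ A, if c = col k then b k else 0) :=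
        Finset.sum_lt_sum_of_nonempty Finset.univ_nonempty fun c _ => hcon c
      rw [← Finset.mul_sum, hsum] at h1
      simp at h1
    refine ⟨Function.update col v c, ?_⟩
    have hne : ∀ k ∈ A, k ≠ v := fun k hk h => hv (h ▸ hk)
    have hupd : ∀ k ∈ A, Function.update col v c k = col k := fun k hk =>
      Function.update_of_ne (hne k hk) _ _
    rw [double_sum_insert A v hv, double_sum_insert A v hv]
    have e1 : (∑ j ∈ A, ∑ k ∈ A, if j ≠ k ∧ Function.update col v c j = Function.update col v c k
        then a j k else 0) = ∑ j ∈ A, ∑ k ∈ A, if j ≠ k ∧ col j = col k then a j k else 0 := by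
      refine Finset.sum_congr rfl fun j hj => Finset.sum_congr rfl fun k hk => ?_
      rw [hupd j hj, hupd k hk]
    have e2 : (∑ k ∈ A, if v ≠ k ∧ Function.update col v c v = Function.update col v c k
        then a v k else 0) = ∑ k ∈ A, if c = col k then a v k else 0 := by
      refine Finset.sum_congr rfl fun k hk => ?_
      rw [hupd k hk, Function.update_self]
      simp [(hne k hk).symm]
    have e3 : (∑ j ∈ A, if j ≠ v ∧ Function.update col v c j = Function.update col v c v
        then a j v else 0) = ∑ j ∈ A, if c = col j then a j v else 0 := by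
      refine Finset.sum_congr rfl fun k hk => ?_
      rw [hupd k hk, Function.update_self]
      simp only [ne_eq, hne k hk, not_false_eq_true, true_and]
      by_cases h : c = col k
      · simp [h]
      · rw [if_neg h, if_neg (Ne.symm h)]
    have e4 : (∑ k ∈ A, if v ≠ k then a v k else 0) = ∑ k ∈ A, a v k :=
      Finset.sum_congr rfl fun k hk => by simp [(hne k hk).symm]
    have e5 : (∑ j ∈ A, if j ≠ v then a j v else 0) = ∑ j ∈ A, a j v :=
      Finset.sum_congr rfl fun k hk => by simp [hne k hk]
    have e6 : (∑ k ∈ A, if c = col k then b k else 0)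
        = (∑ k ∈ A, if c = col k then a v k else 0) + ∑ j ∈ A, if c = col j then a j v else 0 := by
      rw [← Finset.sum_add_distrib]
      refine Finset.sum_congr rfl fun k _ => ?_
      by_cases h : c = col k <;> simp [h, hb]
    have e7 : ∑ k ∈ A, b k = ∑ k ∈ A, a v k + ∑ j ∈ A, a j v := by
      rw [← Finset.sum_add_distrib]
    rw [e1, e2, e3, e4, e5]
    simp only [ne_eq, not_true_eq_false, false_and, if_false, zero_add]
    rw [mul_add, mul_add]
    rw [e6, e7, mul_add] at hc
    simp only [ne_eq] at hcol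
    linarith

/-- A large subset with small row sums. -/
theorem select [Fintype ι] (a : ι → ι → ℝ) (ha : ∀ j k, 0 ≤ a j k) (r : ℝ) (hr : 0 ≤ r)
    (hrow : ∀ j, ∑ k ∈ Finset.univ.erase j, a j k ≤ r) (M : ℕ) (hM : 0 < M) :
    ∃ J : Finset ι, Fintype.card ι ≤ 2 * M * J.card ∧
      ∀ j ∈ J, ∑ k ∈ J.erase j, a j k ≤ 2 * r / M := by
  classical
  obtain ⟨col, hcol⟩ := exists_colouring a ha M hM Finset.univ
  haveI : Nonempty (Fin M) := ⟨⟨0, hM⟩⟩
  set R : ι → ℝ := fun j => ∑ k, if j ≠ k ∧ col j = col k then a j k else 0 with hR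
  have hR0 : ∀ j, 0 ≤ R j := fun j => Finset.sum_nonneg fun k _ => by
    split_ifs
    · exact ha j k
    · exact le_rfl
  have hMpos : (0 : ℝ) < M := by exact_mod_cast hM
  have hrowsum : ∀ j, (∑ k, if j ≠ k then a j k else 0) ≤ r := by
    intro j
    refine le_trans (le_of_eq ?_) (hrow j)
    rw [← Finset.sum_erase Finset.univ (a := j) (f := fun k => if j ≠ k then a j k else 0) (by simp)]
    refine Finset.sum_congr rfl fun k hk => ?_
    simp [(Finset.ne_of_mem_erase hk).symm]
  have htot : (M : ℝ) * ∑ j, R j ≤ (Fintype.card ι : ℝ) * r := by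
    refine hcol.trans ?_
    have := Finset.sum_le_sum (s := (Finset.univ : Finset ι)) fun j _ => hrowsum j
    simpa [Finset.card_univ] using this
  set G := Finset.univ.filter fun j => R j ≤ 2 * r / M with hG
  have hGcard : Fintype.card ι ≤ 2 * G.card := by
    by_contra hcon
    push_neg at hcon
    set Gc := Finset.univ.filter fun j => ¬ R j ≤ 2 * r / M with hGc
    have hsplit : G.card + Gc.card = Fintype.card ι := by
      rw [hG, hGc, Finset.card_filter_add_card_filter_not, Finset.card_univ]
    have hne : Gc.Nonempty := by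
      rw [← Finset.card_pos]
      omega
    have h1 : ∑ _j ∈ Gc, (2 * r / M) < ∑ j ∈ Gc, R j :=
      Finset.sum_lt_sum_of_nonempty hne fun j hj => not_le.mp (Finset.mem_filter.mp hj).2
    rw [Finset.sum_const, nsmul_eq_mul] at h1
    have h2 : ∑ j ∈ Gc, R j ≤ ∑ j, R j :=
      Finset.sum_le_sum_of_subset_of_nonneg (Finset.subset_univ _) fun j _ _ => hR0 j
    have h3 : (M : ℝ) * ((Gc.card : ℝ) * (2 * r / M)) < (Fintype.card ι : ℝ) * r := by
      have := mul_lt_mul_of_pos_left (lt_of_lt_of_le h1 h2) hMpos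
      linarith
    have h4 : (M : ℝ) * ((Gc.card : ℝ) * (2 * r / M)) = 2 * (Gc.card : ℝ) * r := by
      field_simp
    rw [h4] at h3
    have h5 : (Fintype.card ι : ℝ) ≤ 2 * (Gc.card : ℝ) := by
      have : Fintype.card ι ≤ 2 * Gc.card := by omega
      exact_mod_cast this
    nlinarith
  -- pigeonhole on the colours
  obtain ⟨c, hc⟩ : ∃ c : Fin M, G.card ≤ M * (G.filter fun j => col j = c).card := by
    by_contra hcon
    push_neg at hcon
    have h1 : ∑ c : Fin M, M * (G.filter fun j => col j = c).card < ∑ _c : Fin M, G.card :=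
      Finset.sum_lt_sum_of_nonempty Finset.univ_nonempty fun c _ => hcon c
    rw [← Finset.mul_sum, ← Finset.card_eq_sum_card_fiberwise (fun j _ => Finset.mem_coe.mpr (Finset.mem_univ (col j)))] at h1
    simp at h1
  refine ⟨G.filter fun j => col j = c, ?_, ?_⟩
  · calc Fintype.card ι ≤ 2 * G.card := hGcard
      _ ≤ 2 * (M * (G.filter fun j => col j = c).card) := by omega
      _ = _ := by ring
  · intro j hj
    obtain ⟨hjG, hjc⟩ := Finset.mem_filter.mp hj
    have hjR : R j ≤ 2 * r / M := (Finset.mem_filter.mp hjG).2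
    refine le_trans ?_ hjR
    have e : ∑ k ∈ (G.filter fun j => col j = c).erase j, a j k
        = ∑ k ∈ (G.filter fun j => col j = c).erase j, if j ≠ k ∧ col j = col k then a j k else 0 := by
      refine Finset.sum_congr rfl fun k hk => ?_
      have hkne := Finset.ne_of_mem_erase hk
      have hkc := (Finset.mem_filter.mp (Finset.mem_of_mem_erase hk)).2
      rw [if_pos ⟨hkne.symm, by rw [hjc, hkc]⟩]
    rw [e]
    exact Finset.sum_le_sum_of_subset_of_nonneg (Finset.subset_univ _) fun k _ _ => by
      split_ifs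
      · exact ha j k
      · exact le_rfl

end Vale.Agent.Lib.P368y
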