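import Vale.Agent.Lib.P368y.FBT
import Vale.Agent.Lib.P368y.Select

/-!
Removing from each block the sites that meet the gates of the other blocks.
-/

open scoped BigOperators Matrix Matrix.Norms.L2Operator

namespace Vale.Agent.Lib.P368y

open Vale.Agent.Lib.P368x

variable {N : ℕ} {ι : Type*} [DecidableEq ι]

lemma ket_neg (v : Bool → ℂ) : ket (-v) = - ket v := by
  ext a b
  cases b <;> simp [ket]

lemma one_sub_sum_le_prod {κ' : Type*} (s : Finset κ') (a : κ' → ℝ) (h0 : ∀ i ∈ s, 0 ≤ a i)
    (h1 : ∀ i ∈ s, a i ≤ 1) : 1 - ∑ i ∈ s, a i ≤ ∏ i ∈ s, (1 - a i) := by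
  classical
  induction s using Finset.induction_on with
  | empty => simp
  | insert i s hi ih =>
    rw [Finset.sum_insert hi, Finset.prod_insert hi]
    have h2 := ih (fun j hj => h0 j (Finset.mem_insert_of_mem hj))
      (fun j hj => h1 j (Finset.mem_insert_of_mem hj))
    have h3 := h0 i (Finset.mem_insert_self _ _)
    have h4 := h1 i (Finset.mem_insert_self _ _)
    have h5 : 0 ≤ ∏ j ∈ s, (1 - a j) := Finset.prod_nonneg fun j hj => by
      have := h1 j (Finset.mem_insert_of_mem hj)
      linarith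
    have h6 : ∏ j ∈ s, (1 - a j) ≤ 1 := Finset.prod_le_one (fun j hj => by
      have := h1 j (Finset.mem_insert_of_mem hj)
      linarith) fun j hj => by
      have := h0 j (Finset.mem_insert_of_mem hj)
      linarith
    nlinarith

namespace BData

variable (B : BData ι N)

/-- Overlap of block `k` on the non-input sites lying in `g`. -/
noncomputable def ck (k : ι) (g : Finset (Fin N)) : ℂ :=
  ∏ s ∈ (B.W k).erase (B.i k) ∩ g, ip (B.ψ k s) (B.e k s)

lemma norm_ck_le (k : ι) (g : Finset (Fin N)) : ‖B.ck k g‖ ≤ 1 :=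
  norm_prod_ip_le _ _ _ (fun s _ => B.hψ k s) (fun s _ => B.he k s)

/-- The sign-changed input states. -/
noncomputable def αf (α : Bool → Bool → ℂ) : Bool → Bool → ℂ := fun b => if b then α true else - α false

omit [DecidableEq ι] in
lemma ON_αf {α : Bool → Bool → ℂ} (h : ON α) : ON (αf α) := by
  have hz : Uni (-pauliZ) := by
    constructor
    · rw [Matrix.conjTranspose_neg, pauliZ_herm, neg_mul_neg, pauliZ_sq]
    · rw [Matrix.conjTranspose_neg, pauliZ_herm, neg_mul_neg, pauliZ_sq]
  have e : amat (αf α) = amat α * (-pauliZ) := by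
    ext c b
    cases b <;> simp [amat, αf, Matrix.mul_apply, Fintype.sum_bool, pauliZ]
  show Uni (amat (αf α))
  rw [e]
  exact Uni.mul h hz

variable (S : ι → Finset (Fin N)) (fresh : ι → Prop) [DecidablePred fresh]

/-- The sites removed from a block. -/
noncomputable def Mk (k : ι) : Finset (Fin N) := by
  classical
  exact ((B.W k).erase (B.i k)).filter fun s => ∃ l, l ≠ k ∧ s ∈ S l

lemma mem_Mk {k : ι} {s : Fin N} :
    s ∈ B.Mk S k ↔ s ∈ B.W k ∧ s ≠ B.i k ∧ ∃ l, l ≠ k ∧ s ∈ S l := by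
  classical
  have : B.Mk S k = ((B.W k).erase (B.i k)).filter fun s => ∃ l, l ≠ k ∧ s ∈ S l := by
    unfold Mk
    congr
  rw [this, Finset.mem_filter, Finset.mem_erase]
  tauto

lemma i_notMem_Mk (k : ι) : B.i k ∉ B.Mk S k := fun h => ((B.mem_Mk S).mp h).2.1 rfl

lemma Mk_sub (k : ι) : B.Mk S k ⊆ B.W k := fun _ h => ((B.mem_Mk S).mp h).1

/-- The shrunken family. -/
noncomputable def shrink : BData ι N where
  W := fun k => if fresh k then {B.i k} else B.W k \ B.Mk S k
  i := B.i
  ψ := fun k => if fresh k then Function.update (B.ψ k) (B.i k) (B.α k false) else B.ψ k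
  e := B.e
  α := fun k => if fresh k then αf (B.α k) else B.α k
  hi := by
    intro k
    by_cases h : fresh k
    · simp [h]
    · simp only [h, if_false]
      exact Finset.mem_sdiff.mpr ⟨B.hi k, B.i_notMem_Mk S k⟩
  disj := by
    intro j k hjk
    have hsub : ∀ l, (if fresh l then {B.i l} else B.W l \ B.Mk S l) ⊆ B.W l := by
      intro l
      by_cases h : fresh l
      · simp only [h, if_true]
        exact Finset.singleton_subset_iff.mpr (B.hi l)
      · simp only [h, if_false]
        exact Finset.sdiff_subset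
    exact Finset.disjoint_of_subset_left (hsub j)
      (Finset.disjoint_of_subset_right (hsub k) (B.disj j k hjk))
  hψ := by
    intro k s
    by_cases h : fresh k
    · simp only [h, if_true]
      by_cases hs : s = B.i k
      · subst hs
        simpa using (B.hα k).unit false
      · simpa [Function.update_of_ne hs] using B.hψ k s
    · simpa [h] using B.hψ k s
  he := B.he
  hα := by
    intro k
    by_cases h : fresh k
    · simp only [h, if_true]
      exact ON_αf (B.hα k)
    · simp only [h, if_false]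
      exact B.hα k

lemma shrink_W_sub (k : ι) : (B.shrink S fresh).W k ⊆ B.W k := by
  show (if fresh k then {B.i k} else B.W k \ B.Mk S k) ⊆ B.W k
  by_cases h : fresh k
  · simp only [h, if_true]
    exact Finset.singleton_subset_iff.mpr (B.hi k)
  · simp only [h, if_false]
    exact Finset.sdiff_subset

/-- The operator attached to a removal. -/
noncomputable def Ok (k : ι) : Op N :=
  if fresh k then Kt ((B.W k).erase (B.i k)) (B.e k) else Kt (B.Mk S k) (B.e k)

lemma Ok_mem (k : ι) : B.Ok S fresh k ∈ SA (B.W k) := by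
  unfold Ok
  split_ifs
  · exact SA_mono (Finset.erase_subset _ _) (Kt_mem_SA _ _)
  · exact SA_mono (B.Mk_sub S k) (Kt_mem_SA _ _)

lemma Ok_norm (k : ι) : ‖B.Ok S fresh k‖ ≤ 1 := by
  unfold Ok
  split_ifs
  · exact norm_Kt_le _ _ fun s _ => B.he k s
  · exact norm_Kt_le _ _ fun s _ => B.he k s

lemma norm_f_le (k : ι) (b : Bool) : ‖B.f k b‖ ≤ 1 := norm_ip_le (B.hψ k _) ((B.hα k).unit b)

lemma norm_c_le (k : ι) : ‖B.c k‖ ≤ 1 :=
  norm_prod_ip_le _ _ _ (fun s _ => B.hψ k s) (fun s _ => B.he k s)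

/-- The pair of a fresh block. -/
lemma shrink_K_fresh {k : ι} (h : fresh k) (b : Bool) :
    (B.shrink S fresh).K k b = site (B.i k) (ket (B.α k b)) := by
  have hW : (B.shrink S fresh).W k = {B.i k} := by
    show (if fresh k then {B.i k} else B.W k \ B.Mk S k) = _
    simp [h]
  have hα' : (B.shrink S fresh).α k = αf (B.α k) := by
    show (if fresh k then αf (B.α k) else B.α k) = _
    simp [h]
  have hψ' : (B.shrink S fresh).ψ k = Function.update (B.ψ k) (B.i k) (B.α k false) := by
    show (if fresh k then Function.update (B.ψ k) (B.i k) (B.α k false) else B.ψ k) = _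
    simp [h]
  have hi' : (B.shrink S fresh).i k = B.i k := rfl
  have hc : (B.shrink S fresh).c k = 1 := by
    rw [c, hW, hi']
    simp
  have hf : (B.shrink S fresh).f k b = if b then 0 else -1 := by
    rw [f, hψ', hα', hi', Function.update_self]
    cases b
    · simp only [αf, Bool.false_eq_true, if_false]
      have h1 := ip_self_unit ((B.hα k).unit false)
      simp only [ip, Pi.neg_apply, mul_neg] at h1 ⊢
      rw [← neg_add, h1]
    · simp only [αf, if_true]
      have := (B.hα k).cols false true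
      simpa using this
  rw [K, hW, Kt_singleton, Kt_singleton, hψ', z, hf, hc]
  have heb : (B.shrink S fresh).eb k b (B.i k) = αf (B.α k) b := by
    rw [eb, hi', Function.update_self, hα']
  rw [heb, Function.update_self]
  cases b
  · have e : site (B.i k) (ket (αf (B.α k) false)) = (-1 : ℂ) • site (B.i k) (ket (B.α k false)) := by
      rw [← site_smul]
      congr 1
      simp only [αf, Bool.false_eq_true, if_false, ket_neg]
      simp
    rw [e]
    simp only [Bool.false_eq_true, if_false]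
    module
  · simp [αf]

/-- The fresh estimate. -/
lemma close_fresh {k : ι} (h : fresh k) (b : Bool) :
    ‖B.K k b - (B.shrink S fresh).K k b * B.Ok S fresh k‖ ≤ 2 * ‖B.c k‖ := by
  have e1 : (B.shrink S fresh).K k b * B.Ok S fresh k = Kt (B.W k) (B.eb k b) := by
    rw [B.shrink_K_fresh S fresh h, Ok, if_pos h, Kt_erase (B.hi k)]
    have e2 : B.eb k b (B.i k) = B.α k b := by simp [eb]
    rw [e2]
    congr 1
    apply Kt_congr
    intro s hs
    rw [eb, Function.update_of_ne (Finset.ne_of_mem_erase hs)]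
  rw [e1, K, sub_sub_cancel_left, norm_neg, norm_smul, z, norm_mul, norm_mul]
  have h1 := B.norm_f_le k b
  have h2 : ‖Kt (B.W k) (B.ψ k)‖ ≤ 1 := norm_Kt_le _ _ fun s _ => B.hψ k s
  have h3 := norm_nonneg (B.c k)
  have h4 : ‖(2 : ℂ)‖ = 2 := by norm_num
  rw [h4]
  have h5 := norm_nonneg (B.f k b)
  have h6 := norm_nonneg (Kt (B.W k) (B.ψ k))
  calc 2 * ‖B.f k b‖ * ‖B.c k‖ * ‖Kt (B.W k) (B.ψ k)‖ ≤ 2 * 1 * ‖B.c k‖ * 1 := by gcongr
    _ = _ := by ring

/-- The estimate for a removal. -/
lemma close_removal {k : ι} (h : ¬ fresh k) (b : Bool) :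
    ‖B.K k b - (B.shrink S fresh).K k b * B.Ok S fresh k‖ ^ 2
      ≤ 4 * (1 - ‖∏ s ∈ B.Mk S k, ip (B.ψ k s) (B.e k s)‖ ^ 2) := by
  set Mm := B.Mk S k with hMm
  set W' := B.W k \ Mm with hW'
  set cM := ∏ s ∈ Mm, ip (B.ψ k s) (B.e k s) with hcM
  have hWW : (B.shrink S fresh).W k = W' := by
    show (if fresh k then {B.i k} else B.W k \ B.Mk S k) = _
    simp [h, hW', hMm]
  have hψ' : (B.shrink S fresh).ψ k = B.ψ k := by
    show (if fresh k then Function.update (B.ψ k) (B.i k) (B.α k false) else B.ψ k) = _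
    simp [h]
  have hα' : (B.shrink S fresh).α k = B.α k := by
    show (if fresh k then αf (B.α k) else B.α k) = _
    simp [h]
  have hi' : (B.shrink S fresh).i k = B.i k := rfl
  have heb' : (B.shrink S fresh).eb k b = B.eb k b := by
    rw [eb, hα', hi']
    rfl
  have hf' : (B.shrink S fresh).f k b = B.f k b := by
    rw [f, hψ', hα', hi']
    rfl
  have hiM : B.i k ∉ Mm := B.i_notMem_Mk S k
  have hMsub : Mm ⊆ B.W k := B.Mk_sub S k
  have hW : B.W k = W' ∪ Mm := (Finset.sdiff_union_of_subset hMsub).symm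
  have hd : Disjoint W' Mm := Finset.sdiff_disjoint
  have hc' : B.c k = (B.shrink S fresh).c k * cM := by
    have he' : (B.shrink S fresh).e = B.e := rfl
    rw [c, c, hWW, hψ', hi', hcM, he', ← Finset.prod_union]
    · congr 1
      ext s
      simp only [Finset.mem_union, Finset.mem_erase, hW', Finset.mem_sdiff]
      constructor
      · rintro ⟨h1, h2⟩
        by_cases hs : s ∈ Mm
        · exact Or.inr hs
        · exact Or.inl ⟨h1, h2, hs⟩
      · rintro (⟨h1, h2, _⟩ | h3)
        · exact ⟨h1, h2⟩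
        · exact ⟨fun h4 => hiM (h4 ▸ h3), hMsub h3⟩
    · exact Finset.disjoint_of_subset_left (Finset.erase_subset _ _) hd
  have hz' : B.z k b = (B.shrink S fresh).z k b * cM := by
    rw [z, z, hc', hf']
    ring
  have hKeb : Kt Mm (B.eb k b) = Kt Mm (B.e k) := by
    apply Kt_congr
    intro s hs
    have : s ≠ B.i k := fun h4 => hiM (h4 ▸ hs)
    rw [eb, Function.update_of_ne this]
  have hdiff : B.K k b - (B.shrink S fresh).K k b * B.Ok S fresh k
      = (B.shrink S fresh).z k b • (Kt W' (B.ψ k) * (Kt Mm (B.e k) - cM • Kt Mm (B.ψ k))) := by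
    rw [Ok, if_neg h, ← hMm, K, K, hWW, hψ', heb', hz', hW, Kt_union _ _ hd, Kt_union _ _ hd, hKeb]
    simp only [sub_mul, mul_sub, smul_mul_assoc, mul_smul_comm, smul_smul, smul_sub]
    abel
  rw [hdiff, norm_smul, mul_pow]
  have hp := Kt_proj_norm Mm (B.e k) (B.ψ k) (fun s _ => B.he k s) (fun s _ => B.hψ k s)
  rw [← hcM] at hp
  have hK : ‖Kt W' (B.ψ k)‖ ≤ 1 := norm_Kt_le _ _ fun s _ => B.hψ k s
  have h1 : ‖Kt W' (B.ψ k) * (Kt Mm (B.e k) - cM • Kt Mm (B.ψ k))‖ ^ 2
      ≤ 1 - ‖cM‖ ^ 2 := (pow_le_pow_left₀ (norm_nonneg _) (mul_norm_aux hK) 2).trans hp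
  have hz2 : ‖(B.shrink S fresh).z k b‖ ^ 2 ≤ 4 := by
    have h2 : ‖(B.shrink S fresh).z k b‖ ≤ 2 := by
      rw [z, norm_mul, norm_mul]
      have h3 := (B.shrink S fresh).norm_f_le k b
      have h4 := (B.shrink S fresh).norm_c_le k
      have h5 : ‖(2 : ℂ)‖ = 2 := by norm_num
      rw [h5]
      have h6 := norm_nonneg ((B.shrink S fresh).f k b)
      have h7 := norm_nonneg ((B.shrink S fresh).c k)
      nlinarith
    nlinarith [norm_nonneg ((B.shrink S fresh).z k b)]
  have h0 := sq_nonneg ‖Kt W' (B.ψ k) * (Kt Mm (B.e k) - cM • Kt Mm (B.ψ k))‖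
  have h2 : 0 ≤ 1 - ‖cM‖ ^ 2 := h0.trans h1
  calc _ ≤ 4 * ‖Kt W' (B.ψ k) * (Kt Mm (B.e k) - cM • Kt Mm (B.ψ k))‖ ^ 2 := by gcongr
    _ ≤ _ := by gcongr

/-- The overlap on the removed sites is controlled by the overlaps on the other gates. -/
lemma cM_bound (hS : ∀ j k, j ≠ k → Disjoint (S j) (S k)) [Fintype ι] (k : ι) :
    1 - ∑ l ∈ Finset.univ.erase k, (1 - ‖B.ck k (S l)‖ ^ 2)
      ≤ ‖∏ s ∈ B.Mk S k, ip (B.ψ k s) (B.e k s)‖ ^ 2 := by
  have hM : B.Mk S k = (Finset.univ.erase k).biUnion fun l => (B.W k).erase (B.i k) ∩ S l := by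
    ext s
    simp only [B.mem_Mk S, Finset.mem_biUnion, Finset.mem_erase, Finset.mem_univ, and_true,
      Finset.mem_inter]
    constructor
    · rintro ⟨h1, h2, l, hl, hs⟩
      exact ⟨l, hl, ⟨h2, h1⟩, hs⟩
    · rintro ⟨l, hl, ⟨h2, h1⟩, hs⟩
      exact ⟨h1, h2, l, hl, hs⟩
  have hprod : ∏ s ∈ B.Mk S k, ip (B.ψ k s) (B.e k s) = ∏ l ∈ Finset.univ.erase k, B.ck k (S l) := by
    rw [hM, Finset.prod_biUnion]
    · rfl
    · intro a _ b _ hab
      simp only [Function.onFun]
      exact Finset.disjoint_of_subset_left Finset.inter_subset_right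
        (Finset.disjoint_of_subset_right Finset.inter_subset_right (hS a b hab))
  rw [hprod, norm_prod, ← Finset.prod_pow]
  have := one_sub_sum_le_prod (Finset.univ.erase k) (fun l => 1 - ‖B.ck k (S l)‖ ^ 2)
    (fun l _ => by
      have := pow_le_one₀ (n := 2) (norm_nonneg _) (B.norm_ck_le k (S l))
      linarith)
    (fun l _ => by
      have := sq_nonneg ‖B.ck k (S l)‖
      linarith)
  simpa using this

end BData

end Vale.Agent.Lib.P368y
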