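import Vale.Agent.Lib.P368y.Near4

/-!
Replacing a family of pairs by a nearby family.
-/

open scoped BigOperators Matrix Matrix.Norms.L2Operator

namespace Vale.Agent.Lib.P368y

open Vale.Agent.Lib.P368x

variable {N : ℕ} {ι : Type*} [DecidableEq ι]

lemma Eb_right_mul (K : Bool → Op N) (O A : Op N) :
    Eb (fun b => K b * O) A = Oᴴ * (Eb K A) * O := by
  simp only [Eb_apply, Matrix.conjTranspose_mul, mul_smul_comm, smul_mul_assoc, mul_sub, sub_mul]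
  congr 2 <;> simp only [mul_assoc]

/-- The surgery induction. -/
theorem surgery_aux (F F' : Fam ι N) (O : ι → Op N) (hFn : F.Nrm) (hF'n : F'.Nrm)
    (hsub : ∀ k, F'.W k ⊆ F.W k) (hO : ∀ k, O k ∈ SA (F.W k)) (hOn : ∀ k, ‖O k‖ ≤ 1) (T : Op N)
    (ν ε : ℝ) (hν : 0 ≤ ν) (hε : 0 ≤ ε) (J : Finset ι)
    (hclose : ∀ k ∈ J, ∀ b, ‖F.K k b - F'.K k b * O k‖ ≤ ε)
    (hT : ∀ J' ⊆ J, ‖F'.EJ J' T‖ ≤ ν ^ J'.card) (J₁ : Finset ι) :
    ∀ J₂ : Finset ι, Disjoint J₁ J₂ → J₁ ∪ J₂ ⊆ J →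
      ‖F.EJ J₁ (F'.EJ J₂ T)‖ ≤ (ν + 2 * ε) ^ J₁.card * ν ^ J₂.card := by
  induction J₁ using Finset.induction_on with
  | empty =>
    intro J₂ _ h
    simpa using hT J₂ (by simpa using h)
  | insert k J₁ hk ih =>
    intro J₂ hd hJ
    have hk₂ : k ∉ J₂ := fun h => Finset.disjoint_left.mp hd (Finset.mem_insert_self _ _) h
    have hdJ : Disjoint J₁ J₂ := Finset.disjoint_of_subset_left (Finset.subset_insert _ _) hd
    have hkJ : k ∈ J := hJ (Finset.mem_union_left _ (Finset.mem_insert_self _ _))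
    have hJ1 : J₁ ∪ J₂ ⊆ J := fun x hx => hJ (by
      simp only [Finset.mem_union, Finset.mem_insert] at hx ⊢
      tauto)
    have hJ2 : J₁ ∪ insert k J₂ ⊆ J := fun x hx => hJ (by
      simp only [Finset.mem_union, Finset.mem_insert] at hx ⊢
      tauto)
    have hd2 : Disjoint J₁ (insert k J₂) := by
      rw [Finset.disjoint_insert_right]
      exact ⟨hk, hdJ⟩
    have h1 := ih J₂ hdJ hJ1
    have h2 := ih (insert k J₂) hd2 hJ2
    rw [Finset.card_insert_of_notMem hk₂] at h2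
    set Y := F'.EJ J₂ T with hY
    set K' : Bool → Op N := fun b => F'.K k b * O k with hK'
    have hK'mem : ∀ b, K' b ∈ SA (F.W k) := fun b =>
      mul_mem (SA_mono (hsub k) (F'.mem k b)) (hO k)
    have hK'n : ∀ b, ‖K' b‖ ≤ 1 := fun b => (mul_norm_aux' (hOn k)).trans (hF'n k b)
    have hdis : ∀ j ∈ J₁, Disjoint (F.W k) (F.W j) := fun j hj =>
      F.disj k j (fun h => hk (h ▸ hj))
    have c1 : ∀ Z, F.EJ J₁ (Eb (F.K k) Z) = Eb (F.K k) (F.EJ J₁ Z) := fun Z =>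
      (LinearMap.congr_fun (F.Eb_EJ_commute (F.mem k) J₁ hdis).eq Z).symm
    have c2 : ∀ Z, F.EJ J₁ (Eb K' Z) = Eb K' (F.EJ J₁ Z) := fun Z =>
      (LinearMap.congr_fun (F.Eb_EJ_commute hK'mem J₁ hdis).eq Z).symm
    have hOoff : F.Off J₁ (O k) := F.off_of_SA hdis (hO k)
    have hOoff' : F.Off J₁ (O k)ᴴ := F.off_of_SA hdis (SA_adj (hO k))
    have e : F.EJ (insert k J₁) Y = F.EJ J₁ (Eb K' Y) + (Eb (F.K k) (F.EJ J₁ Y) - Eb K' (F.EJ J₁ Y)) := by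
      rw [Fam.EJ_insert_apply' F hk, c1, c2]
      abel
    have t1 : ‖F.EJ J₁ (Eb K' Y)‖ ≤ (ν + 2 * ε) ^ J₁.card * ν ^ (J₂.card + 1) := by
      have e1 : Eb K' Y = (O k)ᴴ * (F'.EJ (insert k J₂) T) * O k := by
        rw [hK', Eb_right_mul, Fam.EJ_insert_apply F' hk₂]
      rw [e1, Fam.EJ_mul_right _ hOoff, Fam.EJ_mul_left _ hOoff']
      refine (mul3_norm_le _ ?_ (hOn k)).trans h2
      rw [norm_adj]
      exact hOn k
    have t2 : ‖Eb (F.K k) (F.EJ J₁ Y) - Eb K' (F.EJ J₁ Y)‖ ≤ 2 * ε * ‖F.EJ J₁ Y‖ :=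
      norm_Eb_sub_le _ _ (hFn k) hK'n ε (hclose k hkJ) _
    rw [e, Finset.card_insert_of_notMem hk, pow_succ]
    refine (norm_add_le _ _).trans ?_
    have h3 : 2 * ε * ‖F.EJ J₁ Y‖ ≤ 2 * ε * ((ν + 2 * ε) ^ J₁.card * ν ^ J₂.card) :=
      mul_le_mul_of_nonneg_left h1 (by positivity)
    have e2 : (ν + 2 * ε) ^ J₁.card * (ν + 2 * ε) * ν ^ J₂.card
        = (ν + 2 * ε) ^ J₁.card * ν ^ (J₂.card + 1) + 2 * ε * ((ν + 2 * ε) ^ J₁.card * ν ^ J₂.card) := by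
      rw [pow_succ]; ring
    rw [e2]
    linarith

/-- The surgery bound. -/
theorem surgery (F F' : Fam ι N) (O : ι → Op N) (hFn : F.Nrm) (hF'n : F'.Nrm)
    (hsub : ∀ k, F'.W k ⊆ F.W k) (hO : ∀ k, O k ∈ SA (F.W k)) (hOn : ∀ k, ‖O k‖ ≤ 1) (T : Op N)
    (ν ε : ℝ) (hν : 0 ≤ ν) (hε : 0 ≤ ε) (J : Finset ι)
    (hclose : ∀ k ∈ J, ∀ b, ‖F.K k b - F'.K k b * O k‖ ≤ ε)
    (hT : ∀ J' ⊆ J, ‖F'.EJ J' T‖ ≤ ν ^ J'.card) :
    ‖F.EJ J T‖ ≤ (ν + 2 * ε) ^ J.card := by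
  have := surgery_aux F F' O hFn hF'n hsub hO hOn T ν ε hν hε J hclose hT J ∅
    (Finset.disjoint_empty_right _) (by simp)
  simpa using this

/-- Distance between a product ket and its projection on another. -/
lemma Kt_proj_norm (S : Finset (Fin N)) (u v : Fin N → Bool → ℂ) (hu : ∀ s ∈ S, nsq (u s) = 1)
    (hv : ∀ s ∈ S, nsq (v s) = 1) :
    ‖Kt S u - (∏ s ∈ S, ip (v s) (u s)) • Kt S v‖ ^ 2 ≤ 1 - ‖∏ s ∈ S, ip (v s) (u s)‖ ^ 2 := by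
  set c := ∏ s ∈ S, ip (v s) (u s) with hc
  have h := norm_comb_sq_le S u v hu hv 1 (-c)
  have e1 : (1 : ℂ) • Kt S u + (-c) • Kt S v = Kt S u - c • Kt S v := by
    rw [one_smul, neg_smul, sub_eq_add_neg]
  rw [e1] at h
  have e2 : ∏ s ∈ S, ip (u s) (v s) = star c := (star_prod_ip _ _ _).symm
  rw [e2] at h
  have e3 : (star (1 : ℂ) * (-c) * star c).re = - ‖c‖ ^ 2 := by
    have : c * star c = ((‖c‖ ^ 2 : ℝ) : ℂ) := by
      simp [Complex.mul_conj']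
    have e4 : star (1 : ℂ) * (-c) * star c = - (c * star c) := by
      simp
    rw [e4, this, Complex.neg_re, Complex.ofReal_re]
  rw [e3, norm_neg, norm_one] at h
  linarith

end Vale.Agent.Lib.P368y
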