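import Vale.Agent.Lib.P368y.Bridge5

/-!
Selecting inputs: the bound for the slice of a projector after two layers.
-/

open scoped BigOperators Matrix Matrix.Norms.L2Operator

namespace Vale.Agent.Lib.P368y

open Vale.Agent.Lib.P368x

variable {N : ℕ}

/-- A large subset on which a function with small fibers is injective. -/
lemma select_section {α β : Type*} [DecidableEq α] [DecidableEq β] (I : Finset α) (f : α → β) (K : ℕ)
    (hK : ∀ a ∈ I, (I.filter fun x => f x = f a).card ≤ K) :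
    ∃ I₁ : Finset α, I₁ ⊆ I ∧ Set.InjOn f I₁ ∧ I.card ≤ K * I₁.card := by
  have h1 : I.card ≤ K * (I.image f).card := by
    apply Finset.card_le_mul_card_image
    intro b hb
    obtain ⟨a, ha, rfl⟩ := Finset.mem_image.mp hb
    exact hK a ha
  have hs : Set.SurjOn f (I : Set α) ((I.image f : Finset β) : Set β) := by
    intro b hb
    have hb' : b ∈ I.image f := by exact_mod_cast hb
    obtain ⟨a, ha, rfl⟩ := Finset.mem_image.mp hb'
    exact ⟨a, ha, rfl⟩
  obtain ⟨u, hu1, hu2, hu3⟩ := Finset.exists_subset_injOn_image_eq_of_surjOn (I : Set α) (I.image f) hs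
  refine ⟨u, by exact_mod_cast hu1, hu2, ?_⟩
  rw [← hu3, Finset.card_image_of_injOn hu2] at h1
  exact h1

/-- The reduction to a block family over a selection of inputs, one in each gate. -/
lemma final_reduce (gs : List (RGate N)) (hgs : gs.Pairwise fun g h => Disjoint g.S h.S)
    (w : Fin N → M2) (hw : ∀ s, Uni (w s)) (T : Op N) (I I₂ : Finset (Fin N)) (h : I₂ ⊆ I)
    (t : Fin N → RGate N) (ht1 : ∀ i ∈ I₂, t i ∈ gs) (ht2 : ∀ i ∈ I₂, i ∈ (t i).S)
    (hone : ∀ i ∈ I₂, ∀ s ∈ (t i).S, s ∈ I₂ → s = i) (c : ℝ)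
    (hc : ∀ B : BData (↥I₂) N, (∀ k, B.i k = k.val) → ‖B.fam.EJ Finset.univ T‖ ≤ c) :
    ‖E I ((lop gs * tensor w)ᴴ * T * (lop gs * tensor w)) (zeroStr N) (zeroStr N)‖ ≤ c := by
  classical
  refine entry_reduce I I₂ h _ c fun w' hw' => ?_
  have hw'0 : ∀ k : ↥I₂, w' k.val = false := by
    intro k
    apply mem_SI.mp hw'
    simp [k.2]
  have himg : (Finset.univ : Finset ↥I₂).image Subtype.val = I₂ := by
    ext x
    simp
  obtain ⟨B, hB1, hB2⟩ := bridge gs hgs w hw (fun k : ↥I₂ => k.val) Subtype.val_injective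
    (fun k => t k.val) (fun k => ht1 _ k.2) (fun k => ht2 _ k.2)
    (fun k s hs hs2 => by
      rw [show (Finset.univ : Finset ↥I₂).image (fun k => k.val) = I₂ from himg] at hs2
      exact hone _ k.2 s hs hs2) T w' hw'0
  rw [show (Finset.univ : Finset ↥I₂).image (fun k => k.val) = I₂ from himg] at hB2
  exact hB2.trans (hc B hB1)

lemma pow34_le {a b : ℕ} (h : a ≤ b) : (3 / 4 : ℝ) ^ b ≤ (3 / 4 : ℝ) ^ a :=
  pow_le_pow_of_le_one (by norm_num) (by norm_num) h

lemma νc_pow_nonneg (m : ℕ) : 0 ≤ νc ^ m := pow_nonneg νc_nonneg m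

/-- Inputs in the same gate of the second layer: delete that gate. -/
lemma case_one_gate {I₂ : Finset (Fin N)} (B : BData (↥I₂) N) (hB : ∀ k, B.i k = k.val)
    (ds : List (Finset (Fin N))) (hds : ds.Pairwise Disjoint) (X : Fin N → M2) (hX : AllOK X)
    (d : Finset (Fin N)) (hd : d ∈ ds) (hI₂ : I₂ ⊆ d) (K m : ℕ) (hK : K ≤ I₂.card)
    (hm : 2 * M₀ * m ≤ K) :
    ‖B.fam.EJ Finset.univ (TT ds X)‖ ≤ νc ^ m + 4 * (3 / 4 : ℝ) ^ K := by
  have hp : ds.Perm (d :: ds.erase d) := List.perm_cons_erase hd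
  have hds' : (d :: ds.erase d).Pairwise Disjoint := hp.pairwise hds (fun h => h.symm)
  obtain ⟨h1, h2⟩ := List.pairwise_cons.mp hds'
  rw [TT_perm hp]
  have hcard : Fintype.card ↥I₂ = I₂.card := Fintype.card_coe I₂
  have hmem : ∀ k ∈ (Finset.univ : Finset ↥I₂), B.i k ∈ d := fun k _ => by
    rw [hB]; exact hI₂ k.2
  refine (gate_delete B Finset.univ d hmem _ X hX).trans ?_
  have hc : ‖B.fam.EJ Finset.univ (TT (ds.erase d) X)‖ ≤ νc ^ m := by
    refine core_one B _ (ds.erase d) X h2 hX ?_ rfl m (by rw [hcard]; exact hm.trans hK)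
    intro g hg j k hj _
    exact absurd hj (Finset.disjoint_left.mp (h1 g hg) (hmem j (Finset.mem_univ _)))
  have hc2 : (3 / 4 : ℝ) ^ (Finset.univ : Finset ↥I₂).card ≤ (3 / 4 : ℝ) ^ K := by
    rw [Finset.card_univ, hcard]
    exact pow34_le hK
  linarith

/-- The second tag of an input: its gate of the second layer, or itself. -/
noncomputable def tag₂ (ds : List (Finset (Fin N))) (i : Fin N) : Finset (Fin N) :=
  if h : ∃ d ∈ ds, i ∈ d then Classical.choose h else {i}

lemma mem_tag₂ (ds : List (Finset (Fin N))) (i : Fin N) : i ∈ tag₂ ds i := by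
  rw [tag₂]
  split_ifs with h
  · exact (Classical.choose_spec h).2
  · exact Finset.mem_singleton_self _

lemma tag₂_mem (ds : List (Finset (Fin N))) (i : Fin N) (h : ∃ d ∈ ds, i ∈ d) : tag₂ ds i ∈ ds := by
  rw [tag₂, dif_pos h]
  exact (Classical.choose_spec h).1

lemma tag₂_not (ds : List (Finset (Fin N))) (i : Fin N) (h : ¬ ∃ d ∈ ds, i ∈ d) : tag₂ ds i = {i} := by
  rw [tag₂, dif_neg h]

lemma tag₂_eq (ds : List (Finset (Fin N))) (hds : ds.Pairwise Disjoint) (i : Fin N) (d : Finset (Fin N))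
    (hd : d ∈ ds) (hi : i ∈ d) : tag₂ ds i = d := by
  by_contra hne
  haveI : Std.Symm (Disjoint : Finset (Fin N) → Finset (Fin N) → Prop) := ⟨fun _ _ h => h.symm⟩
  have hdd := hds.forall (tag₂_mem ds i ⟨d, hd, hi⟩) hd hne
  exact Finset.disjoint_left.mp hdd (mem_tag₂ ds i) hi

/-- Everything gated in the first layer. -/
theorem all_gated (K m : ℕ) (hK : 1 ≤ K) (hm : 2 * M₀ * m ≤ K) (gs : List (RGate N))
    (hgs : gs.Pairwise fun g h => Disjoint g.S h.S) (w : Fin N → M2) (hw : ∀ s, Uni (w s))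
    (ds : List (Finset (Fin N))) (hds : ds.Pairwise Disjoint) (X : Fin N → M2) (hX : AllOK X)
    (I : Finset (Fin N)) (hI : K * K * K ≤ I.card) (hsmall : ∀ g ∈ gs, (g.S ∩ I).card ≤ K)
    (hall : ∀ i ∈ I, ∃ g ∈ gs, i ∈ g.S) :
    ‖E I ((lop gs * tensor w)ᴴ * TT ds X * (lop gs * tensor w)) (zeroStr N) (zeroStr N)‖
      ≤ νc ^ m + 4 * (3 / 4 : ℝ) ^ K := by
  classical
  haveI : Nonempty (RGate N) := ⟨⟨∅, fun _ => 1, by simp, fun _ _ => rfl⟩⟩
  choose! t ht1 ht2 using hall
  haveI hsym : Std.Symm (fun g h : RGate N => Disjoint g.S h.S) := ⟨fun _ _ h => h.symm⟩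
  -- first selection
  obtain ⟨I₁, hI₁, hinj₁, hc₁⟩ := select_section I (fun i => (t i).S) K (by
    intro a ha
    refine (Finset.card_le_card ?_).trans (hsmall (t a) (ht1 a ha))
    intro x hx
    obtain ⟨hx1, hx2⟩ := Finset.mem_filter.mp hx
    refine Finset.mem_inter.mpr ⟨?_, hx1⟩
    have := ht2 x hx1
    rwa [hx2] at this)
  -- one input in each gate of the selection
  have hone₁ : ∀ I₂ : Finset (Fin N), I₂ ⊆ I₁ → ∀ i ∈ I₂, ∀ s ∈ (t i).S, s ∈ I₂ → s = i := by
    intro I₂ hI₂ i hi s hs hs2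
    have hiI : i ∈ I := hI₁ (hI₂ hi)
    have hsI : s ∈ I := hI₁ (hI₂ hs2)
    by_contra hne
    have hne' : (t s).S ≠ (t i).S := fun e => hne (hinj₁ (hI₂ hs2) (hI₂ hi) e)
    have hne2 : t s ≠ t i := fun e => hne' (by rw [e])
    have hdj := hgs.forall (ht1 s hsI) (ht1 i hiI) hne2
    exact Finset.disjoint_left.mp hdj (ht2 s hsI) hs
  have hfin : ∀ I₂ : Finset (Fin N), I₂ ⊆ I₁ →
      (∀ B : BData (↥I₂) N, (∀ k, B.i k = k.val) →
        ‖B.fam.EJ Finset.univ (TT ds X)‖ ≤ νc ^ m + 4 * (3 / 4 : ℝ) ^ K) →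
      ‖E I ((lop gs * tensor w)ᴴ * TT ds X * (lop gs * tensor w)) (zeroStr N) (zeroStr N)‖
        ≤ νc ^ m + 4 * (3 / 4 : ℝ) ^ K := by
    intro I₂ hI₂ hB
    exact final_reduce gs hgs w hw _ I I₂ (hI₂.trans hI₁) t (fun i hi => ht1 i (hI₁ (hI₂ hi)))
      (fun i hi => ht2 i (hI₁ (hI₂ hi))) (hone₁ I₂ hI₂) _ hB
  by_cases hcase : ∃ d ∈ ds, K ≤ (d ∩ I₁).card
  · obtain ⟨d, hd, hdK⟩ := hcase
    refine hfin (d ∩ I₁) Finset.inter_subset_right fun B hB => ?_
    exact case_one_gate B hB ds hds X hX d hd Finset.inter_subset_left K m hdK hm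
  · push Not at hcase
    -- second selection
    obtain ⟨I₂, hI₂, hinj₂, hc₂⟩ := select_section I₁ (tag₂ ds) K (by
      intro a ha
      by_cases h : ∃ d ∈ ds, a ∈ d
      · have hmem := tag₂_mem ds a h
        refine (Finset.card_le_card ?_).trans (hcase _ hmem).le
        intro x hx
        obtain ⟨hx1, hx2⟩ := Finset.mem_filter.mp hx
        refine Finset.mem_inter.mpr ⟨?_, hx1⟩
        rw [← hx2]
        exact mem_tag₂ ds x
      · have hs : (I₁.filter fun x => tag₂ ds x = tag₂ ds a) ⊆ {a} := by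
          intro x hx
          obtain ⟨_, hx2⟩ := Finset.mem_filter.mp hx
          have := mem_tag₂ ds x
          rw [hx2, tag₂_not ds a h] at this
          exact this
        exact (Finset.card_le_card hs).trans (by simpa using hK))
    have hKI₂ : K ≤ I₂.card := by
      have h1 : K * (K * K) ≤ K * (K * I₂.card) := by
        calc K * (K * K) = K * K * K := by ring
          _ ≤ I.card := hI
          _ ≤ K * I₁.card := hc₁
          _ ≤ K * (K * I₂.card) := Nat.mul_le_mul_left _ hc₂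
      have h2 : K * K ≤ K * I₂.card := Nat.le_of_mul_le_mul_left h1 hK
      exact Nat.le_of_mul_le_mul_left h2 hK
    refine hfin I₂ hI₂ fun B hB => ?_
    have hcard : Fintype.card ↥I₂ = I₂.card := Fintype.card_coe I₂
    have hc : ‖B.fam.EJ Finset.univ (TT ds X)‖ ≤ νc ^ m := by
      refine core_one B _ ds X hds hX ?_ rfl m (by rw [hcard]; exact hm.trans hKI₂)
      intro g hg j k hj hk
      rw [hB] at hj hk
      have e1 := tag₂_eq ds hds _ g hg hj
      have e2 := tag₂_eq ds hds _ g hg hk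
      exact Subtype.ext (hinj₂ j.2 k.2 (e1.trans e2.symm))
    have : (0 : ℝ) ≤ 4 * (3 / 4 : ℝ) ^ K := by positivity
    linarith

/-- Inserting the singleton gates. -/
theorem framed_main (K m : ℕ) (hK : 1 ≤ K) (hm : 2 * M₀ * m ≤ K) (n : ℕ) :
    ∀ (gs : List (RGate N)) (_ : gs.Pairwise fun g h => Disjoint g.S h.S) (w : Fin N → M2)
      (_ : ∀ s, Uni (w s)) (ds : List (Finset (Fin N))) (_ : ds.Pairwise Disjoint) (X : Fin N → M2)
      (_ : AllOK X) (I : Finset (Fin N)) (_ : K * K * K ≤ I.card)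
      (_ : ∀ g ∈ gs, (g.S ∩ I).card ≤ K)
      (_ : (I.filter fun i => ∀ g ∈ gs, i ∉ g.S).card = n),
      ‖E I ((lop gs * tensor w)ᴴ * TT ds X * (lop gs * tensor w)) (zeroStr N) (zeroStr N)‖
        ≤ νc ^ m + 4 * (3 / 4 : ℝ) ^ K := by
  classical
  induction n with
  | zero =>
    intro gs hgs w hw ds hds X hX I hI hsmall hn
    refine all_gated K m hK hm gs hgs w hw ds hds X hX I hI hsmall ?_
    intro i hi
    by_contra hc
    push Not at hc
    have : i ∈ I.filter fun i => ∀ g ∈ gs, i ∉ g.S := Finset.mem_filter.mpr ⟨hi, hc⟩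
    rw [Finset.card_eq_zero.mp hn] at this
    exact Finset.notMem_empty _ this
  | succ n ih =>
    intro gs hgs w hw ds hds X hX I hI hsmall hn
    have hne : (I.filter fun i => ∀ g ∈ gs, i ∉ g.S).Nonempty := by
      rw [← Finset.card_pos, hn]
      omega
    obtain ⟨i, hi⟩ := hne
    obtain ⟨hi1, hi2⟩ := Finset.mem_filter.mp hi
    have hG := gateless_step gs i hi2 w
    rw [← hG]
    refine ih (g00 i :: gs) ?_ (Function.update w i (r00 * w i)) ?_ ds hds X hX I hI ?_ ?_
    · rw [List.pairwise_cons]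
      refine ⟨fun g hg => ?_, hgs⟩
      exact Finset.disjoint_singleton_left.mpr (hi2 g hg)
    · intro s
      by_cases hs : s = i
      · subst hs
        simp only [Function.update_self]
        exact r00_uni.mul (hw s)
      · simp only [Function.update_of_ne hs]
        exact hw s
    · intro g hg
      rcases List.mem_cons.mp hg with rfl | hg
      · refine (Finset.card_le_card Finset.inter_subset_left).trans ?_
        show ({i} : Finset (Fin N)).card ≤ K
        simpa using hK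
      · exact hsmall g hg
    · have hsub : (I.filter fun j => ∀ g ∈ g00 i :: gs, j ∉ g.S)
          = (I.filter fun j => ∀ g ∈ gs, j ∉ g.S).erase i := by
        ext j
        simp only [Finset.mem_filter, List.mem_cons, forall_eq_or_imp, Finset.mem_erase]
        constructor
        · rintro ⟨h1, h2, h3⟩
          exact ⟨fun e => h2 (e ▸ Finset.mem_singleton_self _), h1, h3⟩
        · rintro ⟨h1, h2, h3⟩
          exact ⟨h2, fun h => h1 (Finset.mem_singleton.mp h), h3⟩
      rw [hsub, Finset.card_erase_of_mem hi, hn]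
      rfl

end Vale.Agent.Lib.P368y
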