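import Vale.Agent.Lib.P368y.Proj

/-!
Kets, product kets on a set of qubits, and operators supported on a set of qubits.
-/

open scoped BigOperators Matrix Matrix.Norms.L2Operator

namespace Vale.Agent.Lib.P368y

open Vale.Agent.Lib.P368x

variable {N : ℕ}

/-- Inner product of vectors of `ℂ²`. -/
noncomputable def ip (u v : Bool → ℂ) : ℂ := star (u false) * v false + star (u true) * v true

lemma ip_self (u : Bool → ℂ) : ip u u = ((nsq u : ℝ) : ℂ) := by
  have e0 : star (u false) * u false = ((‖u false‖ ^ 2 : ℝ) : ℂ) := by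
    simp [Complex.conj_mul']
  have e1 : star (u true) * u true = ((‖u true‖ ^ 2 : ℝ) : ℂ) := by
    simp [Complex.conj_mul']
  rw [ip, e0, e1, nsq]
  push_cast
  ring

lemma ip_self_unit {u : Bool → ℂ} (hu : nsq u = 1) : ip u u = 1 := by
  rw [ip_self, hu]; simp

lemma star_ip (u v : Bool → ℂ) : star (ip u v) = ip v u := by
  simp [ip, mul_comm]

lemma norm_ip_le {u v : Bool → ℂ} (hu : nsq u = 1) (hv : nsq v = 1) : ‖ip u v‖ ≤ 1 :=
  dot_le u v hu.le hv.le

lemma norm_star_ip (u v : Bool → ℂ) : ‖ip v u‖ = ‖ip u v‖ := by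
  rw [← star_ip, norm_star]

lemma ip_add_right (u v w : Bool → ℂ) : ip u (v + w) = ip u v + ip u w := by
  simp [ip]; ring

lemma ip_smul_right (u v : Bool → ℂ) (c : ℂ) : ip u (c • v) = c * ip u v := by
  simp [ip]; ring

/-- The matrix `|v⟩⟨0|`. -/
noncomputable def ket (v : Bool → ℂ) : M2 := Matrix.of fun a b => if b = false then v a else 0

lemma ket_sandwich (u v : Bool → ℂ) (Y : M2) : (ket u)ᴴ * Y * ket v = ip u (Y *ᵥ v) • e00 := by
  ext a b
  cases a <;> cases b <;>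
    simp [ket, e00, ip, Matrix.mul_apply, Fintype.sum_bool, Matrix.mulVec, dotProduct] <;> ring

lemma ket_adj_mul (u v : Bool → ℂ) : (ket u)ᴴ * ket v = ip u v • e00 := by
  have := ket_sandwich u v 1
  simpa using this

lemma ket_mul_e00 (v : Bool → ℂ) : ket v * e00 = ket v := by
  ext a b
  cases a <;> cases b <;> simp [ket, e00, Matrix.mul_apply, Fintype.sum_bool]

lemma e00_mul_ket_adj (v : Bool → ℂ) : e00 * (ket v)ᴴ = (ket v)ᴴ := by
  ext a b
  cases a <;> cases b <;> simp [ket, e00, Matrix.mul_apply, Fintype.sum_bool]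

lemma e00_herm : e00ᴴ = e00 := proj1_e00.herm
lemma e00_idem : e00 * e00 = e00 := proj1_e00.idem
lemma e11_herm : e11ᴴ = e11 := proj1_e11.herm
lemma e11_idem : e11 * e11 = e11 := proj1_e11.idem

lemma e00_add_e11 : e00 + e11 = 1 := by
  ext a b
  cases a <;> cases b <;> simp [e00, e11]

lemma e00_mul_e11 : e00 * e11 = 0 := by
  ext a b
  cases a <;> cases b <;> simp [e00, e11, Matrix.mul_apply, Fintype.sum_bool]

lemma e11_mul_e00 : e11 * e00 = 0 := by
  ext a b
  cases a <;> cases b <;> simp [e00, e11, Matrix.mul_apply, Fintype.sum_bool]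

lemma norm_ket_le {v : Bool → ℂ} (hv : nsq v = 1) : ‖ket v‖ ≤ 1 := by
  have h : ‖(ket v)ᴴ * ket v‖ = ‖ket v‖ * ‖ket v‖ := Matrix.l2_opNorm_conjTranspose_mul_self _
  rw [ket_adj_mul, ip_self_unit hv, one_smul] at h
  have h2 := proj1_e00.norm_le
  nlinarith [norm_nonneg (ket v)]

/-- Scalars pulled out of a tensor product on a set of sites. -/
lemma tensor_smul_on (S : Finset (Fin N)) (c : Fin N → ℂ) (A : Fin N → M2) :
    (tensor fun s => if s ∈ S then c s • A s else A s) = (∏ s ∈ S, c s) • tensor A := by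
  ext a b
  simp only [tensor_apply, Matrix.smul_apply, smul_eq_mul]
  have : ∀ s, (if s ∈ S then c s • A s else A s) (a s) (b s)
      = (if s ∈ S then c s else 1) * A s (a s) (b s) := by
    intro s
    by_cases hs : s ∈ S <;> simp [hs]
  simp only [this]
  rw [Finset.prod_mul_distrib, Finset.prod_ite_mem, Finset.univ_inter]

/-- Product ket on the set `S`: `|v_s⟩⟨0|` on `S`, identity elsewhere. -/
noncomputable def Kt (S : Finset (Fin N)) (v : Fin N → Bool → ℂ) : Op N :=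
  tensor fun s => if s ∈ S then ket (v s) else 1

/-- The projector onto `|0⟩` on the set `S`. -/
noncomputable def Pr (S : Finset (Fin N)) : Op N := tensor fun s => if s ∈ S then e00 else 1

lemma Pr_herm (S : Finset (Fin N)) : (Pr S)ᴴ = Pr S := by
  apply tensor_herm
  intro s
  by_cases hs : s ∈ S <;> simp [hs, e00_herm]

lemma Pr_idem (S : Finset (Fin N)) : Pr S * Pr S = Pr S := by
  apply tensor_idem
  intro s
  by_cases hs : s ∈ S <;> simp [hs, e00_idem]

lemma norm_le_one_of_proj' {P : Op N} (hh : Pᴴ = P) (hi : P * P = P) : ‖P‖ ≤ 1 := by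
  have h : ‖Pᴴ * P‖ = ‖P‖ * ‖P‖ := Matrix.l2_opNorm_conjTranspose_mul_self _
  rw [hh, hi] at h
  nlinarith [norm_nonneg P]

lemma norm_Pr_le (S : Finset (Fin N)) : ‖Pr S‖ ≤ 1 := norm_le_one_of_proj' (Pr_herm S) (Pr_idem S)

lemma Kt_sandwich (S : Finset (Fin N)) (u v : Fin N → Bool → ℂ) (Y : Fin N → M2) :
    (Kt S u)ᴴ * tensor Y * Kt S v
      = (∏ s ∈ S, ip (u s) (Y s *ᵥ v s)) • tensor fun s => if s ∈ S then e00 else Y s := by
  rw [← tensor_smul_on]
  rw [Kt, Kt, tensor_conjTranspose, tensor_mul, tensor_mul]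
  congr 1
  funext s
  by_cases hs : s ∈ S
  · simp [hs, ket_sandwich]
  · simp [hs]

lemma Kt_adj_mul (S : Finset (Fin N)) (u v : Fin N → Bool → ℂ) :
    (Kt S u)ᴴ * Kt S v = (∏ s ∈ S, ip (u s) (v s)) • Pr S := by
  have := Kt_sandwich S u v (fun _ => 1)
  simp only [tensor_one, mul_one, Matrix.one_mulVec] at this
  rw [this, Pr]

lemma Kt_adj_mul_unit (S : Finset (Fin N)) (v : Fin N → Bool → ℂ) (hv : ∀ s ∈ S, nsq (v s) = 1) :
    (Kt S v)ᴴ * Kt S v = Pr S := by
  rw [Kt_adj_mul, Finset.prod_eq_one, one_smul]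
  intro s hs
  exact ip_self_unit (hv s hs)

lemma norm_Kt_le (S : Finset (Fin N)) (v : Fin N → Bool → ℂ) (hv : ∀ s ∈ S, nsq (v s) = 1) :
    ‖Kt S v‖ ≤ 1 := by
  have h : ‖(Kt S v)ᴴ * Kt S v‖ = ‖Kt S v‖ * ‖Kt S v‖ := Matrix.l2_opNorm_conjTranspose_mul_self _
  rw [Kt_adj_mul_unit S v hv] at h
  have h2 := norm_Pr_le S
  nlinarith [norm_nonneg (Kt S v)]

lemma norm_prod_ip_le (S : Finset (Fin N)) (u v : Fin N → Bool → ℂ)
    (hu : ∀ s ∈ S, nsq (u s) = 1) (hv : ∀ s ∈ S, nsq (v s) = 1) :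
    ‖∏ s ∈ S, ip (u s) (v s)‖ ≤ 1 := by
  rw [norm_prod]
  exact Finset.prod_le_one (fun _ _ => norm_nonneg _) fun s hs => norm_ip_le (hu s hs) (hv s hs)

/-- Splitting a product ket over a disjoint union. -/
lemma Kt_union (S T : Finset (Fin N)) (h : Disjoint S T) (v : Fin N → Bool → ℂ) :
    Kt (S ∪ T) v = Kt S v * Kt T v := by
  rw [Kt, Kt, Kt, tensor_mul]
  congr 1
  funext s
  by_cases hs : s ∈ S
  · have : s ∉ T := Finset.disjoint_left.mp h hs
    simp [hs, this]
  · by_cases ht : s ∈ T <;> simp [hs, ht]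

lemma Pr_union (S T : Finset (Fin N)) (h : Disjoint S T) : Pr (S ∪ T) = Pr S * Pr T := by
  rw [Pr, Pr, Pr, tensor_mul]
  congr 1
  funext s
  by_cases hs : s ∈ S
  · have : s ∉ T := Finset.disjoint_left.mp h hs
    simp [hs, this]
  · by_cases ht : s ∈ T <;> simp [hs, ht]

lemma Kt_congr (S : Finset (Fin N)) {u v : Fin N → Bool → ℂ} (h : ∀ s ∈ S, u s = v s) :
    Kt S u = Kt S v := by
  rw [Kt, Kt]
  congr 1
  funext s
  by_cases hs : s ∈ S
  · simp [hs, h s hs]
  · simp [hs]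

@[simp] lemma Kt_empty (v : Fin N → Bool → ℂ) : Kt (∅ : Finset (Fin N)) v = 1 := by
  simp [Kt, tensor_one]

@[simp] lemma Pr_empty : Pr (∅ : Finset (Fin N)) = 1 := by
  simp [Pr, tensor_one]

lemma Kt_singleton (s : Fin N) (v : Fin N → Bool → ℂ) : Kt {s} v = site s (ket (v s)) := by
  rw [Kt, site]
  congr 1
  funext t
  by_cases ht : t = s
  · subst ht; simp
  · simp [ht]

/-! ### Operators supported on a set of qubits -/

/-- Product tensors acting trivially off `S`. -/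
def tensorsOn (S : Finset (Fin N)) : Set (Op N) :=
  {A | ∃ X : Fin N → M2, (∀ s, s ∉ S → X s = 1) ∧ A = tensor X}

/-- The algebra generated by the product tensors acting trivially off `S`. -/
noncomputable def SA (S : Finset (Fin N)) : Subalgebra ℂ (Op N) := Algebra.adjoin ℂ (tensorsOn S)

lemma tensor_mem_SA {S : Finset (Fin N)} {X : Fin N → M2} (h : ∀ s, s ∉ S → X s = 1) :
    tensor X ∈ SA S := Algebra.subset_adjoin ⟨X, h, rfl⟩

lemma SA_mono {S T : Finset (Fin N)} (h : S ⊆ T) {A : Op N} (hA : A ∈ SA S) : A ∈ SA T := by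
  refine Algebra.adjoin_mono ?_ hA
  rintro B ⟨X, hX, rfl⟩
  exact ⟨X, fun s hs => hX s fun hh => hs (h hh), rfl⟩

lemma SA_commute {S T : Finset (Fin N)} (h : Disjoint S T) {A B : Op N} (hA : A ∈ SA S)
    (hB : B ∈ SA T) : Commute A B := by
  refine Algebra.commute_of_mem_adjoin_of_forall_mem_commute hB ?_
  intro b hb
  refine (Algebra.commute_of_mem_adjoin_of_forall_mem_commute hA ?_).symm
  intro a ha
  obtain ⟨X, hX, rfl⟩ := ha
  obtain ⟨Y, hY, rfl⟩ := hb
  apply tensor_commute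
  intro s
  by_cases hs : s ∈ S
  · left
    exact hY s (Finset.disjoint_left.mp h hs)
  · right
    exact hX s hs

lemma SA_adj {S : Finset (Fin N)} {A : Op N} (hA : A ∈ SA S) : Aᴴ ∈ SA S := by
  induction hA using Algebra.adjoin_induction with
  | mem x hx =>
    obtain ⟨X, hX, rfl⟩ := hx
    rw [tensor_conjTranspose]
    apply tensor_mem_SA
    intro s hs
    simp [hX s hs]
  | algebraMap r =>
    have : (algebraMap ℂ (Op N) r)ᴴ = algebraMap ℂ (Op N) (star r) := by
      rw [Algebra.algebraMap_eq_smul_one, Algebra.algebraMap_eq_smul_one,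
        Matrix.conjTranspose_smul, Matrix.conjTranspose_one]
    rw [this]
    exact Subalgebra.algebraMap_mem _ _
  | add x y _ _ hx hy =>
    rw [Matrix.conjTranspose_add]
    exact add_mem hx hy
  | mul x y _ _ hx hy =>
    rw [Matrix.conjTranspose_mul]
    exact mul_mem hy hx

lemma SA_one (S : Finset (Fin N)) : (1 : Op N) ∈ SA S := one_mem _

lemma Kt_mem_SA (S : Finset (Fin N)) (v : Fin N → Bool → ℂ) : Kt S v ∈ SA S := by
  apply tensor_mem_SA
  intro s hs
  simp [hs]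

lemma Pr_mem_SA (S : Finset (Fin N)) : Pr S ∈ SA S := by
  apply tensor_mem_SA
  intro s hs
  simp [hs]

lemma site_mem_SA {s : Fin N} {S : Finset (Fin N)} (h : s ∈ S) (A : M2) : site s A ∈ SA S := by
  apply tensor_mem_SA
  intro t ht
  have : t ≠ s := fun h' => ht (h' ▸ h)
  simp [this]

/-! ### Combinations of two product kets -/

lemma star_prod_ip (S : Finset (Fin N)) (u v : Fin N → Bool → ℂ) :
    star (∏ s ∈ S, ip (u s) (v s)) = ∏ s ∈ S, ip (v s) (u s) := by
  rw [star_prod]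
  exact Finset.prod_congr rfl fun s _ => star_ip _ _

/-- Gram computation for a combination of two product kets. -/
lemma comb_adj_mul (S : Finset (Fin N)) (u v : Fin N → Bool → ℂ) (hu : ∀ s ∈ S, nsq (u s) = 1)
    (hv : ∀ s ∈ S, nsq (v s) = 1) (a b : ℂ) :
    (a • Kt S u + b • Kt S v)ᴴ * (a • Kt S u + b • Kt S v)
      = ((‖a‖ ^ 2 + ‖b‖ ^ 2 + 2 * (star a * b * ∏ s ∈ S, ip (u s) (v s)).re : ℝ) : ℂ) • Pr S := by
  simp only [Matrix.conjTranspose_add, Matrix.conjTranspose_smul, add_mul, mul_add, smul_mul_assoc,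
    mul_smul_comm, Kt_adj_mul_unit S u hu, Kt_adj_mul_unit S v hv, Kt_adj_mul S u v, Kt_adj_mul S v u,
    smul_smul]
  set g := ∏ s ∈ S, ip (u s) (v s) with hg
  have hg' : ∏ s ∈ S, ip (v s) (u s) = star g := (star_prod_ip S u v).symm
  rw [hg']
  have e : ((‖a‖ ^ 2 + ‖b‖ ^ 2 + 2 * (star a * b * g).re : ℝ) : ℂ)
      = a * star a + star a * b * g + (b * star b + star b * a * star g) := by
    have h1 : star b * a * star g = star (star a * b * g) := by
      simp [mul_comm, mul_left_comm]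
    have h2 : (star a * b * g) + star (star a * b * g) = ((2 * (star a * b * g).re : ℝ) : ℂ) := by
      have := Complex.add_conj (star a * b * g)
      simpa using this
    have h3 : a * star a = ((‖a‖ ^ 2 : ℝ) : ℂ) := by
      simp [Complex.mul_conj']
    have h4 : b * star b = ((‖b‖ ^ 2 : ℝ) : ℂ) := by
      simp [Complex.mul_conj']
    rw [h1, h3, h4]
    push_cast at h2 ⊢
    linear_combination -h2
  rw [e]
  ext x y
  simp only [Matrix.add_apply, Matrix.smul_apply, smul_eq_mul]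
  ring

lemma comb_val_nonneg (g a b : ℂ) (hg : ‖g‖ ≤ 1) :
    0 ≤ ‖a‖ ^ 2 + ‖b‖ ^ 2 + 2 * (star a * b * g).re := by
  have h1 : |(star a * b * g).re| ≤ ‖a‖ * ‖b‖ := by
    refine (Complex.abs_re_le_norm _).trans ?_
    rw [norm_mul, norm_mul, norm_star]
    have := mul_nonneg (norm_nonneg a) (norm_nonneg b)
    nlinarith
  have h2 := (abs_le.mp h1).1
  nlinarith [sq_nonneg (‖a‖ - ‖b‖)]

/-- Norm of a combination of two product kets. -/
lemma norm_comb_sq_le (S : Finset (Fin N)) (u v : Fin N → Bool → ℂ) (hu : ∀ s ∈ S, nsq (u s) = 1)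
    (hv : ∀ s ∈ S, nsq (v s) = 1) (a b : ℂ) :
    ‖a • Kt S u + b • Kt S v‖ ^ 2 ≤ ‖a‖ ^ 2 + ‖b‖ ^ 2 + 2 * (star a * b * ∏ s ∈ S, ip (u s) (v s)).re := by
  have h : ‖(a • Kt S u + b • Kt S v)ᴴ * (a • Kt S u + b • Kt S v)‖
      = ‖a • Kt S u + b • Kt S v‖ * ‖a • Kt S u + b • Kt S v‖ :=
    Matrix.l2_opNorm_conjTranspose_mul_self _
  rw [comb_adj_mul S u v hu hv, norm_smul, Complex.norm_real] at h
  have hval := comb_val_nonneg (∏ s ∈ S, ip (u s) (v s)) a b (norm_prod_ip_le S u v hu hv)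
  rw [Real.norm_of_nonneg hval] at h
  rw [sq, ← h]
  have := norm_Pr_le S
  nlinarith

end Vale.Agent.Lib.P368y
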